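import Vale.Agent.P060.Defs

/-!
# P060, row K: block colouring
-/

namespace Vale.Agent.P060

open Finset

variable {V : Type} [Fintype V] [DecidableEq V]

namespace Colour

/-- `U` can be properly coloured with `c` colours. -/
def Col (G : SimpleGraph V) (U : Finset V) (c : ℕ) : Prop :=
  ∃ f : V → ℕ, (∀ v ∈ U, f v < c) ∧ ∀ u ∈ U, ∀ v ∈ U, G.Adj u v → f u ≠ f v

variable {G : SimpleGraph V}

omit [Fintype V] [DecidableEq V] in
theorem Col.mono {U U' : Finset V} {c c' : ℕ} (h : Col G U c) (hU : U' ⊆ U) (hc : c ≤ c') :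
    Col G U' c' := by
  obtain ⟨f, h1, h2⟩ := h
  exact ⟨f, fun v hv => (h1 v (hU hv)).trans_le hc, fun u hu v hv => h2 u (hU hu) v (hU hv)⟩

omit [Fintype V] in
theorem Col.union {U₁ U₂ : Finset V} {c₁ c₂ : ℕ} (h₁ : Col G U₁ c₁) (h₂ : Col G U₂ c₂) :
    Col G (U₁ ∪ U₂) (c₁ + c₂) := by
  obtain ⟨f, hf, hf'⟩ := h₁
  obtain ⟨g, hg, hg'⟩ := h₂
  refine ⟨fun v => if v ∈ U₁ then f v else c₁ + g v, ?_, ?_⟩
  · intro v hv
    by_cases h : v ∈ U₁
    · simp only [h, if_true]
      have := hf v h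
      omega
    · simp only [h, if_false]
      have := hg v ((mem_union.1 hv).resolve_left h)
      omega
  · intro u hu v hv huv
    by_cases h : u ∈ U₁ <;> by_cases h' : v ∈ U₁
    · simp only [h, h', if_true]
      exact hf' u h v h' huv
    · simp only [h, h', if_true, if_false]
      have := hf u h
      omega
    · simp only [h, h', if_true, if_false]
      have := hf v h'
      omega
    · simp only [h, h', if_false]
      have := hg' u ((mem_union.1 hu).resolve_left h) v ((mem_union.1 hv).resolve_left h') huv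
      omega

omit [Fintype V] [DecidableEq V] in
theorem Col.indep {I : Finset V} (h : Indep G I) : Col G I 1 :=
  ⟨fun _ => 0, fun _ _ => Nat.zero_lt_one, fun u hu v hv huv => absurd huv (h u hu v hv)⟩

omit [Fintype V] in
theorem Col.empty : Col G ∅ 0 :=
  ⟨fun _ => 0, fun v hv => absurd hv (notMem_empty v), fun u hu => absurd hu (notMem_empty u)⟩

omit [Fintype V] in
theorem Col.card (U : Finset V) : Col G U U.card := by
  refine ⟨fun v => if h : v ∈ U then (U.equivFin ⟨v, h⟩ : ℕ) else 0, ?_, ?_⟩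
  · intro v hv
    simp only [hv, dif_pos]
    exact (U.equivFin ⟨v, hv⟩).2
  · intro u hu v hv huv h
    simp only [hu, hv, dif_pos] at h
    have h1 := U.equivFin.injective (Fin.ext h)
    exact G.ne_of_adj huv (congrArg Subtype.val h1)

omit [Fintype V] [DecidableEq V] in
theorem Col.colorable {U : Finset V} {c : ℕ} (h : Col G U c) :
    (G.induce (U : Set V)).Colorable c := by
  obtain ⟨f, h1, h2⟩ := h
  exact ⟨SimpleGraph.Coloring.mk (fun v => (⟨f v.1, h1 v.1 v.2⟩ : Fin c)) (by
    intro u v huv h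
    exact h2 u.1 u.2 v.1 v.2 huv (congrArg Fin.val h))⟩

section

variable {W : Finset V} {b : ℕ} {z : V → ℝ}

omit [Fintype V] in
/-- Removing independent sets. -/
theorem shrink (hz : ∀ v, 0 ≤ z v)
    (h : ∀ U ⊆ W, ∑ v ∈ U, z v < 1 → ∃ I ⊆ U, Indep G I ∧ U.card ≤ b * I.card)
    (N : ℕ) (U : Finset V) (hU : U ⊆ W) (hz1 : ∑ v ∈ U, z v < 1) (j : ℕ) :
    ∃ L ⊆ U, Col G (U \ L) j ∧ (L.card ≤ N ∨ b * L.card + j * N ≤ b * U.card) := by
  induction j with
  | zero =>
    refine ⟨U, Subset.rfl, ?_, Or.inr (by simp)⟩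
    rw [sdiff_self]
    exact Col.empty
  | succ j ih =>
    obtain ⟨L, hLU, hc, hL⟩ := ih
    by_cases hN : L.card ≤ N
    · exact ⟨L, hLU, hc.mono Subset.rfl (Nat.le_succ j), Or.inl hN⟩
    · have h1 := hL.resolve_left hN
      obtain ⟨I, hIL, hI, hIc⟩ := h L (hLU.trans hU)
        ((sum_le_sum_of_subset_of_nonneg hLU fun v _ _ => hz v).trans_lt hz1)
      refine ⟨L \ I, sdiff_subset.trans hLU, ?_, Or.inr ?_⟩
      · have h2 := hc.union (Col.indep hI)
        refine h2.mono ?_ le_rfl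
        intro v hv
        rw [mem_sdiff, mem_sdiff] at hv
        rw [mem_union, mem_sdiff]
        by_cases hvL : v ∈ L
        · exact Or.inr (by_contra fun hvI => hv.2 ⟨hvL, hvI⟩)
        · exact Or.inl ⟨hv.1, hvL⟩
      · have h2 : (L \ I).card + I.card = L.card := card_sdiff_add_card_eq_card hIL
        have h3 : b * L.card = b * (L \ I).card + b * I.card := by rw [← mul_add, h2]
        have h4 : (j + 1) * N = j * N + N := by ring
        omega

omit [Fintype V] in
theorem shrink' (hb : 1 ≤ b) (hz : ∀ v, 0 ≤ z v)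
    (h : ∀ U ⊆ W, ∑ v ∈ U, z v < 1 → ∃ I ⊆ U, Indep G I ∧ U.card ≤ b * I.card)
    (N : ℕ) (hN : 1 ≤ N) (U : Finset V) (hU : U ⊆ W) (hz1 : ∑ v ∈ U, z v < 1)
    (hUN : U.card ≤ 6 * N) :
    ∃ L ⊆ U, Col G (U \ L) (6 * b + 1) ∧ L.card ≤ N := by
  obtain ⟨L, h1, h2, h3⟩ := shrink hz h N U hU hz1 (6 * b + 1)
  refine ⟨L, h1, h2, h3.resolve_right fun h4 => ?_⟩
  have h5 : b * U.card ≤ b * (6 * N) := Nat.mul_le_mul_left b hUN
  have h6 : (6 * b + 1) * N = b * (6 * N) + N := by ring
  omega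

omit [Fintype V] [DecidableEq V] in
/-- A block of mass between `1/4` and `1/2`. -/
theorem exists_block [DecidableEq V] (hz : ∀ v, 0 ≤ z v) (S : Finset V) (hS : ∀ v ∈ S, z v < 1 / 4)
    (h : 1 / 4 ≤ ∑ v ∈ S, z v) :
    ∃ B ⊆ S, 1 / 4 ≤ ∑ v ∈ B, z v ∧ ∑ v ∈ B, z v < 1 / 2 := by
  induction S using Finset.strongInduction with
  | H S ih =>
    by_cases h1 : ∑ v ∈ S, z v < 1 / 2
    · exact ⟨S, Subset.rfl, h, h1⟩
    · rcases S.eq_empty_or_nonempty with rfl | ⟨v, hv⟩
      · rw [sum_empty] at h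
        norm_num at h
      · have h2 := sum_erase_add S z hv
        have h3 := hS v hv
        obtain ⟨B, hB, hB1⟩ := ih (S.erase v) (erase_ssubset hv)
          (fun w hw => hS w (mem_of_mem_erase hw)) (by linarith)
        exact ⟨B, hB.trans (erase_subset _ _), hB1⟩

omit [Fintype V] in
theorem level (hb : 1 ≤ b) (hz : ∀ v, 0 ≤ z v)
    (h : ∀ U ⊆ W, ∑ v ∈ U, z v < 1 → ∃ I ⊆ U, Indep G I ∧ U.card ≤ b * I.card)
    (N : ℕ) (hN : 1 ≤ N) (t : ℕ) : ∀ L V' : Finset V, L ⊆ W → V' ⊆ W →
      (∀ v ∈ L, z v ≤ 1 / (4 * N)) → (∀ v ∈ V', 1 / (8 * N) ≤ z v ∧ z v < 1 / (4 * N)) →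
      L.card ≤ 2 * N → ∑ v ∈ L, z v ≤ 1 / 4 → ∑ v ∈ V', z v < t / 4 →
      ∃ L' ⊆ L ∪ V', L'.card ≤ N ∧ Col G ((L ∪ V') \ L') (t * (6 * b + 1)) := by
  have hN' : (1 : ℝ) ≤ N := by exact_mod_cast hN
  induction t with
  | zero =>
    intro L V' _ _ _ _ _ _ h1
    have := sum_nonneg (s := V') fun v _ => hz v
    norm_num at h1
    linarith
  | succ t ih =>
    intro L V' hL hV hzL hzV hLc hL1 hV1
    -- one block `B`
    have step : ∀ B ⊆ V', ∑ v ∈ B, z v < 1 / 2 → ∃ L' ⊆ L ∪ B, Col G ((L ∪ B) \ L') (6 * b + 1) ∧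
        L'.card ≤ N := by
      intro B hB hB2
      refine shrink' hb hz h N hN (L ∪ B) (union_subset hL (hB.trans hV)) ?_ ?_
      · have h1 : ∑ v ∈ L ∪ B, z v ≤ ∑ v ∈ L, z v + ∑ v ∈ B, z v := by
          rw [← sum_union_inter]
          exact le_add_of_nonneg_right (sum_nonneg fun v _ => hz v)
        linarith
      · have h2 : B.card • (1 / (8 * N) : ℝ) ≤ ∑ v ∈ B, z v :=
          card_nsmul_le_sum B z _ fun v hv => (hzV v (hB hv)).1
        rw [nsmul_eq_mul] at h2
        have h3 : (B.card : ℝ) < 4 * N := by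
          have h4 : (B.card : ℝ) * (1 / (8 * N)) < 1 / 2 := h2.trans_lt hB2
          rw [mul_one_div, div_lt_iff₀ (by positivity)] at h4
          linarith
        have h5 : B.card < 4 * N := by exact_mod_cast h3
        have h6 := card_union_le L B
        omega
    by_cases hlt : ∑ v ∈ V', z v < 1 / 2
    · obtain ⟨L', h1, h2, h3⟩ := step V' Subset.rfl hlt
      exact ⟨L', h1, h3, h2.mono Subset.rfl (Nat.le_mul_of_pos_left _ (Nat.succ_pos t))⟩
    · have hN4 : (1 : ℝ) / (4 * N) ≤ 1 / 4 := by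
        rw [div_le_div_iff₀ (by positivity) (by norm_num)]
        linarith
      obtain ⟨B, hB, hB1, hB2⟩ := exists_block hz V'
        (fun v hv => (hzV v hv).2.trans_le hN4) (by linarith)
      obtain ⟨L₁, h1, h2, h3⟩ := step B hB hB2
      have hL₁z : ∀ v ∈ L₁, z v ≤ 1 / (4 * N) := by
        intro v hv
        rcases mem_union.1 (h1 hv) with hv' | hv'
        · exact hzL v hv'
        · exact (hzV v (hB hv')).2.le
      obtain ⟨L', h4, h5, h6⟩ := ih L₁ (V' \ B) (h1.trans (union_subset hL (hB.trans hV)))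
        (sdiff_subset.trans hV) hL₁z (fun v hv => hzV v (sdiff_subset hv))
        (h3.trans (by omega)) (by
          have h7 : ∑ v ∈ L₁, z v ≤ L₁.card • (1 / (4 * N) : ℝ) := sum_le_card_nsmul _ _ _ hL₁z
          rw [nsmul_eq_mul] at h7
          have h8 : (L₁.card : ℝ) ≤ N := by exact_mod_cast h3
          have h9 : (L₁.card : ℝ) * (1 / (4 * N)) ≤ N * (1 / (4 * N)) :=
            mul_le_mul_of_nonneg_right h8 (by positivity)
          have h10 : (N : ℝ) * (1 / (4 * N)) = 1 / 4 := by field_simp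
          linarith) (by
          have h7 := sum_sdiff (f := z) hB
          push_cast at hV1
          linarith)
      refine ⟨L', ?_, h5, ?_⟩
      · refine h4.trans (union_subset (h1.trans (union_subset_union_right hB)) ?_)
        exact sdiff_subset.trans subset_union_right
      · have h7 := h2.union h6
        refine h7.mono ?_ (le_of_eq (by ring))
        intro v hv
        rw [mem_sdiff, mem_union] at hv
        rw [mem_union, mem_sdiff, mem_sdiff, mem_union, mem_union, mem_sdiff]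
        by_cases hv1 : v ∈ L₁
        · exact Or.inr ⟨Or.inl hv1, hv.2⟩
        · rcases hv.1 with hv2 | hv2
          · exact Or.inl ⟨Or.inl hv2, hv1⟩
          · by_cases hvB : v ∈ B
            · exact Or.inl ⟨Or.inr hvB, hv1⟩
            · exact Or.inr ⟨Or.inr ⟨hv2, hvB⟩, hv.2⟩

end

end Colour

open Colour

/-- ROW K (block colouring). -/
theorem colour (G : SimpleGraph V) (W : Finset V) (b Q l : ℕ) (hb : 1 ≤ b) (z : V → ℝ)
    (hz : ∀ v, 0 ≤ z v) (hQ : ∑ v ∈ W, z v ≤ Q)
    (h : ∀ U ⊆ W, ∑ v ∈ U, z v < 1 → ∃ I ⊆ U, Indep G I ∧ U.card ≤ b * I.card)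
    (hW : W.card ≤ b * 2 ^ l) :
    (G.induce (W : Set V)).Colorable (100 * b * (Q + l + 1)) := by
  classical
  have hb' : (1 : ℝ) ≤ b := by exact_mod_cast hb
  -- the threshold at level `i`
  let θ : ℕ → ℝ := fun i => 1 / (4 * (b * 2 ^ i : ℕ))
  let Wi : ℕ → Finset V := fun i => W.filter fun v => z v < θ i
  have hN : ∀ i, 1 ≤ b * 2 ^ i := fun i => Nat.mul_pos hb (by positivity)
  have key : ∀ k ≤ l, ∃ L ⊆ Wi (l - k), ∃ c : ℕ, L.card ≤ b * 2 ^ (l - k) ∧ Col G (Wi (l - k) \ L) c ∧
      (c : ℝ) ≤ (6 * b + 1) * (4 * ∑ v ∈ Wi (l - k), z v + k) := by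
    intro k
    induction k with
    | zero =>
      intro _
      refine ⟨Wi (l - 0), Subset.rfl, 0, ?_, ?_, ?_⟩
      · rw [Nat.sub_zero]
        exact (card_le_card (filter_subset _ _)).trans hW
      · rw [sdiff_self]
        exact Col.empty
      · have := sum_nonneg (s := Wi (l - 0)) fun v _ => hz v
        push_cast
        positivity
    | succ k ih =>
      intro hk
      obtain ⟨L, hL, c, hLc, hc, hc1⟩ := ih (by omega)
      obtain ⟨i, hi⟩ : ∃ i, l - k = i + 1 := ⟨l - k - 1, by omega⟩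
      have hi' : l - (k + 1) = i := by omega
      rw [hi] at hL hLc hc hc1
      rw [hi']
      have hNi : (1 : ℝ) ≤ (b * 2 ^ i : ℕ) := by exact_mod_cast hN i
      have hθ : θ (i + 1) = 1 / (8 * (b * 2 ^ i : ℕ)) := by
        simp only [θ]
        congr 1
        push_cast
        ring
      have hθle : θ (i + 1) ≤ θ i := by
        rw [hθ]
        simp only [θ]
        rw [div_le_div_iff₀ (by positivity) (by positivity)]
        linarith
      let V' : Finset V := W.filter fun v => θ (i + 1) ≤ z v ∧ z v < θ i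
      have hdisj : Disjoint (Wi (i + 1)) V' := by
        rw [disjoint_left]
        intro v hv hv'
        have h1 := (mem_filter.1 hv).2
        have h2 := (mem_filter.1 hv').2.1
        linarith
      have hunion : Wi i = Wi (i + 1) ∪ V' := by
        ext v
        simp only [Wi, V', mem_union, mem_filter]
        constructor
        · rintro ⟨h1, h2⟩
          by_cases h3 : z v < θ (i + 1)
          · exact Or.inl ⟨h1, h3⟩
          · exact Or.inr ⟨h1, not_lt.1 h3, h2⟩
        · rintro (⟨h1, h2⟩ | ⟨h1, h2, h3⟩)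
          · exact ⟨h1, h2.trans_le hθle⟩
          · exact ⟨h1, h3⟩
      have hsum : ∑ v ∈ Wi i, z v = ∑ v ∈ Wi (i + 1), z v + ∑ v ∈ V', z v := by
        rw [hunion, sum_union hdisj]
      have hLz : ∀ v ∈ L, z v ≤ 1 / (8 * (b * 2 ^ i : ℕ)) := by
        intro v hv
        have := (mem_filter.1 (hL hv)).2
        rw [hθ] at this
        exact this.le
      obtain ⟨L', h1, h2, h3⟩ := level (G := G) (W := W) (z := z) hb hz h (b * 2 ^ i) (hN i)
        (⌊4 * ∑ v ∈ V', z v⌋₊ + 1) L V' (hL.trans (filter_subset _ _)) (filter_subset _ _)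
        (by
          intro v hv
          refine (hLz v hv).trans ?_
          rw [div_le_div_iff₀ (by positivity) (by positivity)]
          linarith)
        (by
          intro v hv
          have := (mem_filter.1 hv).2
          rw [hθ] at this
          exact this)
        (by
          rw [pow_succ] at hLc
          linarith) (by
          have h7 : ∑ v ∈ L, z v ≤ L.card • (1 / (8 * (b * 2 ^ i : ℕ)) : ℝ) :=
            sum_le_card_nsmul _ _ _ hLz
          rw [nsmul_eq_mul] at h7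
          have h8 : (L.card : ℝ) ≤ 2 * (b * 2 ^ i : ℕ) := by
            have : L.card ≤ 2 * (b * 2 ^ i) := by
              rw [pow_succ] at hLc
              linarith
            exact_mod_cast this
          have h9 : (L.card : ℝ) * (1 / (8 * (b * 2 ^ i : ℕ))) ≤
              2 * (b * 2 ^ i : ℕ) * (1 / (8 * (b * 2 ^ i : ℕ))) :=
            mul_le_mul_of_nonneg_right h8 (by positivity)
          have h10 : 2 * ((b * 2 ^ i : ℕ) : ℝ) * (1 / (8 * (b * 2 ^ i : ℕ))) = 1 / 4 := by
            have : ((b * 2 ^ i : ℕ) : ℝ) ≠ 0 := by positivity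
            field_simp
            norm_num
          linarith) (by
          have := Nat.lt_floor_add_one (4 * ∑ v ∈ V', z v)
          push_cast
          linarith)
      refine ⟨L', ?_, c + (⌊4 * ∑ v ∈ V', z v⌋₊ + 1) * (6 * b + 1), h2, ?_, ?_⟩
      · rw [hunion]
        exact h1.trans (union_subset_union_left hL)
      · refine (hc.union h3).mono ?_ le_rfl
        rw [hunion]
        intro v hv
        rw [mem_sdiff, mem_union] at hv
        rw [mem_union, mem_sdiff, mem_sdiff, mem_union]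
        by_cases hvL : v ∈ L
        · exact Or.inr ⟨Or.inl hvL, hv.2⟩
        · rcases hv.1 with hv1 | hv1
          · exact Or.inl ⟨hv1, hvL⟩
          · exact Or.inr ⟨Or.inr hv1, hv.2⟩
      · have h4 : (⌊4 * ∑ v ∈ V', z v⌋₊ : ℝ) ≤ 4 * ∑ v ∈ V', z v := by
          refine Nat.floor_le ?_
          have := sum_nonneg (s := V') fun v _ => hz v
          positivity
        push_cast
        rw [hsum]
        have h5 : (0 : ℝ) ≤ 6 * b + 1 := by positivity
        have h6 := mul_le_mul_of_nonneg_right h4 h5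
        nlinarith
  obtain ⟨L, hL, c, hLc, hc, hc1⟩ := key l le_rfl
  rw [Nat.sub_self] at hL hLc hc hc1
  rw [pow_zero, mul_one] at hLc
  -- the heavy vertices
  let H : Finset V := W.filter fun v => θ 0 ≤ z v
  have hθ0 : θ 0 = 1 / (4 * b) := by simp [θ]
  have hH : H.card ≤ 4 * b * Q := by
    have h2 : H.card • (1 / (4 * b) : ℝ) ≤ ∑ v ∈ H, z v :=
      card_nsmul_le_sum H z _ fun v hv => by
        have := (mem_filter.1 hv).2
        rwa [hθ0] at this
    rw [nsmul_eq_mul] at h2
    have h3 : ∑ v ∈ H, z v ≤ ∑ v ∈ W, z v :=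
      sum_le_sum_of_subset_of_nonneg (filter_subset _ _) fun v _ _ => hz v
    have h4 : (H.card : ℝ) * (1 / (4 * b)) ≤ Q := (h2.trans h3).trans hQ
    rw [mul_one_div, div_le_iff₀ (by positivity)] at h4
    have h5 : (H.card : ℝ) ≤ (4 * b * Q : ℕ) := by
      push_cast
      linarith
    exact_mod_cast h5
  have hfin : Col G W (H.card + (c + L.card)) := by
    refine ((Col.card H).union (hc.union (Col.card L))).mono ?_ le_rfl
    intro v hv
    rw [mem_union, mem_union, mem_sdiff]
    by_cases h1 : z v < θ 0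
    · by_cases h2 : v ∈ L
      · exact Or.inr (Or.inr h2)
      · exact Or.inr (Or.inl ⟨mem_filter.2 ⟨hv, h1⟩, h2⟩)
    · exact Or.inl (mem_filter.2 ⟨hv, not_lt.1 h1⟩)
  refine (hfin.mono Subset.rfl ?_).colorable
  have h1 : ∑ v ∈ Wi 0, z v ≤ Q :=
    (sum_le_sum_of_subset_of_nonneg (filter_subset _ _) fun v _ _ => hz v).trans hQ
  have h2 : (c : ℝ) ≤ ((6 * b + 1) * (4 * Q + l) : ℕ) := by
    refine hc1.trans ?_
    push_cast
    refine mul_le_mul_of_nonneg_left ?_ (by positivity)
    linarith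
  have h3 : c ≤ (6 * b + 1) * (4 * Q + l) := by exact_mod_cast h2
  have h4 : (6 * b + 1) * (4 * Q + l) ≤ (7 * b) * (4 * Q + l) :=
    Nat.mul_le_mul_right _ (by omega)
  have h5 : 4 * b * Q + ((7 * b) * (4 * Q + l) + b) ≤ 100 * b * (Q + l + 1) := by
    have : 100 * b * (Q + l + 1) = 4 * b * Q + ((7 * b) * (4 * Q + l) + b) +
      (68 * (b * Q) + 93 * (b * l) + 99 * b) := by ring
    omega
  omega

end Vale.Agent.P060
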