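import Mathlib

/-!
P060: basic definitions. `Conn G S`: the finset `S` induces a connected (nonempty) subgraph.
-/

namespace Vale.Agent.P060

open Finset

variable {V : Type} [Fintype V] [DecidableEq V]

/-- `S` is nonempty and induces a connected subgraph. -/
def Conn (G : SimpleGraph V) (S : Finset V) : Prop :=
  (G.induce (S : Set V)).Connected

/-- There is no edge between `S` and `T`. -/
def NoEdge (G : SimpleGraph V) (S T : Finset V) : Prop :=
  ∀ a ∈ S, ∀ b ∈ T, ¬ G.Adj a b

/-- `I` is independent. -/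
def Indep (G : SimpleGraph V) (I : Finset V) : Prop :=
  ∀ a ∈ I, ∀ b ∈ I, ¬ G.Adj a b

/-- A `K_t` model all of whose branch sets lie in `S`. -/
def HasModel (G : SimpleGraph V) (S : Finset V) (t : ℕ) : Prop :=
  ∃ B : Fin t → Finset V, (∀ i, B i ⊆ S) ∧ (∀ i, Conn G (B i)) ∧
    (∀ i j, i ≠ j → Disjoint (B i) (B j)) ∧
    ∀ i j, i ≠ j → ∃ x ∈ B i, ∃ y ∈ B j, G.Adj x y

/-- `W` is `b`-hard: every independent subset `I` has `b |I| < |W|`. -/
def Hard (G : SimpleGraph V) (b : ℕ) (W : Finset V) : Prop :=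
  ∀ I ⊆ W, Indep G I → b * I.card < W.card

/-- number of neighbours of `v` in `T` -/
noncomputable def degIn (G : SimpleGraph V) (T : Finset V) (v : V) : ℕ := by
  classical
  exact (T.filter (fun w => G.Adj v w)).card

/-- Separation of the vertex set `S` (of the graph `G[S]`). -/
def Sep (G : SimpleGraph V) (S A B : Finset V) : Prop :=
  A ∪ B = S ∧ NoEdge G (A \ B) (B \ A)

/-- number of edges of `G[S]` with at least one end in `U`, counted as ordered pairs
`(u,v)`, both in `S`, adjacent, at least one in `U`; so this is TWICE the number of edges. -/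
noncomputable def rho (G : SimpleGraph V) (S U : Finset V) : ℕ := by
  classical
  exact ((S ×ˢ S).filter (fun e => G.Adj e.1 e.2 ∧ (e.1 ∈ U ∨ e.2 ∈ U))).card

/-- Any at most `N/2` prescribed disjoint pairs from `T` can be joined by disjoint connected
subsets of `Y`. -/
def Linkable (G : SimpleGraph V) (Y T : Finset V) (N : ℕ) : Prop :=
  ∀ (p : ℕ) (s t : Fin p → V), 2 * p ≤ N → Function.Injective s → Function.Injective t →
    (∀ i j, s i ≠ t j) → (∀ i, s i ∈ T) → (∀ i, t i ∈ T) →
    ∃ L : Fin p → Finset V, (∀ i, L i ⊆ Y) ∧ (∀ i, Conn G (L i)) ∧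
      (∀ i, s i ∈ L i) ∧ (∀ i, t i ∈ L i) ∧ ∀ i j, i ≠ j → Disjoint (L i) (L j)

end Vale.Agent.P060
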