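import Mathlib
import Vale.Agent.P060.Defs

/-!
# P060, row C: combining the pieces
-/

namespace Vale.Agent.P060

open Finset

variable {V : Type} [Fintype V] [DecidableEq V]

namespace Combine

omit [Fintype V] in
theorem conn_biUnion {G : SimpleGraph V} {ι : Type*} (s : Finset ι) (F : ι → Finset V)
    (v : V) (hs : s.Nonempty) (hv : ∀ i ∈ s, v ∈ F i) (hF : ∀ i ∈ s, Conn G (F i)) :
    Conn G (s.biUnion F) := by
  unfold Conn
  obtain ⟨i₀, hi₀⟩ := hs
  refine G.induce_connected_of_patches v ?_ ?_
  · exact Finset.mem_coe.2 (Finset.mem_biUnion.2 ⟨i₀, hi₀, hv i₀ hi₀⟩)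
  · intro w hw
    obtain ⟨i, hi, hwi⟩ := Finset.mem_biUnion.1 (Finset.mem_coe.1 hw)
    refine ⟨(F i : Set V), ?_, hv i hi, hwi, ?_⟩
    · exact_mod_cast Finset.subset_biUnion_of_mem F hi
    · exact (hF i hi).preconnected _ _

omit [Fintype V] in
theorem conn_union {G : SimpleGraph V} {A B : Finset V} (hA : Conn G A) (hB : Conn G B)
    {x y : V} (hx : x ∈ A) (hy : y ∈ B) (hxy : G.Adj x y) : Conn G (A ∪ B) := by
  unfold Conn at *
  rw [Finset.coe_union]
  exact G.connected_induce_union hA.preconnected hB.preconnected hx hy hxy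

end Combine

open Combine in
/-- ROW C (combine pieces). -/
theorem combine (G : SimpleGraph V) (r m : ℕ) (hr : 2 ≤ r) (hm : 1 ≤ m) (Y T : Finset V)
    (hTY : T ⊆ Y) (hL : Linkable G Y T (4 * (r ^ 2 * m)))
    (W : Fin r → Fin r → Finset V) (hWY : ∀ a b, Disjoint (W a b) Y)
    (hWW : ∀ a b a' b', (a, b) ≠ (a', b') → Disjoint (W a b) (W a' b'))
    (hWm : ∀ a b, HasModel G (W a b) (2 * m))
    (hdeg : ∀ a b, ∀ v ∈ W a b, 4 * (r ^ 2 * m) ≤ degIn G T v) :
    HasModel G univ (r * m) := by
  classical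
  choose D hDs hDc hDd hDa using hWm
  -- slots and labels
  let E : (Fin r × Fin r) × Fin (2 * m) → Finset V := fun s => D s.1.1 s.1.2 s.2
  let lab : (Fin r × Fin r) × Fin (2 * m) → Fin r × Fin m := fun s =>
    if h : (s.2 : ℕ) < m then (s.1.1, ⟨s.2, h⟩) else (s.1.2, ⟨s.2 - m, by omega⟩)
  let root : Fin r × Fin m → (Fin r × Fin r) × Fin (2 * m) := fun l =>
    ((l.1, l.1), ⟨l.2, by omega⟩)
  have lab_root : ∀ l, lab (root l) = l := by
    intro l
    have h : (l.2 : ℕ) < m := l.2.2
    simp only [lab, root, h, dif_pos]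
  have E_sub : ∀ s, E s ⊆ W s.1.1 s.1.2 := fun s => hDs _ _ _
  have E_conn : ∀ s, Conn G (E s) := fun s => hDc _ _ _
  have E_disj : ∀ s s', s ≠ s' → Disjoint (E s) (E s') := by
    intro s s' hss
    by_cases h1 : s.1 = s'.1
    · have h2 : s.2 ≠ s'.2 := fun h => hss (Prod.ext h1 h)
      have h3 := hDd s.1.1 s.1.2 s.2 s'.2 h2
      have h4 : E s' = D s.1.1 s.1.2 s'.2 := by
        simp only [E, h1]
      rw [h4]
      exact h3
    · have h2 := hWW s.1.1 s.1.2 s'.1.1 s'.1.2 (by simpa [Prod.ext_iff] using h1)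
      exact Finset.disjoint_of_subset_left (E_sub s) (Finset.disjoint_of_subset_right (E_sub s') h2)
  have E_ne : ∀ s, (E s).Nonempty := by
    intro s
    obtain ⟨⟨x, hx⟩⟩ := (E_conn s).nonempty
    exact ⟨x, hx⟩
  choose x hx using E_ne
  -- distinct terminals
  let t : Bool × ((Fin r × Fin r) × Fin (2 * m)) → Finset V := fun p =>
    T.filter (fun w => G.Adj (x (if p.1 then p.2 else root (lab p.2))) w)
  have t_card : ∀ p, 4 * (r ^ 2 * m) ≤ (t p).card := by
    intro p
    have h1 := hdeg _ _ _ (E_sub _ (hx (if p.1 then p.2 else root (lab p.2))))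
    refine h1.trans (le_of_eq ?_)
    unfold degIn
    simp only [t]
  have hcardT : Fintype.card (Bool × ((Fin r × Fin r) × Fin (2 * m))) = 4 * (r ^ 2 * m) := by
    simp only [Fintype.card_prod, Fintype.card_bool, Fintype.card_fin]
    ring
  obtain ⟨f, finj, hf⟩ := (Finset.all_card_le_biUnion_card_iff_exists_injective t).1 (by
    intro A
    rcases A.eq_empty_or_nonempty with rfl | ⟨p, hp⟩
    · simp
    · calc A.card ≤ Fintype.card (Bool × ((Fin r × Fin r) × Fin (2 * m))) := Finset.card_le_univ _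
        _ = 4 * (r ^ 2 * m) := hcardT
        _ ≤ (t p).card := t_card p
        _ ≤ _ := Finset.card_le_card (Finset.subset_biUnion_of_mem t hp))
  -- links
  let e := Fintype.equivFin ((Fin r × Fin r) × Fin (2 * m))
  obtain ⟨L, hLY, hLc, hLs, hLt, hLd⟩ := hL (Fintype.card ((Fin r × Fin r) × Fin (2 * m)))
    (fun i => f (false, e.symm i)) (fun i => f (true, e.symm i))
    (by
      simp only [Fintype.card_prod, Fintype.card_fin]
      apply le_of_eq
      ring)
    (fun i j hij => by
      have := finj hij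
      simpa using this)
    (fun i j hij => by
      have := finj hij
      simpa using this)
    (fun i j hij => by
      have := finj hij
      simp at this)
    (fun i => (Finset.mem_filter.1 (hf (false, e.symm i))).1)
    (fun i => (Finset.mem_filter.1 (hf (true, e.symm i))).1)
  let L' : (Fin r × Fin r) × Fin (2 * m) → Finset V := fun s => L (e s)
  have L'_s : ∀ s, f (false, s) ∈ L' s := by
    intro s
    have := hLs (e s)
    simpa [L'] using this
  have L'_t : ∀ s, f (true, s) ∈ L' s := by
    intro s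
    have := hLt (e s)
    simpa [L'] using this
  have L'_d : ∀ s s', s ≠ s' → Disjoint (L' s) (L' s') := fun s s' h =>
    hLd _ _ (fun h' => h (e.injective h'))
  have L'_Y : ∀ s, L' s ⊆ Y := fun s => hLY _
  have L'_c : ∀ s, Conn G (L' s) := fun s => hLc _
  have L'E : ∀ s s', Disjoint (L' s) (E s') := by
    intro s s'
    exact (Finset.disjoint_of_subset_left (E_sub s')
      (Finset.disjoint_of_subset_right (L'_Y s) (hWY _ _))).symm
  have adj0 : ∀ s, G.Adj (x (root (lab s))) (f (false, s)) := by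
    intro s
    have := (Finset.mem_filter.1 (hf (false, s))).2
    simpa using this
  have adj1 : ∀ s, G.Adj (x s) (f (true, s)) := by
    intro s
    have := (Finset.mem_filter.1 (hf (true, s))).2
    simpa using this
  -- branch sets
  let F : Fin r × Fin m → (Fin r × Fin r) × Fin (2 * m) → Finset V := fun l s =>
    E (root l) ∪ L' s ∪ E s
  let B : Fin r × Fin m → Finset V := fun l => (univ.filter (fun s => lab s = l)).biUnion (F l)
  have F_conn : ∀ l s, lab s = l → Conn G (F l s) := by
    intro l s hs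
    subst hs
    refine conn_union (conn_union (E_conn _) (L'_c s) (hx _) (L'_s s) (adj0 s)) (E_conn s)
      (x := f (true, s)) (y := x s) ?_ (hx s) (adj1 s).symm
    exact Finset.mem_union_right _ (L'_t s)
  have B_conn : ∀ l, Conn G (B l) := by
    intro l
    refine conn_biUnion _ _ (x (root l)) ⟨root l, by simp [lab_root]⟩ ?_ ?_
    · intro s _
      exact Finset.mem_union_left _ (Finset.mem_union_left _ (hx _))
    · intro s hs
      exact F_conn l s (Finset.mem_filter.1 hs).2
  have E_B : ∀ s, E s ⊆ B (lab s) := by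
    intro s y hy
    refine Finset.mem_biUnion.2 ⟨s, by simp, ?_⟩
    exact Finset.mem_union_right _ hy
  have B_disj : ∀ l l', l ≠ l' → Disjoint (B l) (B l') := by
    intro l l' hll
    simp only [B]
    rw [Finset.disjoint_biUnion_left]
    intro s hs
    rw [Finset.disjoint_biUnion_right]
    intro s' hs'
    have hs1 : lab s = l := (Finset.mem_filter.1 hs).2
    have hs2 : lab s' = l' := (Finset.mem_filter.1 hs').2
    have n1 : s ≠ s' := fun h => hll (by rw [← hs1, ← hs2, h])
    have n2 : root l ≠ root l' := fun h => hll (by rw [← lab_root l, ← lab_root l', h])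
    have n3 : root l ≠ s' := fun h => hll (by rw [← lab_root l, h, hs2])
    have n4 : s ≠ root l' := fun h => hll (by rw [← lab_root l', ← h, hs1])
    simp only [F, Finset.disjoint_union_left, Finset.disjoint_union_right]
    exact ⟨⟨⟨⟨E_disj _ _ n2, L'E _ _⟩, E_disj _ _ n4⟩, ⟨⟨(L'E _ _).symm, L'_d _ _ n1⟩,
      (L'E _ _).symm⟩⟩, ⟨⟨E_disj _ _ n3, L'E _ _⟩, E_disj _ _ n1⟩⟩
  have B_adj : ∀ l l', l ≠ l' → ∃ y ∈ B l, ∃ z ∈ B l', G.Adj y z := by
    intro l l' _
    have h1 : (l.2 : ℕ) < m := l.2.2
    have h2 : (l'.2 : ℕ) < m := l'.2.2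
    let s : (Fin r × Fin r) × Fin (2 * m) := ((l.1, l'.1), ⟨l.2, by omega⟩)
    let s' : (Fin r × Fin r) × Fin (2 * m) := ((l.1, l'.1), ⟨m + l'.2, by omega⟩)
    have e1 : lab s = l := by
      simp only [lab, s, h1, dif_pos]
    have e2 : lab s' = l' := by
      have h3 : ¬ (m + (l'.2 : ℕ) < m) := by omega
      simp only [lab, s', h3, dif_neg, not_false_iff]
      ext
      · rfl
      · simp
    have hne : s.2 ≠ s'.2 := by
      intro h
      have := congrArg Fin.val h
      simp only [s, s'] at this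
      omega
    obtain ⟨y, hy, z, hz, hyz⟩ := hDa l.1 l'.1 s.2 s'.2 hne
    refine ⟨y, ?_, z, ?_, hyz⟩
    · rw [← e1]; exact E_B s hy
    · rw [← e2]; exact E_B s' hz
  refine ⟨fun i => B (finProdFinEquiv.symm i), fun i => Finset.subset_univ _, fun i => B_conn _,
    ?_, ?_⟩
  · intro i j hij
    exact B_disj _ _ (fun h => hij (finProdFinEquiv.symm.injective h))
  · intro i j hij
    exact B_adj _ _ (fun h => hij (finProdFinEquiv.symm.injective h))

end Vale.Agent.P060
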