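import Vale.Agent.P060.Defs

/-!
P060, row D: the theorem of Duchet and Meyniel.
-/

namespace Vale.Agent.P060

open Finset

variable {V : Type} [Fintype V] [DecidableEq V]

omit [Fintype V] [DecidableEq V] in
theorem conn_singleton (G : SimpleGraph V) (v : V) : Conn G {v} := by
  unfold Conn
  rw [Finset.coe_singleton]
  have : Nonempty ({v} : Set V) := ⟨⟨v, rfl⟩⟩
  have : Subsingleton ({v} : Set V) := ⟨fun a b => Subtype.ext (a.2.trans b.2.symm)⟩
  exact ⟨fun a b => by rw [Subsingleton.elim a b]⟩

omit [Fintype V] [DecidableEq V] in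
theorem Conn.ne {G : SimpleGraph V} {S : Finset V} (h : Conn G S) : S.Nonempty := by
  have h1 : (G.induce (S : Set V)).Connected := h
  obtain ⟨x⟩ := h1.nonempty
  exact ⟨x.1, x.2⟩

omit [Fintype V] in
theorem Conn.union {G : SimpleGraph V} {S T : Finset V} (hS : Conn G S) (hT : Conn G T)
    (h : (S ∩ T).Nonempty) : Conn G (S ∪ T) := by
  unfold Conn at *
  rw [Finset.coe_union]
  refine SimpleGraph.induce_union_connected hS.preconnected hT.preconnected ?_
  obtain ⟨x, hx⟩ := h
  rw [Finset.mem_inter] at hx
  exact ⟨x, hx.1, hx.2⟩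

omit [Fintype V] in
theorem conn_pair {G : SimpleGraph V} {u v : V} (h : G.Adj u v) : Conn G {u, v} := by
  unfold Conn
  rw [Finset.coe_pair]
  exact SimpleGraph.induce_pair_connected_of_adj h

omit [Fintype V] in
/-- adding a neighbour keeps a set connected -/
theorem Conn.add {G : SimpleGraph V} {S : Finset V} (hS : Conn G S) {s v : V} (hs : s ∈ S)
    (h : G.Adj s v) : Conn G (insert v S) := by
  have h1 := hS.union (conn_pair h) ⟨s, by simp [hs]⟩
  have h2 : S ∪ {s, v} = insert v S := by
    ext x
    simp only [Finset.mem_union, Finset.mem_insert, Finset.mem_singleton]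
    constructor
    · rintro (hx | rfl | rfl)
      · exact .inr hx
      · exact .inr hs
      · exact .inl rfl
    · rintro (rfl | hx)
      · exact .inr (.inr rfl)
      · exact .inl hx
  rw [← h2]
  exact h1

omit [Fintype V] [DecidableEq V] in
theorem HasModel.subset {G : SimpleGraph V} {S T : Finset V} {t : ℕ} (h : HasModel G S t)
    (hST : S ⊆ T) : HasModel G T t := by
  obtain ⟨B, h1, h2, h3, h4⟩ := h
  exact ⟨B, fun i => (h1 i).trans hST, h2, h3, h4⟩

omit [Fintype V] [DecidableEq V] in
theorem indep_empty (G : SimpleGraph V) : Indep G ∅ := by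
  intro a ha
  exact absurd ha (Finset.notMem_empty a)

omit [Fintype V] in
/-- independent sets without edges between them -/
theorem Indep.union {G : SimpleGraph V} {I J : Finset V} (hI : Indep G I) (hJ : Indep G J)
    (h : NoEdge G I J) : Indep G (I ∪ J) := by
  intro a ha b hb hab
  rw [Finset.mem_union] at ha hb
  rcases ha with ha | ha <;> rcases hb with hb | hb
  · exact hI a ha b hb hab
  · exact h a ha b hb hab
  · exact h b hb a ha hab.symm
  · exact hJ a ha b hb hab

omit [Fintype V] in
/-- a maximal connected set with `|D| ≤ 2 |I| - 1` dominates -/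
theorem exists_dominating (G : SimpleGraph V) (W : Finset V) (hW : W.Nonempty)
    (hconn : ¬ ∃ W₁ W₂ : Finset V, W₁ ∪ W₂ = W ∧ Disjoint W₁ W₂ ∧ W₁.Nonempty ∧ W₂.Nonempty ∧
      NoEdge G W₁ W₂) :
    ∃ D ⊆ W, ∃ I ⊆ D, Indep G I ∧ Conn G D ∧ D.card + 1 ≤ 2 * I.card ∧
      ∀ v ∈ W \ D, ∃ d ∈ D, G.Adj d v := by
  classical
  let F : Finset (Finset V) := W.powerset.filter (fun D => Conn G D ∧
    ∃ I ⊆ D, Indep G I ∧ D.card + 1 ≤ 2 * I.card)
  have hF : F.Nonempty := by
    obtain ⟨w, hw⟩ := hW
    refine ⟨{w}, ?_⟩
    rw [Finset.mem_filter, Finset.mem_powerset, Finset.singleton_subset_iff]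
    refine ⟨hw, conn_singleton G w, {w}, subset_rfl, ?_, ?_⟩
    · intro a ha b hb hab
      rw [Finset.mem_singleton] at ha hb
      rw [ha, hb] at hab
      exact G.irrefl hab
    · rw [Finset.card_singleton]
  obtain ⟨D, hD, hmax⟩ := Finset.exists_max_image F Finset.card hF
  rw [Finset.mem_filter, Finset.mem_powerset] at hD
  obtain ⟨hDW, hDc, I, hID, hI, hcard⟩ := hD
  refine ⟨D, hDW, I, hID, hI, hDc, hcard, ?_⟩
  by_contra hno
  push Not at hno
  obtain ⟨v, hv, hvD⟩ := hno
  rw [Finset.mem_sdiff] at hv
  -- the closed neighbourhood of `D`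
  let A : Finset V := W.filter (fun w => w ∈ D ∨ ∃ d ∈ D, G.Adj d w)
  have hAW : A ⊆ W := Finset.filter_subset _ _
  have hvA : v ∈ W \ A := by
    rw [Finset.mem_sdiff, Finset.mem_filter]
    refine ⟨hv.1, ?_⟩
    rintro ⟨_, h | ⟨d, hd, hdv⟩⟩
    · exact hv.2 h
    · exact hvD d hd hdv
  have hDA : D ⊆ A := fun d hd => Finset.mem_filter.2 ⟨hDW hd, .inl hd⟩
  have hedge : ∃ a ∈ A, ∃ b ∈ W \ A, G.Adj a b := by
    by_contra hcon
    push Not at hcon
    exact hconn ⟨A, W \ A, Finset.union_sdiff_of_subset hAW, Finset.disjoint_sdiff,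
      hDc.ne.mono hDA, ⟨v, hvA⟩, hcon⟩
  obtain ⟨a, ha, b, hb, hab⟩ := hedge
  rw [Finset.mem_sdiff] at hb
  have hbD : ∀ d ∈ D, ¬ G.Adj d b := fun d hd hdb =>
    hb.2 (Finset.mem_filter.2 ⟨hb.1, .inr ⟨d, hd, hdb⟩⟩)
  have hbD' : b ∉ D := fun h => hb.2 (hDA h)
  have haD : a ∉ D := fun h => hbD a h hab
  obtain ⟨d, hd, hda⟩ : ∃ d ∈ D, G.Adj d a := by
    rcases (Finset.mem_filter.1 ha).2 with h | h
    · exact absurd h haD
    · exact h
  have hab' : b ≠ a := hab.ne'
  have hc1 : Conn G (insert a D) := hDc.add hd hda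
  have hc2 : Conn G (insert b (insert a D)) := hc1.add (Finset.mem_insert_self a D) hab
  have hcardD : (insert b (insert a D)).card = D.card + 2 := by
    rw [Finset.card_insert_of_notMem, Finset.card_insert_of_notMem haD]
    rw [Finset.mem_insert]
    rintro (h | h)
    · exact hab' h
    · exact hbD' h
  have hbI : b ∉ I := fun h => hbD' (hID h)
  have hmem : insert b (insert a D) ∈ F := by
    rw [Finset.mem_filter, Finset.mem_powerset]
    refine ⟨?_, hc2, insert b I, ?_, ?_, ?_⟩
    · intro x hx
      rw [Finset.mem_insert, Finset.mem_insert] at hx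
      rcases hx with rfl | rfl | hx
      · exact hb.1
      · exact hAW ha
      · exact hDW hx
    · exact Finset.insert_subset_insert _ (hID.trans (Finset.subset_insert _ _))
    · intro x hx y hy hxy
      rw [Finset.mem_insert] at hx hy
      rcases hx with rfl | hx <;> rcases hy with rfl | hy
      · exact G.irrefl hxy
      · exact hbD y (hID hy) hxy.symm
      · exact hbD x (hID hx) hxy
      · exact hI x hx y hy hxy
    · rw [hcardD, Finset.card_insert_of_notMem hbI]
      omega
  have := hmax _ hmem
  rw [hcardD] at this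
  omega

omit [Fintype V] in
theorem duchet_meyniel_aux (G : SimpleGraph V) (n : ℕ) : ∀ (W : Finset V) (m : ℕ),
    W.card ≤ n → Hard G (2 * m) W → HasModel G W m := by
  classical
  induction n with
  | zero =>
    intro W m hW h
    have := h ∅ (Finset.empty_subset _) (indep_empty G)
    omega
  | succ n ih =>
    intro W m hW h
    rcases m with _ | m
    · exact ⟨fun _ => ∅, fun i => i.elim0, fun i => i.elim0, fun i => i.elim0, fun i => i.elim0⟩
    by_cases hcon : ∃ W₁ W₂ : Finset V, W₁ ∪ W₂ = W ∧ Disjoint W₁ W₂ ∧ W₁.Nonempty ∧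
        W₂.Nonempty ∧ NoEdge G W₁ W₂
    · obtain ⟨W₁, W₂, hU, hdis, hne1, hne2, hno⟩ := hcon
      have hc : W₁.card + W₂.card = W.card := by
        rw [← hU, Finset.card_union_of_disjoint hdis]
      have hp1 := hne1.card_pos
      have hp2 := hne2.card_pos
      by_cases h1 : Hard G (2 * (m + 1)) W₁
      · exact (ih W₁ (m + 1) (by omega) h1).subset (by rw [← hU]; exact Finset.subset_union_left)
      by_cases h2 : Hard G (2 * (m + 1)) W₂
      · exact (ih W₂ (m + 1) (by omega) h2).subset (by rw [← hU]; exact Finset.subset_union_right)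
      exfalso
      unfold Hard at h1 h2
      push Not at h1 h2
      obtain ⟨I, hIW, hI, hIc⟩ := h1
      obtain ⟨J, hJW, hJ, hJc⟩ := h2
      have h3 := h (I ∪ J) (by rw [← hU]; exact Finset.union_subset_union hIW hJW)
        (hI.union hJ (fun a ha b hb => hno a (hIW ha) b (hJW hb)))
      rw [Finset.card_union_of_disjoint (Finset.disjoint_of_subset_left hIW
        (Finset.disjoint_of_subset_right hJW hdis)), Nat.mul_add] at h3
      omega
    · have hWne : W.Nonempty := by
        have := h ∅ (Finset.empty_subset _) (indep_empty G)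
        rw [Finset.card_empty, Nat.mul_zero] at this
        exact Finset.card_pos.1 this
      obtain ⟨D, hDW, I, hID, hI, hDc, hcard, hdom⟩ := exists_dominating G W hWne hcon
      have hDp := hDc.ne.card_pos
      have hWD : (W \ D).card + D.card = W.card := Finset.card_sdiff_add_card_eq_card hDW
      have hI2 := h I (hID.trans hDW) hI
      have hhard : Hard G (2 * m) (W \ D) := by
        intro J hJW hJ
        have hJ2 := h J (hJW.trans Finset.sdiff_subset) hJ
        rcases le_total I.card J.card with hle | hle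
        · have e1 : 2 * (m + 1) * J.card = 2 * m * J.card + 2 * J.card := by ring
          omega
        · have e1 : 2 * (m + 1) * I.card = 2 * m * I.card + 2 * I.card := by ring
          have e2 : 2 * m * J.card ≤ 2 * m * I.card := Nat.mul_le_mul_left _ hle
          omega
      obtain ⟨B, h1, h2, h3, h4⟩ := ih (W \ D) m (by omega) hhard
      have hadj : ∀ i, ∃ x ∈ D, ∃ y ∈ B i, G.Adj x y := by
        intro i
        obtain ⟨y, hy⟩ := (h2 i).ne
        obtain ⟨d, hd, hdy⟩ := hdom y (h1 i hy)
        exact ⟨d, hd, y, hy, hdy⟩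
      have hdisj : ∀ i, Disjoint D (B i) := fun i =>
        Finset.disjoint_of_subset_right (h1 i) Finset.disjoint_sdiff
      refine ⟨Fin.cons D B, ?_, ?_, ?_, ?_⟩
      · intro i
        refine Fin.cases ?_ (fun i => ?_) i
        · exact hDW
        · exact (h1 i).trans Finset.sdiff_subset
      · intro i
        refine Fin.cases ?_ (fun i => ?_) i
        · exact hDc
        · exact h2 i
      · intro i j
        refine Fin.cases ?_ (fun i => ?_) i <;> refine Fin.cases ?_ (fun j => ?_) j
        · intro hij
          exact absurd rfl hij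
        · intro _
          exact hdisj j
        · intro _
          exact (hdisj i).symm
        · intro hij
          exact h3 i j (fun h => hij (by rw [h]))
      · intro i j
        refine Fin.cases ?_ (fun i => ?_) i <;> refine Fin.cases ?_ (fun j => ?_) j
        · intro hij
          exact absurd rfl hij
        · intro _
          exact hadj j
        · intro _
          obtain ⟨x, hx, y, hy, hxy⟩ := hadj i
          exact ⟨y, hy, x, hx, hxy.symm⟩
        · intro hij
          exact h4 i j (fun h => hij (by rw [h]))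

omit [Fintype V] in
/-- ROW D (Duchet and Meyniel). -/
theorem duchet_meyniel (G : SimpleGraph V) (W : Finset V) (m : ℕ) (h : Hard G (2 * m) W) :
    HasModel G W m :=
  duchet_meyniel_aux G W.card W m le_rfl h

end Vale.Agent.P060
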