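import Vale.Agent.P060.Defs

/-!
P060, row M: Menger's theorem, vertex-set version.
-/

namespace Vale.Agent.P060

open Finset

variable {V : Type} [Fintype V] [DecidableEq V]

set_option linter.unusedSectionVars false

namespace MengerAux

theorem conn_mono {G G' : SimpleGraph V} (h : G' ≤ G) {S : Finset V} (hS : Conn G' S) :
    Conn G S := by
  unfold Conn at *
  refine hS.mono ?_
  intro a b hab
  exact h hab

theorem conn_singleton (G : SimpleGraph V) (v : V) : Conn G {v} := by
  unfold Conn
  have : Nonempty (({v} : Finset V) : Set V) := ⟨⟨v, by simp⟩⟩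
  have : Subsingleton (({v} : Finset V) : Set V) := by
    constructor
    rintro ⟨a, ha⟩ ⟨b, hb⟩
    simp at ha hb
    subst ha; subst hb; rfl
  exact SimpleGraph.Connected.mk (fun a b => by
    rw [Subsingleton.elim a b])

/-- support of a walk is connected -/
theorem conn_support {G : SimpleGraph V} {u v : V} (p : G.Walk u v) : Conn G p.support.toFinset := by
  unfold Conn
  have := p.connected_induce_support
  have hs : ((p.support.toFinset : Finset V) : Set V) = {w | w ∈ p.support} := by
    ext w; simp
  rw [hs]
  exact this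

/-- union of connected sets with a common vertex -/
theorem conn_union {G : SimpleGraph V} {S T : Finset V} (hS : Conn G S) (hT : Conn G T)
    {v : V} (h1 : v ∈ S) (h2 : v ∈ T) : Conn G (S ∪ T) := by
  unfold Conn at *
  rw [Finset.coe_union]
  exact SimpleGraph.induce_union_connected hS.preconnected hT.preconnected
    ⟨v, by simpa using h1, by simpa using h2⟩

/-- union of connected sets joined by an edge -/
theorem conn_union_adj {G : SimpleGraph V} {S T : Finset V} (hS : Conn G S) (hT : Conn G T)
    {x y : V} (h1 : x ∈ S) (h2 : y ∈ T) (h : G.Adj x y) : Conn G (S ∪ T) := by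
  have h3 : Conn G {x, y} := by
    have := conn_support (G := G) (SimpleGraph.Walk.cons h SimpleGraph.Walk.nil)
    simpa using this
  have h4 : Conn G (S ∪ {x, y}) := conn_union hS h3 h1 (by simp)
  have h5 : Conn G ((S ∪ {x, y}) ∪ T) := conn_union h4 hT (v := y) (by simp) h2
  have h6 : (S ∪ {x, y}) ∪ T = S ∪ T := by
    ext w
    simp only [Finset.mem_union, Finset.mem_insert, Finset.mem_singleton]
    constructor
    · rintro ((h | rfl | rfl) | h)
      · exact Or.inl h
      · exact Or.inl h1
      · exact Or.inr h2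
      · exact Or.inr h
    · rintro (h | h)
      · exact Or.inl (Or.inl h)
      · exact Or.inr h
  rwa [h6] at h5

/-- any two vertices of a connected set are joined by a path inside the set -/
theorem conn_path {G : SimpleGraph V} {L : Finset V} (hL : Conn G L) {a b : V} (ha : a ∈ L)
    (hb : b ∈ L) : ∃ p : G.Walk a b, p.IsPath ∧ ∀ w ∈ p.support, w ∈ L := by
  unfold Conn at hL
  obtain ⟨q, hq⟩ := (hL.preconnected ⟨a, by simpa using ha⟩ ⟨b, by simpa using hb⟩).exists_isPath
  let f : G.induce (L : Set V) →g G := (SimpleGraph.Embedding.induce (L : Set V)).toHom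
  let q' : G.Walk a b := q.map f
  have hq' : q'.support = q.support.map f := SimpleGraph.Walk.support_map f q
  refine ⟨q'.bypass, SimpleGraph.Walk.bypass_isPath _, ?_⟩
  intro w hw
  have h1 := SimpleGraph.Walk.support_bypass_subset_support _ hw
  rw [hq'] at h1
  obtain ⟨z, _, rfl⟩ := List.mem_map.1 h1
  exact z.2

theorem reduce {G : SimpleGraph V} {L A B : Finset V} (hL : Conn G L) {a1 a2 b : V}
    (h1 : a1 ∈ L) (h1' : a1 ∈ A) (h2 : a2 ∈ L) (h2' : a2 ∈ A) (h12 : a1 ≠ a2)
    (hb : b ∈ L) (hb' : b ∈ B) :
    ∃ L' ⊂ L, Conn G L' ∧ (L' ∩ A).Nonempty ∧ (L' ∩ B).Nonempty := by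
  obtain ⟨p, hp, hpL⟩ := conn_path hL h1 hb
  by_cases h : a2 ∈ p.support
  · refine ⟨(p.dropUntil a2 h).support.toFinset, ?_, conn_support _, ⟨a2, ?_⟩, ⟨b, ?_⟩⟩
    · rw [Finset.ssubset_iff_of_subset]
      · refine ⟨a1, h1, ?_⟩
        rw [List.mem_toFinset]
        intro h3
        have h4 : (p.takeUntil a2 h).support.count a1 = 1 := by
          have := (hp.takeUntil h).support_nodup
          exact List.count_eq_one_of_mem this (SimpleGraph.Walk.start_mem_support _)
        have h5 := hp.support_nodup
        rw [← SimpleGraph.Walk.take_spec p h, SimpleGraph.Walk.support_append] at h5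
        rw [List.nodup_append] at h5
        have h6 : a1 ∈ (p.dropUntil a2 h).support.tail := by
          rw [← SimpleGraph.Walk.cons_tail_support] at h3
          rcases List.mem_cons.1 h3 with h3 | h3
          · exact absurd h3 h12
          · exact h3
        exact h5.2.2 a1 (SimpleGraph.Walk.start_mem_support _) a1 h6 rfl
      · intro w hw
        rw [List.mem_toFinset] at hw
        exact hpL w (SimpleGraph.Walk.support_dropUntil_subset_support p h hw)
    · simp [h2']
    · simp [hb']
  · refine ⟨p.support.toFinset, ?_, conn_support _, ⟨a1, ?_⟩, ⟨b, ?_⟩⟩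
    · rw [Finset.ssubset_iff_of_subset]
      · exact ⟨a2, h2, by simpa using h⟩
      · intro w hw
        rw [List.mem_toFinset] at hw
        exact hpL w hw
    · simp [h1']
    · simp [hb']

/-- shortening: a connected set which meets `A` and `B` contains one which meets each exactly once -/
theorem shorten {G : SimpleGraph V} {A B : Finset V} (L : Finset V) :
    Conn G L → (L ∩ A).Nonempty → (L ∩ B).Nonempty →
    ∃ L' ⊆ L, Conn G L' ∧ (L' ∩ A).card = 1 ∧ (L' ∩ B).card = 1 := by
  induction L using Finset.strongInduction with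
  | H L ih =>
    intro hL hA hB
    by_cases h1 : (L ∩ A).card = 1
    · by_cases h2 : (L ∩ B).card = 1
      · exact ⟨L, Subset.rfl, hL, h1, h2⟩
      · have h3 : 1 < (L ∩ B).card := by
          have := hB.card_pos; omega
        obtain ⟨b1, hb1, b2, hb2, hne⟩ := Finset.one_lt_card.1 h3
        obtain ⟨a, ha⟩ := hA
        rw [Finset.mem_inter] at hb1 hb2 ha
        obtain ⟨L', hL', hc, hB', hA'⟩ := reduce (A := B) (B := A) hL hb1.1 hb1.2 hb2.1 hb2.2 hne ha.1 ha.2
        obtain ⟨L'', hs, h⟩ := ih L' hL' hc hA' hB'
        exact ⟨L'', hs.trans hL'.subset, h⟩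
    · have h3 : 1 < (L ∩ A).card := by
        have := hA.card_pos; omega
      obtain ⟨b1, hb1, b2, hb2, hne⟩ := Finset.one_lt_card.1 h3
      obtain ⟨a, ha⟩ := hB
      rw [Finset.mem_inter] at hb1 hb2 ha
      obtain ⟨L', hL', hc, hA', hB'⟩ := reduce (A := A) (B := B) hL hb1.1 hb1.2 hb2.1 hb2.2 hne ha.1 ha.2
      obtain ⟨L'', hs, h⟩ := ih L' hL' hc hA' hB'
      exact ⟨L'', hs.trans hL'.subset, h⟩

theorem sep_symm {G : SimpleGraph V} {S A B : Finset V} (h : Sep G S A B) : Sep G S B A := by
  refine ⟨by rw [Finset.union_comm]; exact h.1, ?_⟩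
  intro a ha b hb hab
  exact h.2 b hb a ha hab.symm

/-- The conclusion of Menger's theorem. -/
def Fam (G : SimpleGraph V) (S A B : Finset V) (k : ℕ) : Prop :=
    ∃ L : Fin k → Finset V, (∀ i, L i ⊆ S) ∧ (∀ i, Conn G (L i)) ∧
      (∀ i j, i ≠ j → Disjoint (L i) (L j)) ∧
      (∀ i, (L i ∩ A).card = 1) ∧ ∀ i, (L i ∩ B).card = 1

theorem Fam.of_weak {G : SimpleGraph V} {S A B : Finset V} {k : ℕ} (L : Fin k → Finset V)
    (h1 : ∀ i, L i ⊆ S) (h2 : ∀ i, Conn G (L i)) (h3 : ∀ i j, i ≠ j → Disjoint (L i) (L j))
    (h4 : ∀ i, (L i ∩ A).Nonempty) (h5 : ∀ i, (L i ∩ B).Nonempty) : Fam G S A B k := by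
  choose L' hL' hc hA hB using fun i => shorten (L i) (h2 i) (h4 i) (h5 i)
  exact ⟨L', fun i => (hL' i).trans (h1 i), hc,
    fun i j hij => Finset.disjoint_of_subset_left (hL' i)
      (Finset.disjoint_of_subset_right (hL' j) (h3 i j hij)), hA, hB⟩

theorem half {G G' : SimpleGraph V} {S A B C D : Finset V} {x y : V} {k : ℕ}
    (hG' : ∀ a b, G.Adj a b → ¬ G'.Adj a b → (a = x ∧ b = y) ∨ (a = y ∧ b = x))
    (h : ∀ C D : Finset V, Sep G S C D → A ⊆ C → B ⊆ D → k ≤ (C ∩ D).card)
    (hCD : Sep G' S C D) (hBD : B ⊆ D) (hy : y ∉ C) (E F : Finset V)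
    (hEF : Sep G' C E F) (hAE : A ⊆ E) (hF : insert x (C ∩ D) ⊆ F) : k ≤ (E ∩ F).card := by
  have hxF : x ∈ F := hF (by simp)
  have hPF : C ∩ D ⊆ F := fun w hw => hF (by simp [Finset.mem_inter.1 hw])
  have hEC : E ⊆ C := by rw [← hEF.1]; exact Finset.subset_union_left
  have hFC : F ⊆ C := by rw [← hEF.1]; exact Finset.subset_union_right
  have h1 := h E (F ∪ D) ?_ hAE (hBD.trans Finset.subset_union_right)
  · refine h1.trans (Finset.card_le_card ?_)
    intro w hw
    simp only [Finset.mem_inter, Finset.mem_union] at hw ⊢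
    refine ⟨hw.1, ?_⟩
    rcases hw.2 with h2 | h2
    · exact h2
    · exact hPF (Finset.mem_inter.2 ⟨hEC hw.1, h2⟩)
  · refine ⟨by rw [← Finset.union_assoc, hEF.1, hCD.1], ?_⟩
    intro a ha b hb hab
    simp only [Finset.mem_sdiff, Finset.mem_union, not_or] at ha hb
    obtain ⟨haE, haF, haD⟩ := ha
    obtain ⟨hb1, hbE⟩ := hb
    have haC := hEC haE
    by_cases hbF : b ∈ F
    · have h2 : ¬ G'.Adj a b := hEF.2 a (by simp [haE, haF]) b (by simp [hbF, hbE])
      rcases hG' a b hab h2 with ⟨rfl, _⟩ | ⟨rfl, _⟩
      · exact haF hxF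
      · exact hy haC
    · have hbD : b ∈ D := by
        rcases hb1 with h3 | h3
        · exact absurd h3 hbF
        · exact h3
      have hbC : b ∉ C := fun h4 => hbF (hPF (Finset.mem_inter.2 ⟨h4, hbD⟩))
      have h2 : ¬ G'.Adj a b := hCD.2 a (by simp [haC, haD]) b (by simp [hbD, hbC])
      rcases hG' a b hab h2 with ⟨rfl, _⟩ | ⟨rfl, _⟩
      · exact haF hxF
      · exact hy haC

theorem glue {G : SimpleGraph V} {S A B C D : Finset V} {x y : V} {k : ℕ} (hxy : G.Adj x y)
    (hS : C ∪ D = S) (hx : x ∉ D) (hy : y ∉ C) (hP : (insert x (C ∩ D)).card = k)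
    (h1 : Fam G C A (insert x (C ∩ D)) k) (h2 : Fam G D (insert y (C ∩ D)) B k) :
    Fam G S A B k := by
  obtain ⟨L, hL1, hL2, hL3, hL4, hL5⟩ := h1
  obtain ⟨M, hM1, hM2, hM3, hM4, hM5⟩ := h2
  have hx' : x ∉ C ∩ D := by simp [hx]
  have hy' : y ∉ C ∩ D := by simp [hy]
  choose e he using fun i => Finset.card_eq_one.1 (hL5 i)
  choose f hf using fun i => Finset.card_eq_one.1 (hM4 i)
  have he1 : ∀ i, e i ∈ L i ∧ e i ∈ insert x (C ∩ D) := fun i => by
    have : e i ∈ L i ∩ insert x (C ∩ D) := by rw [he i]; simp
    exact Finset.mem_inter.1 this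
  have hf1 : ∀ i, f i ∈ M i ∧ f i ∈ insert y (C ∩ D) := fun i => by
    have : f i ∈ M i ∩ insert y (C ∩ D) := by rw [hf i]; simp
    exact Finset.mem_inter.1 this
  have he2 : ∀ i w, w ∈ L i → w ∈ insert x (C ∩ D) → w = e i := fun i w h3 h4 => by
    have : w ∈ L i ∩ insert x (C ∩ D) := Finset.mem_inter.2 ⟨h3, h4⟩
    rw [he i] at this; simpa using this
  have hf2 : ∀ i w, w ∈ M i → w ∈ insert y (C ∩ D) → w = f i := fun i w h3 h4 => by
    have : w ∈ M i ∩ insert y (C ∩ D) := Finset.mem_inter.2 ⟨h3, h4⟩
    rw [hf i] at this; simpa using this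
  have einj : Function.Injective e := by
    intro i j hij
    by_contra hne
    exact Finset.disjoint_left.1 (hL3 i j hne) (he1 i).1 (hij ▸ (he1 j).1)
  have finj : Function.Injective f := by
    intro i j hij
    by_contra hne
    exact Finset.disjoint_left.1 (hM3 i j hne) (hf1 i).1 (hij ▸ (hf1 j).1)
  have hPy : (insert y (C ∩ D)).card = k := by
    rw [Finset.card_insert_of_notMem hy', ← Finset.card_insert_of_notMem hx', hP]
  have fsurj : ∀ w ∈ insert y (C ∩ D), ∃ i, f i = w := by
    intro w hw
    have h3 : (Finset.univ.image f) = insert y (C ∩ D) := by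
      apply Finset.eq_of_subset_of_card_le
      · intro v hv
        obtain ⟨i, _, rfl⟩ := Finset.mem_image.1 hv
        exact (hf1 i).2
      · rw [Finset.card_image_of_injective _ finj, hPy]; simp
    rw [← h3] at hw
    obtain ⟨i, _, hi⟩ := Finset.mem_image.1 hw
    exact ⟨i, hi⟩
  let ψ : V → V := fun p => if p = x then y else p
  have hψ : ∀ i, ψ (e i) ∈ insert y (C ∩ D) := by
    intro i
    simp only [ψ]
    split_ifs with h3
    · simp
    · have := (he1 i).2
      rw [Finset.mem_insert] at this
      rcases this with h4 | h4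
      · exact absurd h4 h3
      · exact Finset.mem_insert_of_mem h4
  choose σ hσ using fun i => fsurj _ (hψ i)
  have hψinj : ∀ i j, ψ (e i) = ψ (e j) → i = j := by
    intro i j hij
    apply einj
    simp only [ψ] at hij
    have hi := (he1 i).2
    have hj := (he1 j).2
    rw [Finset.mem_insert] at hi hj
    split_ifs at hij with h3 h4 h4
    · rw [h3, h4]
    · rcases hj with hj | hj
      · exact absurd hj h4
      · rw [← hij] at hj; exact absurd hj hy'
    · rcases hi with hi | hi
      · exact absurd hi h3
      · rw [hij] at hi; exact absurd hi hy'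
    · exact hij
  have hcross : ∀ i j, i ≠ j → Disjoint (L i) (M (σ j)) := by
    intro i j hij
    rw [Finset.disjoint_left]
    intro w hwL hwM
    have hwP : w ∈ C ∩ D := Finset.mem_inter.2 ⟨hL1 _ hwL, hM1 _ hwM⟩
    have h3 : w = e i := he2 i w hwL (Finset.mem_insert_of_mem hwP)
    have h4 : w = f (σ j) := hf2 _ w hwM (Finset.mem_insert_of_mem hwP)
    rw [hσ j] at h4
    have h5 : ψ (e i) = e i := by
      simp only [ψ]
      rw [if_neg]
      intro h6
      rw [← h3] at h6
      rw [h6] at hwP; exact hx' hwP
    exact hij (hψinj i j (by rw [h5, ← h3, h4]))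
  refine Fam.of_weak (fun i => L i ∪ M (σ i)) ?_ ?_ ?_ ?_ ?_
  · intro i
    rw [← hS]
    exact Finset.union_subset_union (hL1 i) (hM1 _)
  · intro i
    by_cases h3 : e i = x
    · have h4 : f (σ i) = y := by rw [hσ i]; simp [ψ, h3]
      exact conn_union_adj (hL2 i) (hM2 _) (h3 ▸ (he1 i).1) (h4 ▸ (hf1 (σ i)).1) hxy
    · have h4 : f (σ i) = e i := by rw [hσ i]; simp [ψ, h3]
      exact conn_union (hL2 i) (hM2 _) (he1 i).1 (h4 ▸ (hf1 (σ i)).1)
  · intro i j hij
    have h3 : σ i ≠ σ j := by
      intro h4
      exact hij (hψinj i j (by rw [← hσ i, ← hσ j, h4]))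
    rw [Finset.disjoint_union_left, Finset.disjoint_union_right, Finset.disjoint_union_right]
    exact ⟨⟨hL3 i j hij, hcross i j hij⟩, (hcross j i (Ne.symm hij)).symm, hM3 _ _ h3⟩
  · intro i
    have : (L i ∩ A).Nonempty := by
      rw [← Finset.card_pos, hL4 i]; norm_num
    exact this.mono (Finset.inter_subset_inter_right Finset.subset_union_left)
  · intro i
    have : (M (σ i) ∩ B).Nonempty := by
      rw [← Finset.card_pos, hM5 (σ i)]; norm_num
    exact this.mono (Finset.inter_subset_inter_right Finset.subset_union_right)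

theorem Fam.symm {G : SimpleGraph V} {S A B : Finset V} {k : ℕ} (h : Fam G S A B k) :
    Fam G S B A k := by
  obtain ⟨L, h1, h2, h3, h4, h5⟩ := h
  exact ⟨L, h1, h2, h3, h5, h4⟩

theorem Fam.mono_graph {G G' : SimpleGraph V} {S A B : Finset V} {k : ℕ} (hG : G' ≤ G)
    (h : Fam G' S A B k) : Fam G S A B k := by
  obtain ⟨L, h1, h2, h3, h4, h5⟩ := h
  exact ⟨L, h1, fun i => conn_mono hG (h2 i), h3, h4, h5⟩

theorem main (G : SimpleGraph V) : ∀ (S A B : Finset V) (k : ℕ), A ⊆ S → B ⊆ S →
    (∀ C D : Finset V, Sep G S C D → A ⊆ C → B ⊆ D → k ≤ (C ∩ D).card) → Fam G S A B k := by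
  induction G using WellFoundedLT.induction with
  | ind G ih =>
    intro S A B k hA hB h
    by_cases hedge : ∃ x ∈ S, ∃ y ∈ S, G.Adj x y
    · obtain ⟨x, hxS, y, hyS, hxy⟩ := hedge
      set G' := G.deleteEdges {s(x, y)} with hG'def
      have hlt : G' < G := by
        refine lt_of_le_of_ne (SimpleGraph.deleteEdges_le _) ?_
        intro heq
        have : G'.Adj x y := by rw [heq]; exact hxy
        rw [hG'def, SimpleGraph.deleteEdges_adj] at this
        exact this.2 rfl
      have hG' : ∀ a b, G.Adj a b → ¬ G'.Adj a b → (a = x ∧ b = y) ∨ (a = y ∧ b = x) := by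
        intro a b hab hn
        rw [hG'def, SimpleGraph.deleteEdges_adj] at hn
        have : s(a, b) = s(x, y) := by
          by_contra h3
          exact hn ⟨hab, h3⟩
        rwa [Sym2.eq_iff] at this
      by_cases hc : ∀ C D : Finset V, Sep G' S C D → A ⊆ C → B ⊆ D → k ≤ (C ∩ D).card
      · exact (ih G' hlt S A B k hA hB hc).mono_graph hlt.le
      · push Not at hc
        obtain ⟨C, D, hCD, hAC, hBD, hcard⟩ := hc
        -- reduce to `x ∈ C \ D`, `y ∈ D \ C`
        have key : ∀ x y : V, G.Adj x y →
            (∀ a b, G.Adj a b → ¬ G'.Adj a b → (a = x ∧ b = y) ∨ (a = y ∧ b = x)) →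
            x ∈ C → x ∉ D → y ∈ D → y ∉ C → Fam G S A B k := by
          intro x y hxy hG' hxC hxD hyD hyC
          have hCS : C ⊆ S := by rw [← hCD.1]; exact Finset.subset_union_left
          have hDS : D ⊆ S := by rw [← hCD.1]; exact Finset.subset_union_right
          have h3 : k ≤ (C ∩ insert x D).card := by
            refine h C (insert x D) ⟨?_, ?_⟩ hAC (hBD.trans (Finset.subset_insert _ _))
            · rw [← hCD.1]
              ext w; simp only [Finset.mem_union, Finset.mem_insert]
              constructor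
              · rintro (h | rfl | h)
                · exact Or.inl h
                · exact Or.inl hxC
                · exact Or.inr h
              · rintro (h | h)
                · exact Or.inl h
                · exact Or.inr (Or.inr h)
            · intro a ha b hb hab
              simp only [Finset.mem_sdiff, Finset.mem_insert, not_or] at ha hb
              obtain ⟨haC, hax, haD⟩ := ha
              obtain ⟨hb1, hbC⟩ := hb
              have hbD : b ∈ D := by
                rcases hb1 with rfl | h4
                · exact absurd hxC hbC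
                · exact h4
              have h2 : ¬ G'.Adj a b := hCD.2 a (by simp [haC, haD]) b (by simp [hbD, hbC])
              rcases hG' a b hab h2 with ⟨rfl, _⟩ | ⟨rfl, _⟩
              · exact hax rfl
              · exact hyC haC
          have h4 : C ∩ insert x D = insert x (C ∩ D) := by
            ext w; simp only [Finset.mem_inter, Finset.mem_insert]
            constructor
            · rintro ⟨h5, rfl | h6⟩
              · exact Or.inl rfl
              · exact Or.inr ⟨h5, h6⟩
            · rintro (rfl | ⟨h5, h6⟩)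
              · exact ⟨hxC, Or.inl rfl⟩
              · exact ⟨h5, Or.inr h6⟩
          have hx' : x ∉ C ∩ D := by simp [hxD]
          have hy' : y ∉ C ∩ D := by simp [hyC]
          rw [h4, Finset.card_insert_of_notMem hx'] at h3
          have hP : (insert x (C ∩ D)).card = k := by
            rw [Finset.card_insert_of_notMem hx']; omega
          have f1 : Fam G C A (insert x (C ∩ D)) k := by
            refine (ih G' hlt C A (insert x (C ∩ D)) k hAC ?_ ?_).mono_graph hlt.le
            · intro w hw
              rw [Finset.mem_insert] at hw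
              rcases hw with rfl | hw
              · exact hxC
              · exact (Finset.mem_inter.1 hw).1
            · intro E F hEF hAE hF
              exact half hG' h hCD hBD hyC E F hEF hAE hF
          have f2 : Fam G D B (insert y (C ∩ D)) k := by
            refine (ih G' hlt D B (insert y (C ∩ D)) k hBD ?_ ?_).mono_graph hlt.le
            · intro w hw
              rw [Finset.mem_insert] at hw
              rcases hw with rfl | hw
              · exact hyD
              · exact (Finset.mem_inter.1 hw).2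
            · intro E F hEF hAE hF
              refine half (S := S) (A := B) (B := A) (C := D) (D := C) (x := y) (y := x)
                (G := G) (G' := G') ?_ ?_ (sep_symm hCD) hAC hxD E F hEF hAE ?_
              · intro a b hab hn
                rcases hG' a b hab hn with h5 | h5
                · exact Or.inr h5
                · exact Or.inl h5
              · intro C' D' h5 h6 h7
                rw [Finset.inter_comm]
                exact h D' C' (sep_symm h5) h7 h6
              · rw [Finset.inter_comm D C]; exact hF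
          exact glue hxy hCD.1 hxD hyC hP f1 f2.symm
        by_cases hG : Sep G S C D
        · exact absurd (h C D hG hAC hBD) (by omega)
        · have h5 : ¬ NoEdge G (C \ D) (D \ C) := fun h6 => hG ⟨hCD.1, h6⟩
          unfold NoEdge at h5
          push Not at h5
          obtain ⟨a, ha, b, hb, hab⟩ := h5
          have h2 : ¬ G'.Adj a b := hCD.2 a ha b hb
          rw [Finset.mem_sdiff] at ha hb
          rcases hG' a b hab h2 with ⟨rfl, rfl⟩ | ⟨rfl, rfl⟩
          · exact key a b hab hG' ha.1 ha.2 hb.1 hb.2
          · refine key a b hab ?_ ha.1 ha.2 hb.1 hb.2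
            intro a' b' h7 h8
            rcases hG' a' b' h7 h8 with h9 | h9
            · exact Or.inr h9
            · exact Or.inl h9
    · push Not at hedge
      have h1 : k ≤ (A ∩ B).card := by
        have h2 := h A (B ∪ (S \ A)) ⟨?_, ?_⟩ Subset.rfl Finset.subset_union_left
        · refine h2.trans (Finset.card_le_card ?_)
          intro w hw
          simp only [Finset.mem_inter, Finset.mem_union, Finset.mem_sdiff] at hw ⊢
          refine ⟨hw.1, ?_⟩
          rcases hw.2 with h3 | h3
          · exact h3
          · exact absurd hw.1 h3.2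
        · ext w
          simp only [Finset.mem_union, Finset.mem_sdiff]
          constructor
          · rintro (h3 | h3 | h3)
            · exact hA h3
            · exact hB h3
            · exact h3.1
          · intro h3
            by_cases h4 : w ∈ A
            · exact Or.inl h4
            · exact Or.inr (Or.inr ⟨h3, h4⟩)
        · intro a ha b hb
          simp only [Finset.mem_union, Finset.mem_sdiff] at ha hb
          refine hedge a (hA ha.1) b ?_
          rcases hb.1 with h3 | h3
          · exact hB h3
          · exact h3.1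
      obtain ⟨T, hT, hTc⟩ := Finset.exists_subset_card_eq h1
      let e : Fin k ≃ T := (Finset.equivFinOfCardEq hTc).symm
      have he : ∀ i, (e i : V) ∈ A ∧ (e i : V) ∈ B := fun i => Finset.mem_inter.1 (hT (e i).2)
      refine ⟨fun i => {(e i : V)}, ?_, ?_, ?_, ?_, ?_⟩
      · intro i
        rw [Finset.singleton_subset_iff]
        exact hA (he i).1
      · intro i; exact conn_singleton G _
      · intro i j hij
        rw [Finset.disjoint_singleton]
        intro h3
        exact hij (e.injective (Subtype.ext h3))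
      · intro i
        rw [Finset.singleton_inter_of_mem (he i).1]; simp
      · intro i
        rw [Finset.singleton_inter_of_mem (he i).2]; simp

end MengerAux

/-- ROW M (Menger). -/
theorem menger (G : SimpleGraph V) (S A B : Finset V) (k : ℕ) (hA : A ⊆ S) (hB : B ⊆ S)
    (h : ∀ C D : Finset V, Sep G S C D → A ⊆ C → B ⊆ D → k ≤ (C ∩ D).card) :
    ∃ L : Fin k → Finset V, (∀ i, L i ⊆ S) ∧ (∀ i, Conn G (L i)) ∧
      (∀ i j, i ≠ j → Disjoint (L i) (L j)) ∧
      (∀ i, (L i ∩ A).card = 1) ∧ ∀ i, (L i ∩ B).card = 1 :=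
  MengerAux.main G S A B k hA hB h

end Vale.Agent.P060
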