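import Mathlib
import Vale.Agent.P060.Defs

namespace Vale.Agent.P060

open Finset

variable {V : Type} [Fintype V] [DecidableEq V]

/-- `C` is linked: any at most `k` pairs of distinct vertices of `C` can be joined by disjoint connected
subsets of `C`, avoiding a further prescribed set `Q`, if `2 p + |Q| ≤ 2 k`. -/
def SetLinked (G : SimpleGraph V) (C : Finset V) (k : ℕ) : Prop :=
  ∀ (p : ℕ) (s t : Fin p → V) (Q : Finset V), 2 * p + Q.card ≤ 2 * k →
    Function.Injective s → Function.Injective t → (∀ i j, s i ≠ t j) →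
    (∀ i, s i ∈ C) → (∀ i, t i ∈ C) → (∀ i, s i ∉ Q) → (∀ i, t i ∉ Q) →
    ∃ L : Fin p → Finset V, (∀ i, L i ⊆ C) ∧ (∀ i, Conn G (L i)) ∧
      (∀ i, s i ∈ L i) ∧ (∀ i, t i ∈ L i) ∧ (∀ i, Disjoint (L i) Q) ∧
      ∀ i j, i ≠ j → Disjoint (L i) (L j)

end Vale.Agent.P060
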