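import Mathlib
import Vale.Agent.P060.Defs
import Vale.Agent.P060.SetLinked
import Vale.Agent.P060.Menger

/-!
P060, row L (linking theorem for massed graphs): definitions.
-/

namespace Vale.Agent.P060

open Finset

variable {V : Type} [Fintype V] [DecidableEq V]

/-- Every system of disjoint pairs of `Z` can be linked in `S`. -/
def Lkd (G : SimpleGraph V) (S Z : Finset V) : Prop :=
  ∀ (ι : Type) (s t : ι → V), Function.Injective s → Function.Injective t → (∀ i j, s i ≠ t j) →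
    (∀ i, s i ∈ Z) → (∀ i, t i ∈ Z) →
    ∃ L : ι → Finset V, (∀ i, L i ⊆ S) ∧ (∀ i, Conn G (L i)) ∧ (∀ i, L i ∩ Z = {s i, t i}) ∧
      ∀ i j, i ≠ j → Disjoint (L i) (L j)

/-- Massed pairs. -/
def Massed (G : SimpleGraph V) (S Z : Finset V) (α : ℕ) : Prop :=
  Z ⊆ S ∧ 2 * α * (S \ Z).card < rho G S (S \ Z) ∧
    ∀ A B : Finset V, Sep G S A B → Z ⊆ A → (A ∩ B).card < Z.card →
      rho G S (B \ A) ≤ 2 * α * (B \ A).card

/-- Contraction of the edge `xy` into `x` (use it on sets not containing `y`). -/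
def contr (G : SimpleGraph V) (x y : V) : SimpleGraph V where
  Adj a b := a ≠ b ∧ (G.Adj a b ∨ (a = x ∧ G.Adj y b) ∨ (b = x ∧ G.Adj y a))
  symm := ⟨fun a b h => by
    obtain ⟨h1, h2⟩ := h
    refine ⟨h1.symm, ?_⟩
    rcases h2 with h2 | h2 | h2
    · exact Or.inl h2.symm
    · exact Or.inr (Or.inr h2)
    · exact Or.inr (Or.inl h2)⟩
  loopless := ⟨fun a h => h.1 rfl⟩

/-- Add all edges inside `K`. -/
def addK (G : SimpleGraph V) (K : Finset V) : SimpleGraph V where
  Adj a b := a ≠ b ∧ (G.Adj a b ∨ (a ∈ K ∧ b ∈ K))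
  symm := ⟨fun a b h => by
    obtain ⟨h1, h2⟩ := h
    refine ⟨h1.symm, ?_⟩
    rcases h2 with h2 | h2
    · exact Or.inl h2.symm
    · exact Or.inr ⟨h2.2, h2.1⟩⟩
  loopless := ⟨fun a h => h.1 rfl⟩

/-- Delete the edge `xy`. -/
def delE (G : SimpleGraph V) (x y : V) : SimpleGraph V where
  Adj a b := G.Adj a b ∧ ¬ ((a = x ∧ b = y) ∨ (a = y ∧ b = x))
  symm := ⟨fun a b h => by
    obtain ⟨h1, h2⟩ := h
    refine ⟨h1.symm, ?_⟩
    intro h3
    apply h2
    rcases h3 with h3 | h3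
    · exact Or.inr ⟨h3.2, h3.1⟩
    · exact Or.inl ⟨h3.2, h3.1⟩⟩
  loopless := ⟨fun a h => G.irrefl h.1⟩

/-- Number of common neighbours of `x` and `y` in `S`. -/
noncomputable def comm (G : SimpleGraph V) (S : Finset V) (x y : V) : ℕ := by
  classical
  exact (S.filter (fun c => G.Adj x c ∧ G.Adj y c)).card

/-- Induction hypothesis: smaller massed pairs are linked. -/
def IHs (V : Type) [Fintype V] [DecidableEq V] (n k α : ℕ) : Prop :=
  ∀ (G : SimpleGraph V) (S Z : Finset V), S.card < n → Massed G S Z α → Z.card ≤ 2 * k →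
    Lkd G S Z

end Vale.Agent.P060
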