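import Mathlib
import Vale.Agent.P060.Defs
import Vale.Agent.P060.LinkDefs

/-! P060, unconditional theorem: definitions. -/

namespace Vale.Agent.P060

open Finset

variable {V : Type} [Fintype V] [DecidableEq V]

/-- `G[J]` is `κ`-connected: more than `κ` vertices and no proper separation of order `< κ`. -/
def KConn (G : SimpleGraph V) (J : Finset V) (κ : ℕ) : Prop :=
  κ < J.card ∧ ∀ A B : Finset V, Sep G J A B → (A ∩ B).card < κ → A \ B = ∅ ∨ B \ A = ∅

/-- A model in `G` of the abstract graph `M[T]`: disjoint connected blobs `B x ∋ x`, `x ∈ T`. -/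
def IsModel (G M : SimpleGraph V) (T : Finset V) (B : V → Finset V) : Prop :=
  (∀ x ∈ T, Conn G (B x)) ∧ (∀ x ∈ T, x ∈ B x) ∧
    (∀ x ∈ T, ∀ y ∈ T, x ≠ y → Disjoint (B x) (B y)) ∧
    ∀ x ∈ T, ∀ y ∈ T, M.Adj x y → ∃ u ∈ B x, ∃ v ∈ B y, G.Adj u v

/-- The vertices used by a model. -/
def foot (T : Finset V) (B : V → Finset V) : Finset V := T.biUnion B

/-- No separation of `G[S]` of order `< |Z|` with `Z` on the left has a full blob strictly on the
right. -/
def NoCut (G : SimpleGraph V) (S Z T : Finset V) (B : V → Finset V) : Prop :=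
  ∀ A C : Finset V, Sep G S A C → Z ⊆ A → (A ∩ C).card < Z.card → ∀ x ∈ T, ¬ B x ⊆ C \ A

/-- Vertices of `J'` with a neighbour in `X`. -/
noncomputable def nbr (G : SimpleGraph V) (J' X : Finset V) : Finset V := by
  classical
  exact J'.filter (fun f => ∃ v ∈ X, G.Adj f v)

/-- Colourability of an induced subgraph. -/
def Col (G : SimpleGraph V) (S : Finset V) (k : ℕ) : Prop := (G.induce (S : Set V)).Colorable k

end Vale.Agent.P060
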