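import Mathlib
import Vale.Agent.P060.Defs
import Vale.Agent.P060.SetLinked
import Vale.Agent.P060.Menger

namespace Vale.Agent.P060

open Finset

variable {V : Type} [Fintype V] [DecidableEq V]

namespace DL

lemma conn_singleton (G : SimpleGraph V) (x : V) : Conn G {x} := by
  unfold Conn
  rw [coe_singleton]
  haveI : Subsingleton (({x} : Set V) : Type) := by
    constructor
    rintro ⟨a, ha⟩ ⟨b, hb⟩
    simp only [Set.mem_singleton_iff] at ha hb
    subst ha; subst hb; rfl
  haveI : Nonempty (({x} : Set V) : Type) := ⟨⟨x, rfl⟩⟩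
  constructor
  intro a b
  rw [Subsingleton.elim a b]

lemma conn_cons (G : SimpleGraph V) (S : Finset V) (x y : V) (hS : Conn G S) (hy : y ∈ S)
    (h : x = y ∨ G.Adj x y) : Conn G (insert x S) := by
  rcases h with rfl | h
  · rwa [insert_eq_of_mem hy]
  · have h1 : Conn G {x} := conn_singleton G x
    unfold Conn at h1 hS ⊢
    rw [coe_singleton] at h1
    have := SimpleGraph.connected_induce_union (G := G) (v := x) (w := y) (s := {x})
      (t := (S : Set V)) h1.preconnected hS.preconnected rfl (by exact_mod_cast hy) h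
    rw [coe_insert, Set.insert_eq]
    exact this

lemma conn_chain8 (G : SimpleGraph V) (a b c d e f g h : V)
    (h1 : a = b ∨ G.Adj a b) (h2 : b = c ∨ G.Adj b c) (h3 : c = d ∨ G.Adj c d)
    (h4 : d = e ∨ G.Adj d e) (h5 : e = f ∨ G.Adj e f) (h6 : f = g ∨ G.Adj f g)
    (h7 : g = h ∨ G.Adj g h) : Conn G {a, b, c, d, e, f, g, h} := by
  refine conn_cons G _ a b ?_ (by simp) h1
  refine conn_cons G _ b c ?_ (by simp) h2
  refine conn_cons G _ c d ?_ (by simp) h3
  refine conn_cons G _ d e ?_ (by simp) h4
  refine conn_cons G _ e f ?_ (by simp) h5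
  refine conn_cons G _ f g ?_ (by simp) h6
  refine conn_cons G _ g h ?_ (by simp) h7
  exact conn_singleton G h

lemma card_eight (a b c d e f g h : V) : ({a, b, c, d, e, f, g, h} : Finset V).card ≤ 8 := by
  refine (card_insert_le _ _).trans (Nat.succ_le_succ ?_)
  refine (card_insert_le _ _).trans (Nat.succ_le_succ ?_)
  refine (card_insert_le _ _).trans (Nat.succ_le_succ ?_)
  refine (card_insert_le _ _).trans (Nat.succ_le_succ ?_)
  refine (card_insert_le _ _).trans (Nat.succ_le_succ ?_)
  refine (card_insert_le _ _).trans (Nat.succ_le_succ ?_)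
  refine (card_insert_le _ _).trans (Nat.succ_le_succ ?_)
  simp

/-- a partial linkage by small connected sets -/
def Part (G : SimpleGraph V) (H : Finset V) {p : ℕ} (s t : Fin p → V) (Q : Finset V)
    (I : Finset (Fin p)) (L : Fin p → Finset V) : Prop :=
  (∀ i ∈ I, L i ⊆ H ∧ Conn G (L i) ∧ s i ∈ L i ∧ t i ∈ L i ∧ (L i).card ≤ 8 ∧
      Disjoint (L i) Q ∧ ∀ j, j ≠ i → s j ∉ L i ∧ t j ∉ L i) ∧
    ∀ i ∈ I, ∀ j ∈ I, i ≠ j → Disjoint (L i) (L j)

lemma exists_best (G : SimpleGraph V) (H : Finset V) {p : ℕ} (s t : Fin p → V) (Q : Finset V) :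
    ∃ I L, Part G H s t Q I L ∧ (∀ I' L', Part G H s t Q I' L' → I'.card ≤ I.card) ∧
      ∀ L', Part G H s t Q I L' → ∑ i ∈ I, (L i).card ≤ ∑ i ∈ I, (L' i).card := by
  classical
  have hne : (univ.filter (fun I : Finset (Fin p) => ∃ L, Part G H s t Q I L)).Nonempty := by
    refine ⟨∅, ?_⟩
    simp only [mem_filter, mem_univ, true_and]
    exact ⟨fun _ => ∅, by simp [Part]⟩
  obtain ⟨I, hI, hmax⟩ := exists_max_image _ (fun I : Finset (Fin p) => I.card) hne
  simp only [mem_filter, mem_univ, true_and] at hI hmax
  have hne2 : (univ.filter (fun L : Fin p → Finset V => Part G H s t Q I L)).Nonempty := by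
    obtain ⟨L, hL⟩ := hI
    exact ⟨L, by simpa using hL⟩
  obtain ⟨L, hL, hmin⟩ := exists_min_image _ (fun L : Fin p → Finset V => ∑ i ∈ I, (L i).card) hne2
  simp only [mem_filter, mem_univ, true_and] at hL hmin
  exact ⟨I, L, hL, fun I' L' h => hmax I' ⟨L', h⟩, fun L' h => hmin L' h⟩

/-- a connected set with a vertex having four neighbours in it can be shortened -/
lemma shortcut (G : SimpleGraph V) (L : Finset V) (s t v : V) (hL : Conn G L) (hs : s ∈ L)
    (ht : t ∈ L) (h4 : 4 ≤ degIn G L v) :
    ∃ L', L' ⊆ insert v L ∧ Conn G L' ∧ s ∈ L' ∧ t ∈ L' ∧ L'.card < L.card := by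
  classical
  obtain ⟨P, hP, hPL⟩ := MengerAux.conn_path hL hs ht
  have hsupp : P.support.toFinset ⊆ L := fun z hz => hPL z (by simpa using hz)
  have hcardP : P.support.toFinset.card = P.length + 1 := by
    rw [List.toFinset_card_of_nodup hP.support_nodup, SimpleGraph.Walk.length_support]
  by_cases hcov : L ⊆ P.support.toFinset
  · set A : Finset ℕ := (range (P.length + 1)).filter (fun i => G.Adj v (P.getVert i)) with hA
    have hA4 : 4 ≤ A.card := by
      refine h4.trans ?_
      unfold degIn
      have hsub : L.filter (fun w => G.Adj v w) ⊆ A.image P.getVert := by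
        intro z hz
        rw [mem_filter] at hz
        have hz1 : z ∈ P.support := by simpa using hcov hz.1
        obtain ⟨i, hi, hin⟩ := SimpleGraph.Walk.mem_support_iff_exists_getVert.1 hz1
        rw [mem_image]
        refine ⟨i, ?_, hi⟩
        rw [hA, mem_filter, mem_range]
        exact ⟨by omega, by rw [hi]; exact hz.2⟩
      exact (card_le_card hsub).trans card_image_le
    have hAne : A.Nonempty := card_pos.1 (by omega)
    set a := A.min' hAne with ha
    set b := A.max' hAne with hb
    have haA : a ∈ A := min'_mem _ _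
    have hbA : b ∈ A := max'_mem _ _
    have hsubI : A ⊆ Icc a b := fun x hx => mem_Icc.2 ⟨min'_le _ _ hx, le_max' _ _ hx⟩
    have hc := card_le_card hsubI
    rw [Nat.card_Icc] at hc
    rw [hA, mem_filter, mem_range] at haA hbA
    set W : G.Walk s t := (P.take a).append
      (SimpleGraph.Walk.cons haA.2.symm (SimpleGraph.Walk.cons hbA.2 (P.drop b))) with hW
    have hWlen : W.length + 1 < P.length + 1 := by
      rw [hW, SimpleGraph.Walk.length_append, SimpleGraph.Walk.length_cons,
        SimpleGraph.Walk.length_cons, SimpleGraph.Walk.take_length,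
        SimpleGraph.Walk.drop_length]
      have : min a P.length ≤ a := min_le_left _ _
      omega
    refine ⟨W.support.toFinset, ?_, MengerAux.conn_support W, by simp, by simp, ?_⟩
    · intro z hz
      rw [List.mem_toFinset, hW, SimpleGraph.Walk.mem_support_append_iff] at hz
      rw [mem_insert]
      rcases hz with hz | hz
      · right
        exact hPL z ((P.isSubwalk_take a).support_subset hz)
      · rw [SimpleGraph.Walk.support_cons, SimpleGraph.Walk.support_cons] at hz
        simp only [List.mem_cons] at hz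
        rcases hz with rfl | rfl | hz
        · right
          exact hPL _ (SimpleGraph.Walk.getVert_mem_support _ _)
        · left; rfl
        · right
          exact hPL z ((P.isSubwalk_drop b).support_subset hz)
    · calc W.support.toFinset.card ≤ W.support.length := List.toFinset_card_le _
        _ = W.length + 1 := SimpleGraph.Walk.length_support _
        _ < P.length + 1 := hWlen
        _ = P.support.toFinset.card := hcardP.symm
        _ ≤ L.card := card_le_card hsupp
  · refine ⟨P.support.toFinset, hsupp.trans (subset_insert _ _), MengerAux.conn_support P,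
      by simp, by simp, card_lt_card ⟨hsupp, hcov⟩⟩

lemma degIn_sdiff (G : SimpleGraph V) (H J : Finset V) (v : V) :
    degIn G H v ≤ degIn G (H \ J) v + degIn G J v := by
  classical
  unfold degIn
  refine (card_le_card ?_).trans (card_union_le _ _)
  intro w hw
  simp only [mem_filter, mem_union, mem_sdiff] at hw ⊢
  by_cases h : w ∈ J
  · exact Or.inr ⟨h, hw.2⟩
  · exact Or.inl ⟨⟨hw.1, h⟩, hw.2⟩

lemma degIn_le_card (G : SimpleGraph V) (J : Finset V) (v : V) : degIn G J v ≤ J.card := by
  classical
  unfold degIn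
  exact card_le_card (filter_subset _ _)

lemma degIn_union (G : SimpleGraph V) (J K : Finset V) (v : V) :
    degIn G (J ∪ K) v ≤ degIn G J v + degIn G K v := by
  classical
  unfold degIn
  rw [filter_union]
  exact card_union_le _ _

lemma degIn_biUnion (G : SimpleGraph V) {ι : Type} [DecidableEq ι] (u : Finset ι)
    (B : ι → Finset V) (v : V) : degIn G (u.biUnion B) v ≤ ∑ i ∈ u, degIn G (B i) v := by
  classical
  unfold degIn
  rw [filter_biUnion]
  exact card_biUnion_le

/-- closed neighbourhood inside `K` -/
noncomputable def cN (G : SimpleGraph V) (K : Finset V) (x : V) : Finset V := by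
  classical
  exact insert x (K.filter (fun w => G.Adj x w))

lemma card_cN (G : SimpleGraph V) (K : Finset V) (x : V) :
    (cN G K x).card = degIn G K x + 1 := by
  classical
  unfold cN degIn
  rw [card_insert_of_notMem (by simp)]

lemma mem_cN (G : SimpleGraph V) (K : Finset V) (x w : V) (hx : x ∈ K) :
    w ∈ cN G K x ↔ w ∈ K ∧ (w = x ∨ G.Adj w x) := by
  classical
  unfold cN
  simp only [mem_insert, mem_filter]
  constructor
  · rintro (rfl | ⟨h1, h2⟩)
    · exact ⟨hx, Or.inl rfl⟩
    · exact ⟨h1, Or.inr h2.symm⟩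
  · rintro ⟨h1, rfl | h2⟩
    · exact Or.inl rfl
    · exact Or.inr ⟨h1, h2.symm⟩

/-- ball of radius two inside `K` -/
noncomputable def ball (G : SimpleGraph V) (K : Finset V) (x : V) : Finset V := by
  classical
  exact K.filter (fun v => ∃ w ∈ K, (v = w ∨ G.Adj v w) ∧ (w = x ∨ G.Adj w x))

lemma mem_ball (G : SimpleGraph V) (K : Finset V) (x v : V) :
    v ∈ ball G K x ↔ v ∈ K ∧ ∃ w ∈ K, (v = w ∨ G.Adj v w) ∧ (w = x ∨ G.Adj w x) := by
  classical
  unfold ball
  simp only [mem_filter]

/-- the splitting step -/
lemma split (G : SimpleGraph V) (K : Finset V) (d : ℕ) (x y : V) (hx : x ∈ K) (hy : y ∈ K)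
    (hK : K.card < 3 * (d + 1)) (hdeg : ∀ v ∈ K, d ≤ degIn G K v)
    (hno : ∀ a ∈ ball G K x, ∀ b ∈ ball G K y, ¬ (a = b ∨ G.Adj a b)) :
    ∃ C ⊆ K, C.Nonempty ∧ 2 * C.card ≤ K.card ∧ ∀ v ∈ C, d ≤ degIn G C v := by
  classical
  have hxx : x ∈ ball G K x := (mem_ball _ _ _ _).2 ⟨hx, x, hx, Or.inl rfl, Or.inl rfl⟩
  have hyy : y ∈ ball G K y := (mem_ball _ _ _ _).2 ⟨hy, y, hy, Or.inl rfl, Or.inl rfl⟩
  have hdisj : Disjoint (ball G K x) (ball G K y) := by
    rw [disjoint_left]
    intro a ha hb
    exact hno a ha a hb (Or.inl rfl)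
  have hcov : ∀ v ∈ K, v ∈ ball G K x ∨ v ∈ ball G K y := by
    by_contra hcon
    push Not at hcon
    obtain ⟨v, hv, hvx, hvy⟩ := hcon
    have d1 : Disjoint (cN G K v) (cN G K x) := by
      rw [disjoint_left]
      intro w hw1 hw2
      rw [mem_cN _ _ _ _ hv] at hw1
      rw [mem_cN _ _ _ _ hx] at hw2
      apply hvx
      rw [mem_ball]
      exact ⟨hv, w, hw1.1, hw1.2.imp Eq.symm (fun h => h.symm), hw2.2⟩
    have d2 : Disjoint (cN G K v) (cN G K y) := by
      rw [disjoint_left]
      intro w hw1 hw2
      rw [mem_cN _ _ _ _ hv] at hw1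
      rw [mem_cN _ _ _ _ hy] at hw2
      apply hvy
      rw [mem_ball]
      exact ⟨hv, w, hw1.1, hw1.2.imp Eq.symm (fun h => h.symm), hw2.2⟩
    have d3 : Disjoint (cN G K x) (cN G K y) := by
      rw [disjoint_left]
      intro w hw1 hw2
      rw [mem_cN _ _ _ _ hx] at hw1
      rw [mem_cN _ _ _ _ hy] at hw2
      have : y ∈ ball G K x := by
        rw [mem_ball]
        exact ⟨hy, w, hw1.1, hw2.2.imp Eq.symm (fun h => h.symm), hw1.2⟩
      exact hno y this y hyy (Or.inl rfl)
    have hsub : (cN G K v ∪ cN G K x) ∪ cN G K y ⊆ K := by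
      intro w hw
      simp only [mem_union] at hw
      rcases hw with (hw | hw) | hw
      · rw [mem_cN _ _ _ _ hv] at hw; exact hw.1
      · rw [mem_cN _ _ _ _ hx] at hw; exact hw.1
      · rw [mem_cN _ _ _ _ hy] at hw; exact hw.1
    have hc := card_le_card hsub
    rw [card_union_of_disjoint (disjoint_union_left.2 ⟨d2, d3⟩), card_union_of_disjoint d1,
      card_cN, card_cN, card_cN] at hc
    have e1 := hdeg v hv
    have e2 := hdeg x hx
    have e3 := hdeg y hy
    omega
  have key : ∀ C ⊆ K, C.Nonempty → 2 * C.card ≤ K.card → (∀ v ∈ C, ∀ w ∈ K, G.Adj v w → w ∈ C) →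
      ∃ C ⊆ K, C.Nonempty ∧ 2 * C.card ≤ K.card ∧ ∀ v ∈ C, d ≤ degIn G C v := by
    intro C hCK hCn hC2 hcl
    refine ⟨C, hCK, hCn, hC2, ?_⟩
    intro v hv
    refine (hdeg v (hCK hv)).trans ?_
    unfold degIn
    apply card_le_card
    intro w hw
    simp only [mem_filter] at hw ⊢
    exact ⟨hcl v hv w hw.1 hw.2, hw.2⟩
  have hbK : ∀ z, ball G K z ⊆ K := fun z v hv => ((mem_ball _ _ _ _).1 hv).1
  have hsum : (ball G K x).card + (ball G K y).card ≤ K.card := by
    rw [← card_union_of_disjoint hdisj]
    exact card_le_card (union_subset (hbK x) (hbK y))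
  rcases le_total (ball G K x).card (ball G K y).card with h | h
  · refine key _ (hbK x) ⟨x, hxx⟩ (by omega) ?_
    intro v hv w hw hvw
    rcases hcov w hw with h1 | h1
    · exact h1
    · exact absurd (Or.inr hvw) (hno v hv w h1)
  · refine key _ (hbK y) ⟨y, hyy⟩ (by omega) ?_
    intro v hv w hw hvw
    rcases hcov w hw with h1 | h1
    · exact absurd (Or.inr hvw.symm) (hno w h1 v hv)
    · exact h1

/-- the blocked sets -/
def blk {p : ℕ} (s t : Fin p → V) (I : Finset (Fin p)) (L : Fin p → Finset V) (i : Fin p) :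
    Finset V := if i ∈ I then L i else {s i, t i}

lemma not_linked (G : SimpleGraph V) (H : Finset V) (k α : ℕ)
    (hα : 16 * k + 16 ≤ α) (hcard : H.card ≤ 2 * α + 4)
    (hdeg : ∀ v ∈ H, α ≤ degIn G H v + 2 * k) (hnl : ¬ SetLinked G H k) :
    ∃ C ⊆ H, C.Nonempty ∧ 2 * C.card ≤ 2 * α + 4 ∧ ∀ v ∈ C, α ≤ degIn G C v + 5 * k := by
  classical
  unfold SetLinked at hnl
  push Not at hnl
  obtain ⟨p, s, t, Q, hpQ, hs, ht, hst, hsH, htH, hsQ, htQ, hno⟩ := hnl
  obtain ⟨I, L, hP, hmax, hmin⟩ := exists_best G H s t Q
  have hIne : ∃ i₀, i₀ ∉ I := by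
    by_contra hcon
    push Not at hcon
    obtain ⟨h1, h2⟩ := hP
    obtain ⟨i, j, hij, hd⟩ := hno L (fun i => (h1 i (hcon i)).1) (fun i => (h1 i (hcon i)).2.1)
      (fun i => (h1 i (hcon i)).2.2.1) (fun i => (h1 i (hcon i)).2.2.2.1)
      (fun i => (h1 i (hcon i)).2.2.2.2.2.1)
    exact hd (h2 i (hcon i) j (hcon j) hij)
  obtain ⟨i₀, hi₀⟩ := hIne
  set B : Fin p → Finset V := blk s t I L with hB
  set J : Finset V := univ.biUnion B ∪ Q with hJ
  have hBin : ∀ i ∈ I, B i = L i := by
    intro i hi; rw [hB]; unfold blk; rw [if_pos hi]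
  have hBout : ∀ i, i ∉ I → B i = {s i, t i} := by
    intro i hi; rw [hB]; unfold blk; rw [if_neg hi]
  have hB8 : ∀ i, (B i).card ≤ 8 := by
    intro i
    by_cases hi : i ∈ I
    · rw [hBin i hi]; exact (hP.1 i hi).2.2.2.2.1
    · rw [hBout i hi]; exact (card_le_two).trans (by norm_num)
  have hBJ : ∀ i, B i ⊆ J := by
    intro i z hz
    rw [hJ, mem_union]; left
    exact mem_biUnion.2 ⟨i, mem_univ _, hz⟩
  have hsB : ∀ i, s i ∈ B i := by
    intro i
    by_cases hi : i ∈ I
    · rw [hBin i hi]; exact (hP.1 i hi).2.2.1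
    · rw [hBout i hi]; simp
  have htB : ∀ i, t i ∈ B i := by
    intro i
    by_cases hi : i ∈ I
    · rw [hBin i hi]; exact (hP.1 i hi).2.2.2.1
    · rw [hBout i hi]; simp
  have hJcard : J.card ≤ 8 * k := by
    have h1 : J.card ≤ (univ.biUnion B).card + Q.card := card_union_le _ _
    have h2 : (univ.biUnion B).card ≤ (univ : Finset (Fin p)).card * 8 :=
      card_biUnion_le_card_mul _ _ _ (fun i _ => hB8 i)
    rw [card_univ, Fintype.card_fin] at h2
    omega
  have hLJ : ∀ i ∈ I, L i ⊆ J := by
    intro i hi
    rw [← hBin i hi]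
    exact hBJ i
  have hsJ : ∀ i, s i ∈ J := fun i => hBJ i (hsB i)
  have htJ : ∀ i, t i ∈ J := fun i => hBJ i (htB i)
  have hQJ : ∀ z ∈ Q, z ∈ J := by
    intro z hz
    rw [hJ, mem_union]; right; exact hz
  set K : Finset V := H \ J with hK
  have hKH : K ⊆ H := sdiff_subset
  have hnotJ : ∀ z ∈ K, z ∉ J := fun z hz => (mem_sdiff.1 hz).2
  -- at most three neighbours on each path
  have h3 : ∀ v ∈ K, ∀ i, degIn G (B i) v ≤ 3 := by
    intro v hv i
    by_cases hi : i ∈ I
    · rw [hBin i hi]
      by_contra hcon
      push Not at hcon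
      have hPi := hP.1 i hi
      obtain ⟨L', hsub, hconn, hsL, htL, hlt⟩ := shortcut G (L i) (s i) (t i) v hPi.2.1 hPi.2.2.1
        hPi.2.2.2.1 hcon
      have hmem : ∀ z ∈ L', z = v ∨ z ∈ L i := fun z hz => mem_insert.1 (hsub hz)
      have hd : ∀ l ∈ I, l ≠ i → Disjoint L' (L l) := by
        intro l hl hli
        rw [disjoint_left]
        intro z hz hzl
        rcases hmem z hz with rfl | h
        · exact hnotJ z hv (hLJ l hl hzl)
        · exact disjoint_left.1 (hP.2 i hi l hl hli.symm) h hzl
      have hnew : Part G H s t Q I (Function.update L i L') := by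
        constructor
        · intro l hl
          by_cases hli : l = i
          · subst hli
            rw [Function.update_self]
            refine ⟨?_, hconn, hsL, htL, by have := hPi.2.2.2.2.1; omega, ?_, ?_⟩
            · intro z hz
              rcases hmem z hz with rfl | h
              · exact hKH hv
              · exact hPi.1 h
            · rw [disjoint_left]
              intro z hz hzQ
              rcases hmem z hz with rfl | h
              · exact hnotJ z hv (hQJ z hzQ)
              · exact disjoint_left.1 hPi.2.2.2.2.2.1 h hzQ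
            · intro m hm
              constructor
              · intro hz
                rcases hmem _ hz with h | h
                · exact hnotJ v hv (h ▸ hsJ m)
                · exact (hPi.2.2.2.2.2.2 m hm).1 h
              · intro hz
                rcases hmem _ hz with h | h
                · exact hnotJ v hv (h ▸ htJ m)
                · exact (hPi.2.2.2.2.2.2 m hm).2 h
          · rw [Function.update_of_ne hli]
            exact hP.1 l hl
        · intro l hl m hm hlm
          by_cases hli : l = i
          · subst hli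
            rw [Function.update_self, Function.update_of_ne hlm.symm]
            exact hd m hm hlm.symm
          · rw [Function.update_of_ne hli]
            by_cases hmi : m = i
            · subst hmi
              rw [Function.update_self]
              exact (hd l hl hli).symm
            · rw [Function.update_of_ne hmi]
              exact hP.2 l hl m hm hlm
      have h5 := hmin _ hnew
      have h6 : ∑ l ∈ I, (Function.update L i L' l).card < ∑ l ∈ I, (L l).card := by
        apply sum_lt_sum
        · intro l hl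
          by_cases hli : l = i
          · subst hli
            rw [Function.update_self]; exact hlt.le
          · rw [Function.update_of_ne hli]
        · exact ⟨i, hi, by rw [Function.update_self]; exact hlt⟩
      omega
    · rw [hBout i hi]
      exact (degIn_le_card _ _ _).trans ((card_le_two).trans (by norm_num))
  have hdegK : ∀ v ∈ K, α ≤ degIn G K v + 5 * k := by
    intro v hv
    have h1 := hdeg v (hKH hv)
    have h2 : degIn G H v ≤ degIn G K v + degIn G J v := degIn_sdiff G H J v
    have h4 : degIn G J v ≤ 3 * p + Q.card := by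
      refine (degIn_union _ _ _ _).trans ?_
      refine add_le_add ?_ (degIn_le_card _ _ _)
      refine (degIn_biUnion _ _ _ _).trans ?_
      calc ∑ i ∈ univ, degIn G (B i) v ≤ ∑ i ∈ (univ : Finset (Fin p)), 3 :=
            sum_le_sum (fun i _ => h3 v hv i)
        _ = 3 * p := by simp [mul_comm]
    omega
  have hnb : ∀ v ∈ H, ∃ w ∈ K, G.Adj v w := by
    intro v hv
    have h1 := hdeg v hv
    have h2 : degIn G H v ≤ degIn G K v + degIn G J v := degIn_sdiff G H J v
    have h4 := degIn_le_card G J v
    have h5 : 0 < degIn G K v := by omega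
    unfold degIn at h5
    obtain ⟨w, hw⟩ := card_pos.1 h5
    rw [mem_filter] at hw
    exact ⟨w, hw.1, hw.2⟩
  obtain ⟨x, hxK, hsx⟩ := hnb (s i₀) (hsH i₀)
  obtain ⟨y, hyK, hty⟩ := hnb (t i₀) (htH i₀)
  have hno2 : ∀ a ∈ ball G K x, ∀ b ∈ ball G K y, ¬ (a = b ∨ G.Adj a b) := by
    intro a ha b hb hab
    obtain ⟨haK, w, hwK, haw, hwx⟩ := (mem_ball _ _ _ _).1 ha
    obtain ⟨hbK, w', hwK', hbw, hwy⟩ := (mem_ball _ _ _ _).1 hb
    set N : Finset V := {s i₀, x, w, a, b, w', y, t i₀} with hN
    have hNconn : Conn G N := by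
      refine conn_chain8 G _ _ _ _ _ _ _ _ (Or.inr hsx) (hwx.imp Eq.symm fun h => h.symm)
        (haw.imp Eq.symm fun h => h.symm) hab hbw hwy (Or.inr hty.symm)
    have hNmem : ∀ z ∈ N, z = s i₀ ∨ z = t i₀ ∨ z ∈ K := by
      intro z hz
      rw [hN] at hz
      simp only [mem_insert, mem_singleton] at hz
      rcases hz with rfl | rfl | rfl | rfl | rfl | rfl | rfl | rfl
      · exact Or.inl rfl
      · exact Or.inr (Or.inr hxK)
      · exact Or.inr (Or.inr hwK)
      · exact Or.inr (Or.inr haK)
      · exact Or.inr (Or.inr hbK)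
      · exact Or.inr (Or.inr hwK')
      · exact Or.inr (Or.inr hyK)
      · exact Or.inr (Or.inl rfl)
    have hNdisj : ∀ i ∈ I, Disjoint N (L i) := by
      intro i hi
      have hne : i₀ ≠ i := fun h => hi₀ (h ▸ hi)
      have h1 := (hP.1 i hi).2.2.2.2.2.2 i₀ hne
      rw [disjoint_left]
      intro z hz hzL
      rcases hNmem z hz with rfl | rfl | h
      · exact h1.1 hzL
      · exact h1.2 hzL
      · exact hnotJ z h (hLJ i hi hzL)
    have hnew : Part G H s t Q (insert i₀ I) (Function.update L i₀ N) := by
      constructor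
      · intro i hi
        rw [mem_insert] at hi
        rcases hi with rfl | hi
        · rw [Function.update_self]
          refine ⟨?_, hNconn, by simp [hN], by simp [hN], card_eight _ _ _ _ _ _ _ _, ?_, ?_⟩
          · intro z hz
            rcases hNmem z hz with rfl | rfl | h
            · exact hsH _
            · exact htH _
            · exact (mem_sdiff.1 h).1
          · rw [disjoint_left]
            intro z hz hzQ
            rcases hNmem z hz with rfl | rfl | h
            · exact hsQ _ hzQ
            · exact htQ _ hzQ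
            · exact hnotJ z h (hQJ z hzQ)
          · intro l hl
            constructor
            · intro hz
              rcases hNmem _ hz with h | h | h
              · exact hl (hs h)
              · exact hst _ _ h
              · exact hnotJ _ h (hsJ l)
            · intro hz
              rcases hNmem _ hz with h | h | h
              · exact hst _ _ h.symm
              · exact hl (ht h)
              · exact hnotJ _ h (htJ l)
        · have hne : i ≠ i₀ := fun h => hi₀ (h ▸ hi)
          rw [Function.update_of_ne hne]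
          exact hP.1 i hi
      · intro i hi l hl hil
        rw [mem_insert] at hi hl
        rcases hi with rfl | hi
        · rcases hl with rfl | hl
          · exact absurd rfl hil
          · rw [Function.update_self, Function.update_of_ne hil.symm]
            exact hNdisj l hl
        · have hne : i ≠ i₀ := fun h => hi₀ (h ▸ hi)
          rcases hl with rfl | hl
          · rw [Function.update_self, Function.update_of_ne hne]
            exact (hNdisj i hi).symm
          · have hne' : l ≠ i₀ := fun h => hi₀ (h ▸ hl)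
            rw [Function.update_of_ne hne, Function.update_of_ne hne']
            exact hP.2 i hi l hl hil
    have := hmax _ _ hnew
    rw [card_insert_of_notMem hi₀] at this
    omega
  have hKc : K.card ≤ H.card := card_le_card hKH
  obtain ⟨C, hCK, hCn, hC2, hCdeg⟩ := split G K (α - 5 * k) x y hxK hyK (by omega)
    (fun v hv => by have := hdegK v hv; omega) hno2
  exact ⟨C, hCK.trans hKH, hCn, by omega, fun v hv => by have := hCdeg v hv; omega⟩

lemma small_linked (G : SimpleGraph V) (C : Finset V) (k α : ℕ) (hα : 16 * k + 16 ≤ α)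
    (hC : 2 * C.card ≤ 2 * α + 4) (hdeg : ∀ v ∈ C, α ≤ degIn G C v + 5 * k) :
    SetLinked G C k := by
  classical
  intro p s t Q hpQ hs ht hst hsC htC hsQ htQ
  set T : Finset V := univ.image s ∪ univ.image t with hT
  have hTcard : T.card ≤ 2 * p := by
    refine (card_union_le _ _).trans ?_
    have h1 : (univ.image s).card ≤ p := card_image_le.trans (by simp)
    have h2 : (univ.image t).card ≤ p := card_image_le.trans (by simp)
    omega
  set A : Fin p → Finset V := fun i =>
    ((C.filter (fun w => G.Adj (s i) w)) ∩ (C.filter (fun w => G.Adj (t i) w))) \ (T ∪ Q) with hA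
  have hAcard : ∀ i, p ≤ (A i).card := by
    intro i
    have h1 := hdeg (s i) (hsC i)
    have h2 := hdeg (t i) (htC i)
    unfold degIn at h1 h2
    have h3 := card_union_add_card_inter (C.filter (fun w => G.Adj (s i) w))
      (C.filter (fun w => G.Adj (t i) w))
    have h4 : ((C.filter (fun w => G.Adj (s i) w)) ∪ (C.filter (fun w => G.Adj (t i) w))).card
        ≤ C.card := card_le_card (union_subset (filter_subset _ _) (filter_subset _ _))
    have h5 := le_card_sdiff (T ∪ Q) ((C.filter (fun w => G.Adj (s i) w)) ∩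
      (C.filter (fun w => G.Adj (t i) w)))
    have h6 : (T ∪ Q).card ≤ T.card + Q.card := card_union_le _ _
    rw [hA]
    simp only
    omega
  have hHall : ∀ u : Finset (Fin p), u.card ≤ (u.biUnion A).card := by
    intro u
    rcases u.eq_empty_or_nonempty with rfl | ⟨i, hi⟩
    · simp
    · calc u.card ≤ p := by simpa using card_le_univ u
        _ ≤ (A i).card := hAcard i
        _ ≤ _ := card_le_card (subset_biUnion_of_mem A hi)
  obtain ⟨c, hc, hcA⟩ := (Finset.all_card_le_biUnion_card_iff_exists_injective A).1 hHall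
  have hcA' : ∀ i, c i ∈ C ∧ G.Adj (s i) (c i) ∧ G.Adj (t i) (c i) ∧ c i ∉ T ∧ c i ∉ Q := by
    intro i
    have := hcA i
    rw [hA] at this
    simp only [mem_sdiff, mem_inter, mem_filter, mem_union, not_or] at this
    exact ⟨this.1.1.1, this.1.1.2, this.1.2.2, this.2.1, this.2.2⟩
  have hsT : ∀ i, s i ∈ T := fun i => by
    rw [hT, mem_union]; left; exact mem_image_of_mem _ (mem_univ _)
  have htT : ∀ i, t i ∈ T := fun i => by
    rw [hT, mem_union]; right; exact mem_image_of_mem _ (mem_univ _)
  refine ⟨fun i => {s i, c i, t i}, ?_, ?_, ?_, ?_, ?_, ?_⟩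
  · intro i z hz
    simp only [mem_insert, mem_singleton] at hz
    rcases hz with rfl | rfl | rfl
    · exact hsC i
    · exact (hcA' i).1
    · exact htC i
  · intro i
    refine conn_cons G _ (s i) (c i) ?_ (by simp) (Or.inr (hcA' i).2.1)
    refine conn_cons G _ (c i) (t i) ?_ (by simp) (Or.inr (hcA' i).2.2.1.symm)
    exact conn_singleton G _
  · intro i; simp
  · intro i; simp
  · intro i
    rw [disjoint_left]
    intro z hz hzQ
    simp only [mem_insert, mem_singleton] at hz
    rcases hz with rfl | rfl | rfl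
    · exact hsQ i hzQ
    · exact (hcA' i).2.2.2.2 hzQ
    · exact htQ i hzQ
  · intro i l hil
    rw [disjoint_left]
    intro z hz hz'
    simp only [mem_insert, mem_singleton] at hz hz'
    rcases hz with rfl | rfl | rfl
    · rcases hz' with h | h | h
      · exact hil (hs h)
      · exact (hcA' l).2.2.2.1 (h ▸ hsT i)
      · exact hst _ _ h
    · rcases hz' with h | h | h
      · exact (hcA' i).2.2.2.1 (h ▸ hsT l)
      · exact hil (hc h)
      · exact (hcA' i).2.2.2.1 (h ▸ htT l)
    · rcases hz' with h | h | h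
      · exact hst _ _ h.symm
      · exact (hcA' l).2.2.2.1 (h ▸ htT i)
      · exact hil (ht h)

end DL

/-- ROW L1: a small dense graph contains a linked set. -/
theorem dense_linked (G : SimpleGraph V) (H : Finset V) (k α : ℕ) (hk : 1 ≤ k)
    (hα : 16 * k + 16 ≤ α) (hne : H.Nonempty) (hcard : H.card ≤ 2 * α + 4)
    (hdeg : ∀ v ∈ H, α ≤ degIn G H v + 2 * k) :
    ∃ C ⊆ H, 2 * k < C.card ∧ SetLinked G C k := by
  classical
  by_cases hl : SetLinked G H k
  · refine ⟨H, Subset.refl _, ?_, hl⟩
    obtain ⟨v, hv⟩ := hne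
    have h1 := hdeg v hv
    have h2 := DL.degIn_le_card G H v
    omega
  · obtain ⟨C, hCH, ⟨v, hv⟩, hC2, hCdeg⟩ := DL.not_linked G H k α hα hcard hdeg hl
    refine ⟨C, hCH, ?_, DL.small_linked G C k α hα hC2 hCdeg⟩
    have h1 := hCdeg v hv
    have h2 := DL.degIn_le_card G C v
    omega

end Vale.Agent.P060
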