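import Mathlib
import Vale.Agent.P060.Defs

/-!
# P060: good hubs (definition shared by rows LH, S, A)
-/

namespace Vale.Agent.P060

open Finset

variable {V : Type} [Fintype V] [DecidableEq V]

/-- Good hub: `Y ⊆ R ∪ X`. -/
def Good (G : SimpleGraph V) (R : Finset V) (u : ℕ) (Y : Finset V) : Prop :=
  (∀ v ∈ R, 10 ^ 8 * u ≤ degIn G (R ∩ Y) v) ∧
  ∀ A B : Finset V, Sep G Y A B → (A ∩ B).card < 4 * u → R ∩ (A \ B) = ∅ ∨ R ∩ (B \ A) = ∅

end Vale.Agent.P060
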