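import Vale.Agent.P060.LinkDefs

/-!
P060, row L: LinkB (owner helper47).
-/

namespace Vale.Agent.P060

open Finset

set_option linter.unusedSectionVars false

variable {V : Type} [Fintype V] [DecidableEq V]

namespace LinkB

theorem conn_mono_on {G G' : SimpleGraph V} {L : Finset V} (h : Conn G L)
    (hG : ∀ a ∈ L, ∀ b ∈ L, G.Adj a b → G'.Adj a b) : Conn G' L := by
  unfold Conn at *
  refine h.mono ?_
  intro a b hab
  exact hG a.1 a.2 b.1 b.2 hab

theorem conn_union_mem {G : SimpleGraph V} {S T : Finset V} (hS : Conn G S) (hT : Conn G T)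
    {v : V} (hv : v ∈ S) (hv' : v ∈ T) : Conn G (S ∪ T) := by
  unfold Conn at *
  rw [Finset.coe_union]
  exact SimpleGraph.induce_union_connected hS.preconnected hT.preconnected ⟨v, hv, hv'⟩

theorem conn_union_adj {G : SimpleGraph V} {S T : Finset V} (hS : Conn G S) (hT : Conn G T)
    {u v : V} (hu : u ∈ S) (hv : v ∈ T) (huv : G.Adj u v) : Conn G (S ∪ T) := by
  unfold Conn at *
  rw [Finset.coe_union]
  exact SimpleGraph.connected_induce_union hS.preconnected hT.preconnected hu hv huv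

theorem conn_single (G : SimpleGraph V) (v : V) : Conn G {v} := by
  unfold Conn
  have : Subsingleton ((({v} : Finset V) : Set V)) := by
    rw [Finset.coe_singleton]
    infer_instance
  have : Nonempty ((({v} : Finset V) : Set V)) := ⟨⟨v, by simp⟩⟩
  exact SimpleGraph.Connected.mk (SimpleGraph.Preconnected.of_subsingleton)

/-- the component of `s` in `G[L]` -/
noncomputable def cmp (G : SimpleGraph V) (L : Finset V) (s : V) : Finset V := by
  classical
  exact L.filter (fun v => ∃ T ⊆ L, Conn G T ∧ s ∈ T ∧ v ∈ T)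

theorem mem_cmp {G : SimpleGraph V} {L : Finset V} {s v : V} :
    v ∈ cmp G L s ↔ v ∈ L ∧ ∃ T ⊆ L, Conn G T ∧ s ∈ T ∧ v ∈ T := by
  classical
  unfold cmp
  rw [Finset.mem_filter]

theorem cmp_sub {G : SimpleGraph V} {L : Finset V} {s : V} : cmp G L s ⊆ L :=
  fun _ hv => (mem_cmp.1 hv).1

theorem self_mem_cmp {G : SimpleGraph V} {L : Finset V} {s : V} (hs : s ∈ L) : s ∈ cmp G L s :=
  mem_cmp.2 ⟨hs, {s}, by simpa using hs, conn_single G s, by simp, by simp⟩

theorem cmp_conn {G : SimpleGraph V} {L : Finset V} {s : V} (hs : s ∈ L) :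
    Conn G (cmp G L s) := by
  unfold Conn
  refine SimpleGraph.induce_connected_of_patches s (self_mem_cmp hs) ?_
  intro v hv
  obtain ⟨hvL, T, hTL, hT, hsT, hvT⟩ := mem_cmp.1 (Finset.mem_coe.1 hv)
  refine ⟨(T : Set V), ?_, hsT, hvT, hT.preconnected _ _⟩
  intro w hw
  exact mem_cmp.2 ⟨hTL hw, T, hTL, hT, hsT, hw⟩

theorem cmp_closed {G : SimpleGraph V} {L : Finset V} {s p q : V} (hp : p ∈ cmp G L s)
    (hq : q ∈ L) (hpq : G.Adj p q) : q ∈ cmp G L s := by
  obtain ⟨hpL, T, hTL, hT, hsT, hpT⟩ := mem_cmp.1 hp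
  refine mem_cmp.2 ⟨hq, T ∪ {q}, ?_, conn_union_adj hT (conn_single G q) hpT (by simp) hpq,
    Finset.mem_union_left _ hsT, by simp⟩
  exact Finset.union_subset hTL (by simpa using hq)

theorem cmp_disj {G : SimpleGraph V} {L : Finset V} {s t v : V} (ht : t ∈ L)
    (h1 : v ∈ cmp G L s) (h2 : v ∈ cmp G L t) : t ∈ cmp G L s := by
  obtain ⟨_, T, hTL, hT, hsT, hvT⟩ := mem_cmp.1 h1
  obtain ⟨_, T', hTL', hT', htT', hvT'⟩ := mem_cmp.1 h2
  exact mem_cmp.2 ⟨ht, T ∪ T', Finset.union_subset hTL hTL', conn_union_mem hT hT' hvT hvT',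
    Finset.mem_union_left _ hsT, Finset.mem_union_right _ htT'⟩

/-- a connected set which is not contained in `C` has an edge leaving `C` -/
theorem exists_cross {G : SimpleGraph V} {L C : Finset V} (hL : Conn G L) {s t : V}
    (hs : s ∈ L) (ht : t ∈ L) (hsC : s ∈ C) (htC : t ∉ C) :
    ∃ p ∈ L, p ∈ C ∧ ∃ q ∈ L, q ∉ C ∧ G.Adj p q := by
  by_contra hcon
  push Not at hcon
  have key : ∀ (a b : (L : Set V)), (G.induce (L : Set V)).Walk a b → a.1 ∈ C → b.1 ∈ C := by
    intro a b w
    induction w with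
    | nil => exact fun h => h
    | @cons a b c hab _ ih =>
      intro ha
      apply ih
      by_contra hb
      exact hcon a.1 a.2 ha b.1 b.2 hb hab
  obtain ⟨w⟩ := hL.preconnected ⟨s, hs⟩ ⟨t, ht⟩
  exact htC (key _ _ w hsC)

end LinkB

open LinkB

theorem Lkd.mono {G G' : SimpleGraph V} {S S' Z : Finset V} (h : Lkd G S Z) (hS : S ⊆ S')
    (hG : ∀ a ∈ S, ∀ b ∈ S, G.Adj a b → G'.Adj a b) : Lkd G' S' Z := by
  intro ι s t hs ht hst hsZ htZ
  obtain ⟨L, h1, h2, h3, h4⟩ := h ι s t hs ht hst hsZ htZ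
  refine ⟨L, fun i => (h1 i).trans hS, fun i => ?_, h3, h4⟩
  exact conn_mono_on (h2 i) (fun a ha b hb => hG a (h1 i ha) b (h1 i hb))

/-- Replace the clique edges on `A ∩ B` by a linkage in `B`. For a pair with its connected set `L`
in `G2[A]`: if the `G`-component of `s` in `L` contains `t`, take it; otherwise the `G`-components
of `s` and `t` in `L` contain vertices `a ≠ b` of `A ∩ B`; link all these pairs in `B`. -/
theorem Lkd.rep {G G2 : SimpleGraph V} {A B Z : Finset V} (hZ : Z ⊆ A)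
    (hG : ∀ a ∈ A, ∀ b ∈ A, G2.Adj a b → G.Adj a b ∨ (a ∈ A ∩ B ∧ b ∈ A ∩ B))
    (hA : Lkd G2 A Z) (hB : Lkd G B (A ∩ B)) : Lkd G (A ∪ B) Z := by
  classical
  intro ι s t hs ht hst hsZ htZ
  obtain ⟨L, hLA, hLc, hLZ, hLd⟩ := hA ι s t hs ht hst hsZ htZ
  have hsL : ∀ i, s i ∈ L i := fun i => by
    have : s i ∈ L i ∩ Z := by rw [hLZ i]; simp
    exact (Finset.mem_inter.1 this).1
  have htL : ∀ i, t i ∈ L i := fun i => by
    have : t i ∈ L i ∩ Z := by rw [hLZ i]; simp
    exact (Finset.mem_inter.1 this).1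
  -- bad pairs
  have exA : ∀ i, t i ∉ cmp G (L i) (s i) → ∃ a ∈ cmp G (L i) (s i), a ∈ A ∩ B := by
    intro i hi
    obtain ⟨p, hpL, hpC, q, hqL, hqC, hpq⟩ := exists_cross (hLc i) (hsL i) (htL i)
      (self_mem_cmp (hsL i)) hi
    rcases hG p (hLA i hpL) q (hLA i hqL) hpq with h | h
    · exact absurd (cmp_closed hpC hqL h) hqC
    · exact ⟨p, hpC, h.1⟩
  have exB : ∀ i, t i ∉ cmp G (L i) (s i) → ∃ b ∈ cmp G (L i) (t i), b ∈ A ∩ B := by
    intro i hi
    have hi' : s i ∉ cmp G (L i) (t i) := fun h => hi (cmp_disj (htL i) (self_mem_cmp (hsL i)) h)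
    obtain ⟨p, hpL, hpC, q, hqL, hqC, hpq⟩ := exists_cross (hLc i) (htL i) (hsL i)
      (self_mem_cmp (htL i)) hi'
    rcases hG p (hLA i hpL) q (hLA i hqL) hpq with h | h
    · exact absurd (cmp_closed hpC hqL h) hqC
    · exact ⟨p, hpC, h.1⟩
  choose a ha haK using exA
  choose b hb hbK using exB
  obtain ⟨M, hMB, hMc, hMK, hMd⟩ := hB {i : ι // t i ∉ cmp G (L i) (s i)}
    (fun i => a i.1 i.2) (fun i => b i.1 i.2)
    (by
      intro i j hij
      by_contra hne
      have hne' : i.1 ≠ j.1 := fun h => hne (Subtype.ext h)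
      have h1 : a i.1 i.2 ∈ L i.1 := cmp_sub (ha i.1 i.2)
      have h2 : a i.1 i.2 ∈ L j.1 := by
        have : a i.1 i.2 = a j.1 j.2 := hij
        rw [this]
        exact cmp_sub (ha j.1 j.2)
      exact Finset.disjoint_left.1 (hLd _ _ hne') h1 h2)
    (by
      intro i j hij
      by_contra hne
      have hne' : i.1 ≠ j.1 := fun h => hne (Subtype.ext h)
      have h1 : b i.1 i.2 ∈ L i.1 := cmp_sub (hb i.1 i.2)
      have h2 : b i.1 i.2 ∈ L j.1 := by
        have : b i.1 i.2 = b j.1 j.2 := hij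
        rw [this]
        exact cmp_sub (hb j.1 j.2)
      exact Finset.disjoint_left.1 (hLd _ _ hne') h1 h2)
    (by
      intro i j hij
      have hij' : a i.1 i.2 = b j.1 j.2 := hij
      by_cases hne : i.1 = j.1
      · have hij2 : i = j := Subtype.ext hne
        subst hij2
        have h1 := ha i.1 i.2
        rw [hij'] at h1
        exact i.2 (cmp_disj (htL i.1) h1 (hb i.1 i.2))
      · have h1 : a i.1 i.2 ∈ L i.1 := cmp_sub (ha i.1 i.2)
        have h2 : a i.1 i.2 ∈ L j.1 := by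
          rw [hij']
          exact cmp_sub (hb j.1 j.2)
        exact Finset.disjoint_left.1 (hLd _ _ hne) h1 h2)
    (fun i => haK i.1 i.2) (fun i => hbK i.1 i.2)
  -- `M i` meets `A` only in `L i`
  have hMA : ∀ (i : {i : ι // t i ∉ cmp G (L i) (s i)}) (v : V), v ∈ M i → v ∈ A → v ∈ L i.1 := by
    intro i v hv hvA
    have h1 : v ∈ M i ∩ (A ∩ B) := Finset.mem_inter.2 ⟨hv, Finset.mem_inter.2 ⟨hvA, hMB i hv⟩⟩
    rw [hMK i, Finset.mem_insert, Finset.mem_singleton] at h1
    rcases h1 with h1 | h1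
    · rw [h1]; exact cmp_sub (ha i.1 i.2)
    · rw [h1]; exact cmp_sub (hb i.1 i.2)
  have haM : ∀ i : {i : ι // t i ∉ cmp G (L i) (s i)}, a i.1 i.2 ∈ M i := fun i => by
    have : a i.1 i.2 ∈ M i ∩ (A ∩ B) := by rw [hMK i]; simp
    exact (Finset.mem_inter.1 this).1
  have hbM : ∀ i : {i : ι // t i ∉ cmp G (L i) (s i)}, b i.1 i.2 ∈ M i := fun i => by
    have : b i.1 i.2 ∈ M i ∩ (A ∩ B) := by rw [hMK i]; simp
    exact (Finset.mem_inter.1 this).1
  let F : ι → Finset V := fun i =>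
    if h : t i ∉ cmp G (L i) (s i) then cmp G (L i) (s i) ∪ M ⟨i, h⟩ ∪ cmp G (L i) (t i)
    else cmp G (L i) (s i)
  have F1 : ∀ i (h : t i ∉ cmp G (L i) (s i)),
      F i = cmp G (L i) (s i) ∪ M ⟨i, h⟩ ∪ cmp G (L i) (t i) := fun i h => dif_pos h
  have F2 : ∀ i (_ : ¬ t i ∉ cmp G (L i) (s i)), F i = cmp G (L i) (s i) := fun i h => dif_neg h
  -- description of the elements of `F i`
  have Fmem : ∀ i v, v ∈ F i → v ∈ L i ∨ ∃ h : t i ∉ cmp G (L i) (s i), v ∈ M ⟨i, h⟩ := by
    intro i v hv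
    by_cases h : t i ∉ cmp G (L i) (s i)
    · rw [F1 i h, Finset.mem_union, Finset.mem_union] at hv
      rcases hv with (hv | hv) | hv
      · exact Or.inl (cmp_sub hv)
      · exact Or.inr ⟨h, hv⟩
      · exact Or.inl (cmp_sub hv)
    · rw [F2 i h] at hv
      exact Or.inl (cmp_sub hv)
  have FA : ∀ i v, v ∈ F i → v ∈ A → v ∈ L i := by
    intro i v hv hvA
    rcases Fmem i v hv with h | ⟨h, h'⟩
    · exact h
    · exact hMA ⟨i, h⟩ v h' hvA
  refine ⟨F, ?_, ?_, ?_, ?_⟩
  · intro i v hv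
    rcases Fmem i v hv with h | ⟨h, h'⟩
    · exact Finset.mem_union_left _ (hLA i h)
    · exact Finset.mem_union_right _ (hMB _ h')
  · intro i
    by_cases h : t i ∉ cmp G (L i) (s i)
    · rw [F1 i h]
      refine conn_union_mem (conn_union_mem (cmp_conn (hsL i)) (hMc ⟨i, h⟩) (ha i h) (haM ⟨i, h⟩))
        (cmp_conn (htL i)) (Finset.mem_union_right _ (hbM ⟨i, h⟩)) (hb i h)
    · rw [F2 i h]
      exact cmp_conn (hsL i)
  · intro i
    apply Finset.Subset.antisymm
    · intro v hv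
      obtain ⟨hvF, hvZ⟩ := Finset.mem_inter.1 hv
      rw [← hLZ i]
      exact Finset.mem_inter.2 ⟨FA i v hvF (hZ hvZ), hvZ⟩
    · have e1 : s i ∈ F i := by
        by_cases h : t i ∉ cmp G (L i) (s i)
        · rw [F1 i h]
          exact Finset.mem_union_left _ (Finset.mem_union_left _ (self_mem_cmp (hsL i)))
        · rw [F2 i h]
          exact self_mem_cmp (hsL i)
      have e2 : t i ∈ F i := by
        by_cases h : t i ∉ cmp G (L i) (s i)
        · rw [F1 i h]
          exact Finset.mem_union_right _ (self_mem_cmp (htL i))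
        · rw [F2 i h]
          exact not_not.1 h
      intro v hv
      rw [Finset.mem_insert, Finset.mem_singleton] at hv
      rcases hv with rfl | rfl
      · exact Finset.mem_inter.2 ⟨e1, hsZ i⟩
      · exact Finset.mem_inter.2 ⟨e2, htZ i⟩
  · intro i j hij
    rw [Finset.disjoint_left]
    intro v hvi hvj
    rcases Fmem i v hvi with h | ⟨h, h'⟩
    · exact Finset.disjoint_left.1 (hLd i j hij) h (FA j v hvj (hLA i h))
    · rcases Fmem j v hvj with g | ⟨g, g'⟩
      · exact Finset.disjoint_left.1 (hLd i j hij) (hMA ⟨i, h⟩ v h' (hLA j g)) g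
      · exact Finset.disjoint_left.1 (hMd ⟨i, h⟩ ⟨j, g⟩ (fun e => hij (congrArg Subtype.val e))) h' g'

/-- Link through disjoint paths from `Z` to `A ∩ B` inside `A`. -/
theorem Lkd.paths {G : SimpleGraph V} {A B Z : Finset V} (hZ : Z ⊆ A)
    (P : Fin Z.card → Finset V) (hPA : ∀ i, P i ⊆ A) (hPc : ∀ i, Conn G (P i))
    (hPd : ∀ i j, i ≠ j → Disjoint (P i) (P j)) (hPZ : ∀ i, (P i ∩ Z).card = 1)
    (hPK : ∀ i, (P i ∩ (A ∩ B)).card = 1)
    (hB : Lkd G B (A ∩ B)) : Lkd G (A ∪ B) Z := by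
  classical
  intro ι s t hs ht hst hsZ htZ
  have hz' : ∀ i, ∃ z, P i ∩ Z = {z} := fun i => Finset.card_eq_one.1 (hPZ i)
  have hk' : ∀ i, ∃ z, P i ∩ (A ∩ B) = {z} := fun i => Finset.card_eq_one.1 (hPK i)
  choose z hz using hz'
  choose k hk using hk'
  have zP : ∀ i, z i ∈ P i ∧ z i ∈ Z := fun i => by
    have : z i ∈ P i ∩ Z := by rw [hz i]; simp
    exact Finset.mem_inter.1 this
  have kP : ∀ i, k i ∈ P i ∧ k i ∈ A ∩ B := fun i => by
    have : k i ∈ P i ∩ (A ∩ B) := by rw [hk i]; simp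
    exact Finset.mem_inter.1 this
  have Pinj : ∀ {i j v}, v ∈ P i → v ∈ P j → i = j := by
    intro i j v h1 h2
    by_contra hne
    exact Finset.disjoint_left.1 (hPd i j hne) h1 h2
  have zinj : Function.Injective z := by
    intro i j hij
    have h1 := (zP i).1
    rw [hij] at h1
    exact Pinj h1 (zP j).1
  have zsurj : ∀ v ∈ Z, ∃ i, z i = v := by
    have h1 : univ.image z = Z := by
      apply Finset.eq_of_subset_of_card_le
      · intro v hv
        obtain ⟨i, _, rfl⟩ := Finset.mem_image.1 hv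
        exact (zP i).2
      · rw [Finset.card_image_of_injective _ zinj, Finset.card_univ, Fintype.card_fin]
    intro v hv
    rw [← h1] at hv
    obtain ⟨i, _, hi⟩ := Finset.mem_image.1 hv
    exact ⟨i, hi⟩
  choose p hp using fun i => zsurj (s i) (hsZ i)
  choose q hq using fun i => zsurj (t i) (htZ i)
  have pinj : Function.Injective p := by
    intro i j hij
    apply hs
    rw [← hp i, ← hp j, hij]
  have qinj : Function.Injective q := by
    intro i j hij
    apply ht
    rw [← hq i, ← hq j, hij]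
  have pq : ∀ i j, p i ≠ q j := by
    intro i j hij
    apply hst i j
    rw [← hp i, ← hq j, hij]
  have kinj : Function.Injective k := by
    intro i j hij
    have h1 := (kP i).1
    rw [hij] at h1
    exact Pinj h1 (kP j).1
  obtain ⟨M, hMB, hMc, hMK, hMd⟩ := hB ι (fun i => k (p i)) (fun i => k (q i))
    (kinj.comp pinj) (kinj.comp qinj) (fun i j h => pq i j (kinj h))
    (fun i => (kP _).2) (fun i => (kP _).2)
  have hMA : ∀ i v, v ∈ M i → v ∈ A → v = k (p i) ∨ v = k (q i) := by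
    intro i v hv hvA
    have h1 : v ∈ M i ∩ (A ∩ B) := Finset.mem_inter.2 ⟨hv, Finset.mem_inter.2 ⟨hvA, hMB i hv⟩⟩
    rw [hMK i, Finset.mem_insert, Finset.mem_singleton] at h1
    exact h1
  have kM1 : ∀ i, k (p i) ∈ M i := fun i => by
    have : k (p i) ∈ M i ∩ (A ∩ B) := by rw [hMK i]; simp
    exact (Finset.mem_inter.1 this).1
  have kM2 : ∀ i, k (q i) ∈ M i := fun i => by
    have : k (q i) ∈ M i ∩ (A ∩ B) := by rw [hMK i]; simp
    exact (Finset.mem_inter.1 this).1
  -- the part of `F i` in `A`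
  have FA : ∀ i v, v ∈ P (p i) ∪ M i ∪ P (q i) → v ∈ A → v ∈ P (p i) ∨ v ∈ P (q i) := by
    intro i v hv hvA
    rw [Finset.mem_union, Finset.mem_union] at hv
    rcases hv with (hv | hv) | hv
    · exact Or.inl hv
    · rcases hMA i v hv hvA with rfl | rfl
      · exact Or.inl (kP _).1
      · exact Or.inr (kP _).1
    · exact Or.inr hv
  have disjA : ∀ i j, i ≠ j → ∀ v, (v ∈ P (p i) ∨ v ∈ P (q i)) → (v ∈ P (p j) ∨ v ∈ P (q j)) →
      False := by
    intro i j hij v h1 h2
    rcases h1 with h1 | h1 <;> rcases h2 with h2 | h2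
    · exact hij (pinj (Pinj h1 h2))
    · exact pq _ _ (Pinj h1 h2)
    · exact pq _ _ (Pinj h2 h1)
    · exact hij (qinj (Pinj h1 h2))
  refine ⟨fun i => P (p i) ∪ M i ∪ P (q i), ?_, ?_, ?_, ?_⟩
  · intro i v hv
    rw [Finset.mem_union, Finset.mem_union] at hv
    rcases hv with (hv | hv) | hv
    · exact Finset.mem_union_left _ (hPA _ hv)
    · exact Finset.mem_union_right _ (hMB _ hv)
    · exact Finset.mem_union_left _ (hPA _ hv)
  · intro i
    exact conn_union_mem (conn_union_mem (hPc _) (hMc i) (kP (p i)).1 (kM1 i)) (hPc _)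
      (Finset.mem_union_right _ (kM2 i)) (kP (q i)).1
  · intro i
    apply Finset.Subset.antisymm
    · intro v hv
      obtain ⟨hvF, hvZ⟩ := Finset.mem_inter.1 hv
      rw [Finset.mem_insert, Finset.mem_singleton]
      rcases FA i v hvF (hZ hvZ) with h | h
      · left
        have h1 : v ∈ P (p i) ∩ Z := Finset.mem_inter.2 ⟨h, hvZ⟩
        rw [hz, Finset.mem_singleton] at h1
        rw [h1, hp]
      · right
        have h1 : v ∈ P (q i) ∩ Z := Finset.mem_inter.2 ⟨h, hvZ⟩
        rw [hz, Finset.mem_singleton] at h1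
        rw [h1, hq]
    · intro v hv
      rw [Finset.mem_insert, Finset.mem_singleton] at hv
      rcases hv with rfl | rfl
      · refine Finset.mem_inter.2 ⟨Finset.mem_union_left _ (Finset.mem_union_left _ ?_), hsZ i⟩
        rw [← hp i]
        exact (zP _).1
      · refine Finset.mem_inter.2 ⟨Finset.mem_union_right _ ?_, htZ i⟩
        rw [← hq i]
        exact (zP _).1
  · intro i j hij
    rw [Finset.disjoint_left]
    intro v hvi hvj
    by_cases hvA : v ∈ A
    · exact disjA i j hij v (FA i v hvi hvA) (FA j v hvj hvA)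
    · have h1 : v ∈ M i := by
        rw [Finset.mem_union, Finset.mem_union] at hvi
        rcases hvi with (h | h) | h
        · exact absurd (hPA _ h) hvA
        · exact h
        · exact absurd (hPA _ h) hvA
      have h2 : v ∈ M j := by
        rw [Finset.mem_union, Finset.mem_union] at hvj
        rcases hvj with (h | h) | h
        · exact absurd (hPA _ h) hvA
        · exact h
        · exact absurd (hPA _ h) hvA
      exact Finset.disjoint_left.1 (hMd i j hij) h1 h2

end Vale.Agent.P060
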