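import Vale.Agent.P060.LinkDefs

/-!
P060, row L: LinkRho (counting).
-/

namespace Vale.Agent.P060

open Finset

set_option linter.unusedSectionVars false

variable {V : Type} [Fintype V] [DecidableEq V]

theorem rho_split {G : SimpleGraph V} {S A B Z : Finset V} (h : A ∪ B = S) (hZ : Z ⊆ A) :
    rho G S (S \ Z) ≤ rho G S (B \ A) + rho G A (A \ Z) := by
  classical
  unfold rho
  refine (card_le_card ?_).trans (card_union_le _ _)
  intro e he
  simp only [mem_filter, mem_product, mem_union, mem_sdiff] at he ⊢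
  obtain ⟨⟨h1, h2⟩, h3, h4⟩ := he
  by_cases hA1 : e.1 ∈ A
  · by_cases hA2 : e.2 ∈ A
    · right
      refine ⟨⟨hA1, hA2⟩, h3, ?_⟩
      rcases h4 with h4 | h4
      · exact Or.inl ⟨hA1, h4.2⟩
      · exact Or.inr ⟨hA2, h4.2⟩
    · left
      have hB : e.2 ∈ B := by
        rw [← h] at h2
        exact (mem_union.1 h2).resolve_left hA2
      exact ⟨⟨h1, h2⟩, h3, Or.inr ⟨hB, hA2⟩⟩
  · left
    have hB : e.1 ∈ B := by
      rw [← h] at h1
      exact (mem_union.1 h1).resolve_left hA1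
    exact ⟨⟨h1, h2⟩, h3, Or.inl ⟨hB, hA1⟩⟩

theorem rho_del {G : SimpleGraph V} {S U : Finset V} {x y : V} :
    rho G S U ≤ rho (delE G x y) S U + 2 := by
  classical
  unfold rho
  have h2 : ({(x, y), (y, x)} : Finset (V × V)).card ≤ 2 := card_le_two
  refine (card_le_card (t := (filter (fun e => (delE G x y).Adj e.1 e.2 ∧ (e.1 ∈ U ∨ e.2 ∈ U))
    (S ×ˢ S)) ∪ {(x, y), (y, x)}) ?_).trans ((card_union_le _ _).trans (by omega))
  intro e he
  simp only [mem_filter, mem_product, mem_union, mem_insert, mem_singleton] at he ⊢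
  obtain ⟨⟨h1, h2⟩, h3, h4⟩ := he
  by_cases hc : (e.1 = x ∧ e.2 = y) ∨ (e.1 = y ∧ e.2 = x)
  · right
    rcases hc with ⟨hc1, hc2⟩ | ⟨hc1, hc2⟩
    · left; exact Prod.ext hc1 hc2
    · right; exact Prod.ext hc1 hc2
  · left
    exact ⟨⟨h1, h2⟩, ⟨h3, hc⟩, h4⟩

/-- deletion really deletes -/
theorem rho_del_lt {G : SimpleGraph V} {S : Finset V} {x y : V} (hx : x ∈ S) (hy : y ∈ S)
    (h : G.Adj x y) : rho (delE G x y) S S < rho G S S := by
  classical
  unfold rho
  apply card_lt_card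
  rw [ssubset_iff_of_subset]
  · refine ⟨(x, y), ?_, ?_⟩
    · simp only [mem_filter, mem_product]
      exact ⟨⟨hx, hy⟩, h, Or.inl hx⟩
    · simp only [mem_filter, mem_product]
      rintro ⟨_, ⟨_, h2⟩, _⟩
      exact h2 (Or.inl ⟨rfl, rfl⟩)
  · intro e he
    simp only [mem_filter, mem_product] at he ⊢
    exact ⟨he.1, he.2.1.1, he.2.2⟩

/-- Contraction loses at most `comm + |Z| + 1` edges. (A pair `(y,b)`, `b` not adjacent to `x`,
`b ∉ Z`, `b ≠ x`, becomes the new pair `(x,b)`.) -/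
theorem rho_contr {G : SimpleGraph V} {S Z : Finset V} {x y : V} (hx : x ∈ S) (hy : y ∈ S)
    (hyZ : y ∉ Z) (hxy : G.Adj x y) :
    rho G S (S \ Z) ≤ rho (contr G x y) (S.erase y) (S.erase y \ Z) +
      2 * (comm G S x y + Z.card + 1) := by
  classical
  have hne : x ≠ y := hxy.ne
  unfold rho comm
  set F := filter (fun e : V × V => G.Adj e.1 e.2 ∧ (e.1 ∈ S \ Z ∨ e.2 ∈ S \ Z)) (S ×ˢ S) with hF
  set F' := filter (fun e : V × V => (contr G x y).Adj e.1 e.2 ∧
    (e.1 ∈ S.erase y \ Z ∨ e.2 ∈ S.erase y \ Z)) (S.erase y ×ˢ S.erase y) with hF'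
  set F0 := F.filter (fun e => e.1 ≠ y ∧ e.2 ≠ y) with hF0
  set N := S.filter (fun b => G.Adj y b) with hN
  set Nb := N.filter (fun b => b = x ∨ b ∈ Z ∨ G.Adj x b) with hNb
  set Ng := N.filter (fun b => ¬ (b = x ∨ b ∈ Z ∨ G.Adj x b)) with hNg
  have hNcard : N.card = Nb.card + Ng.card := by
    rw [hNb, hNg]; exact (card_filter_add_card_filter_not _).symm
  have hNbcard : Nb.card ≤ (S.filter (fun c => G.Adj x c ∧ G.Adj y c)).card + Z.card + 1 := by
    have : Nb ⊆ (S.filter (fun c => G.Adj x c ∧ G.Adj y c)) ∪ Z ∪ {x} := by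
      intro b hb
      simp only [hNb, hN, mem_filter, mem_union, mem_singleton] at hb ⊢
      obtain ⟨⟨hbS, hyb⟩, h1 | h1 | h1⟩ := hb
      · exact Or.inr h1
      · exact Or.inl (Or.inr h1)
      · exact Or.inl (Or.inl ⟨hbS, h1, hyb⟩)
    refine (card_le_card this).trans ?_
    refine (card_union_le _ _).trans ?_
    have := card_union_le (S.filter (fun c => G.Adj x c ∧ G.Adj y c)) Z
    rw [card_singleton]
    omega
  have hFcard : F.card ≤ F0.card + N.card + N.card := by
    have hsub : F ⊆ F0 ∪ N.image (fun b => (y, b)) ∪ N.image (fun b => (b, y)) := by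
      intro e he
      have he' := he
      rw [hF] at he'
      simp only [mem_filter, mem_product] at he'
      obtain ⟨⟨h1, h2⟩, h3, h4⟩ := he'
      by_cases e1 : e.1 = y
      · apply mem_union_left
        apply mem_union_right
        refine mem_image.2 ⟨e.2, mem_filter.2 ⟨h2, by rw [← e1]; exact h3⟩, ?_⟩
        exact Prod.ext e1.symm rfl
      · by_cases e2 : e.2 = y
        · apply mem_union_right
          refine mem_image.2 ⟨e.1, mem_filter.2 ⟨h1, by rw [← e2]; exact h3.symm⟩, ?_⟩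
          exact Prod.ext rfl e2.symm
        · apply mem_union_left
          apply mem_union_left
          exact mem_filter.2 ⟨he, e1, e2⟩
    refine (card_le_card hsub).trans ?_
    refine (card_union_le _ _).trans ?_
    have h1 := card_union_le F0 (N.image (fun b => (y, b)))
    have h2 : (N.image (fun b => (y, b))).card ≤ N.card := card_image_le
    have h3 : (N.image (fun b => (b, y))).card ≤ N.card := card_image_le
    omega
  have hF'card : F0.card + Ng.card + Ng.card ≤ F'.card := by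
    have hi1 : (Ng.image (fun b => (x, b))).card = Ng.card :=
      card_image_of_injective _ (fun a b h => (Prod.ext_iff.1 h).2)
    have hi2 : (Ng.image (fun b => (b, x))).card = Ng.card :=
      card_image_of_injective _ (fun a b h => (Prod.ext_iff.1 h).1)
    have hd1 : Disjoint F0 (Ng.image (fun b => (x, b))) := by
      rw [disjoint_left]
      intro e he he'
      obtain ⟨b, hb, rfl⟩ := mem_image.1 he'
      have h1 : G.Adj x b := (mem_filter.1 (mem_filter.1 he).1).2.1
      exact (mem_filter.1 hb).2 (Or.inr (Or.inr h1))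
    have hd2 : Disjoint (F0 ∪ Ng.image (fun b => (x, b))) (Ng.image (fun b => (b, x))) := by
      rw [disjoint_left]
      intro e he he'
      obtain ⟨b, hb, rfl⟩ := mem_image.1 he'
      rcases mem_union.1 he with he | he
      · have h1 : G.Adj b x := (mem_filter.1 (mem_filter.1 he).1).2.1
        exact (mem_filter.1 hb).2 (Or.inr (Or.inr h1.symm))
      · obtain ⟨c, hc, hcb⟩ := mem_image.1 he
        have : b = x := (Prod.ext_iff.1 hcb).1.symm
        exact (mem_filter.1 hb).2 (Or.inl this)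
    rw [← hi1, ← card_union_of_disjoint hd1]
    rw [show (Ng.image (fun b => (x, b))).card = (Ng.image (fun b => (b, x))).card by
      rw [hi1, hi2]] at *
    rw [← card_union_of_disjoint hd2]
    apply card_le_card
    have hgood : ∀ b ∈ Ng, b ∈ S ∧ b ≠ y ∧ b ≠ x ∧ b ∉ Z ∧ G.Adj y b := by
      intro b hb
      simp only [hNg, hN, mem_filter, not_or] at hb
      obtain ⟨⟨hbS, hyb⟩, h1, h2, h3⟩ := hb
      exact ⟨hbS, fun h => by rw [h] at hyb; exact G.irrefl hyb, h1, h2, hyb⟩
    intro e he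
    rcases mem_union.1 he with he | he
    · rcases mem_union.1 he with he | he
      · simp only [hF0, hF, mem_filter, mem_product] at he
        obtain ⟨⟨⟨h1, h2⟩, h3, h4⟩, h5, h6⟩ := he
        simp only [hF', mem_filter, mem_product, mem_erase, mem_sdiff]
        refine ⟨⟨⟨h5, h1⟩, ⟨h6, h2⟩⟩, ⟨h3.ne, Or.inl h3⟩, ?_⟩
        rcases h4 with h4 | h4
        · exact Or.inl ⟨⟨h5, h1⟩, (mem_sdiff.1 h4).2⟩
        · exact Or.inr ⟨⟨h6, h2⟩, (mem_sdiff.1 h4).2⟩
      · obtain ⟨b, hb, rfl⟩ := mem_image.1 he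
        obtain ⟨g1, g2, g3, g4, g5⟩ := hgood b hb
        simp only [hF', mem_filter, mem_product, mem_erase, mem_sdiff]
        exact ⟨⟨⟨hne, hx⟩, ⟨g2, g1⟩⟩, ⟨g3.symm, Or.inr (Or.inl ⟨rfl, g5⟩)⟩,
          Or.inr ⟨⟨g2, g1⟩, g4⟩⟩
    · obtain ⟨b, hb, rfl⟩ := mem_image.1 he
      obtain ⟨g1, g2, g3, g4, g5⟩ := hgood b hb
      simp only [hF', mem_filter, mem_product, mem_erase, mem_sdiff]
      exact ⟨⟨⟨g2, g1⟩, ⟨hne, hx⟩⟩, ⟨g3, Or.inr (Or.inr ⟨rfl, g5⟩)⟩,
        Or.inl ⟨⟨g2, g1⟩, g4⟩⟩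
  omega

/-- If `x, y ∉ U`, contraction does not increase `rho`. -/
theorem rho_contr_le {G : SimpleGraph V} {S U : Finset V} {x y : V} (hx : x ∈ S) (hy : y ∈ S)
    (hxy : G.Adj x y) (hxU : x ∉ U) (hyU : y ∉ U) :
    rho (contr G x y) (S.erase y) U ≤ rho G S U := by
  classical
  unfold rho
  apply card_le_card_of_injOn
    (fun e : V × V => if G.Adj e.1 e.2 then e else if e.1 = x then (y, e.2) else (e.1, y))
  · intro e he
    simp only [coe_filter, mem_product, mem_erase, Set.mem_setOf_eq] at he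
    obtain ⟨⟨⟨h1, h2⟩, h3, h4⟩, ⟨h5, h6⟩, h7⟩ := he
    simp only [coe_filter, mem_product, Set.mem_setOf_eq]
    split_ifs with c1 c2
    · exact ⟨⟨h2, h4⟩, c1, h7⟩
    · refine ⟨⟨hy, h4⟩, ?_, ?_⟩
      · rcases h6 with h6 | h6 | h6
        · exact absurd h6 c1
        · exact h6.2
        · exact absurd (c2.trans h6.1.symm) h5
      · rcases h7 with h7 | h7
        · exact absurd (c2 ▸ h7) hxU
        · exact Or.inr h7
    · rcases h6 with h6 | h6 | h6
      · exact absurd h6 c1
      · exact absurd h6.1 c2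
      · refine ⟨⟨h2, hy⟩, h6.2.symm, ?_⟩
        rcases h7 with h7 | h7
        · exact Or.inl h7
        · exact absurd (h6.1 ▸ h7) hxU
  · intro e he f hf hef
    simp only [coe_filter, mem_product, mem_erase, Set.mem_setOf_eq] at he hf
    obtain ⟨⟨⟨h1, h2⟩, h3, h4⟩, ⟨h5, h6⟩, h7⟩ := he
    obtain ⟨⟨⟨k1, k2⟩, k3, k4⟩, ⟨k5, k6⟩, k7⟩ := hf
    dsimp only at hef
    split_ifs at hef with c1 c2 c3 c4 c5 c6 c7 c8
    · exact hef
    · exact absurd (Prod.ext_iff.1 hef).1 h1
    · exact absurd (Prod.ext_iff.1 hef).2 h3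
    · exact absurd (Prod.ext_iff.1 hef).1.symm k1
    · exact Prod.ext (c4.trans c6.symm) (Prod.ext_iff.1 hef).2
    · exact absurd (Prod.ext_iff.1 hef).1.symm k1
    · exact absurd (Prod.ext_iff.1 hef).2.symm k3
    · exact absurd (Prod.ext_iff.1 hef).1 h1
    · refine Prod.ext (Prod.ext_iff.1 hef).1 ?_
      have e2 : e.2 = x := by
        rcases h6 with h6 | h6 | h6
        · exact absurd h6 ‹_›
        · exact absurd h6.1 ‹_›
        · exact h6.1
      have f2 : f.2 = x := by
        rcases k6 with k6 | k6 | k6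
        · exact absurd k6 ‹_›
        · exact absurd k6.1 ‹_›
        · exact k6.1
      rw [e2, f2]

end Vale.Agent.P060
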