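import Vale.Agent.P060.LinkA
import Vale.Agent.P060.LinkB
import Vale.Agent.P060.LinkRho

/-!
P060, row L: LinkClaim3.
-/

namespace Vale.Agent.P060

open Finset

set_option linter.unusedSectionVars false

variable {V : Type} [Fintype V] [DecidableEq V]

/-- CLAIM 3. Otherwise delete an edge with an end outside `Z`. -/
theorem claim3 {G : SimpleGraph V} {S Z : Finset V} {k α : ℕ} (hk : 1 ≤ k)
    (hα : 16 * k + 16 ≤ α) (hZ : Z.card ≤ 2 * k) (hm : Massed G S Z α) (hn : ¬ Lkd G S Z)
    (hc : ∀ x ∈ S, ∀ y ∈ S, y ∉ Z → G.Adj x y → α ≤ comm G S x y + 2 * k)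
    (IH2 : ∀ G' : SimpleGraph V, rho G' S S < rho G S S → Massed G' S Z α → Lkd G' S Z) :
    rho G S (S \ Z) ≤ 2 * α * (S \ Z).card + 2 := by
  classical
  by_contra hcon
  push Not at hcon
  have hex : ∃ x ∈ S, ∃ y ∈ S, y ∉ Z ∧ G.Adj x y := by
    have hpos : 0 < rho G S (S \ Z) := lt_of_le_of_lt (Nat.zero_le _) hcon
    unfold rho at hpos
    obtain ⟨e, he⟩ := card_pos.1 hpos
    simp only [mem_filter, mem_product, mem_sdiff] at he
    obtain ⟨⟨h1, h2⟩, h3, h4⟩ := he
    rcases h4 with h4 | h4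
    · exact ⟨e.2, h2, e.1, h1, h4.2, h3.symm⟩
    · exact ⟨e.1, h1, e.2, h2, h4.2, h3⟩
  obtain ⟨x, hx, y, hy, hyZ, hxy⟩ := hex
  have hmG : Massed (delE G x y) S Z α := by
    refine ⟨hm.1, ?_, ?_⟩
    · have := rho_del (G := G) (S := S) (U := S \ Z) (x := x) (y := y)
      omega
    · intro A B hs hZA ho
      by_cases hsG : NoEdge G (A \ B) (B \ A)
      · refine le_trans (rho_mono ?_ (Finset.Subset.refl _) (Finset.Subset.refl _))
          (hm.2.2 A B ⟨hs.1, hsG⟩ hZA ho)
        intro a _ b _ _ h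
        exact h.1
      · exfalso
        unfold NoEdge at hsG
        push Not at hsG
        obtain ⟨a, ha, b, hb, hab⟩ := hsG
        have hab' : (a = x ∧ b = y) ∨ (a = y ∧ b = x) := by
          by_contra h
          exact hs.2 a ha b hb ⟨hab, h⟩
        have hle : comm G S x y ≤ (A ∩ B).card := by
          unfold comm
          apply card_le_card
          intro c hcc
          simp only [mem_filter] at hcc
          obtain ⟨hcS, hxc, hyc⟩ := hcc
          have hcx : c ≠ x := fun h => G.irrefl (h ▸ hxc)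
          have hcy : c ≠ y := fun h => G.irrefl (h ▸ hyc)
          have hac : G.Adj a c := by
            rcases hab' with ⟨h, _⟩ | ⟨h, _⟩
            · rw [h]; exact hxc
            · rw [h]; exact hyc
          have hbc : G.Adj b c := by
            rcases hab' with ⟨_, h⟩ | ⟨_, h⟩
            · rw [h]; exact hyc
            · rw [h]; exact hxc
          have hcAB : c ∈ A ∪ B := by rw [hs.1]; exact hcS
          rw [mem_inter]
          by_contra hcn
          rcases mem_union.1 hcAB with hcA | hcB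
          · have hcB : c ∉ B := fun h => hcn ⟨hcA, h⟩
            refine hs.2 c (mem_sdiff.2 ⟨hcA, hcB⟩) b hb ⟨hbc.symm, ?_⟩
            rintro (⟨h, _⟩ | ⟨h, _⟩)
            · exact hcx h
            · exact hcy h
          · have hcA : c ∉ A := fun h => hcn ⟨h, hcB⟩
            refine hs.2 a ha c (mem_sdiff.2 ⟨hcB, hcA⟩) ⟨hac, ?_⟩
            rintro (⟨_, h⟩ | ⟨_, h⟩)
            · exact hcy h
            · exact hcx h
        have h1 := hc x hx y hy hyZ hxy
        omega
  have hl := IH2 (delE G x y) (rho_del_lt hx hy hxy) hmG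
  exact hn (hl.mono (Finset.Subset.refl _) (fun _ _ _ _ h => h.1))

/-- an isolated vertex outside `Z` can be deleted -/
theorem massed_erase {G : SimpleGraph V} {S Z : Finset V} {α : ℕ} (hm : Massed G S Z α) {v : V}
    (hv : v ∈ S) (hvZ : v ∉ Z) (h0 : ∀ w ∈ S, ¬ G.Adj v w) : Massed G (S.erase v) Z α := by
  classical
  refine ⟨fun z hz => mem_erase.2 ⟨fun h => hvZ (h ▸ hz), hm.1 hz⟩, ?_, ?_⟩
  · have h1 : (S.erase v \ Z).card ≤ (S \ Z).card :=
      card_le_card (sdiff_subset_sdiff (erase_subset _ _) (Finset.Subset.refl _))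
    have h2 : rho G S (S \ Z) ≤ rho G (S.erase v) (S.erase v \ Z) := by
      unfold rho
      apply card_le_card
      intro e he
      simp only [mem_filter, mem_product, mem_sdiff, mem_erase] at he ⊢
      obtain ⟨⟨h1, h2⟩, h3, h4⟩ := he
      have n1 : e.1 ≠ v := fun h => h0 e.2 h2 (h ▸ h3)
      have n2 : e.2 ≠ v := fun h => h0 e.1 h1 (h ▸ h3.symm)
      refine ⟨⟨⟨n1, h1⟩, ⟨n2, h2⟩⟩, h3, ?_⟩
      rcases h4 with h4 | h4
      · exact Or.inl ⟨⟨n1, h1⟩, h4.2⟩
      · exact Or.inr ⟨⟨n2, h2⟩, h4.2⟩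
    have h3 := hm.2.1
    have h4 : 2 * α * (S.erase v \ Z).card ≤ 2 * α * (S \ Z).card := Nat.mul_le_mul_left _ h1
    omega
  · intro A B hs hZA ho
    have hBe : B ⊆ S.erase v := by rw [← hs.1]; exact subset_union_right
    have hvB : v ∉ B := fun h => (mem_erase.1 (hBe h)).1 rfl
    have hsep : Sep G S (insert v A) B := by
      refine ⟨?_, ?_⟩
      · rw [insert_union, hs.1, insert_erase hv]
      · intro a ha b hb
        obtain ⟨hb1, hb2⟩ := mem_sdiff.1 hb
        obtain ⟨ha1, ha2⟩ := mem_sdiff.1 ha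
        rcases mem_insert.1 ha1 with rfl | ha1
        · exact h0 b (mem_erase.1 (hBe hb1)).2
        · exact hs.2 a (mem_sdiff.2 ⟨ha1, ha2⟩) b
            (mem_sdiff.2 ⟨hb1, fun h => hb2 (mem_insert_of_mem h)⟩)
    have hi : insert v A ∩ B = A ∩ B := by
      rw [insert_inter_of_notMem hvB]
    have hd : B \ insert v A = B \ A := by
      ext b
      simp only [mem_sdiff, mem_insert, not_or]
      constructor
      · rintro ⟨h1, _, h2⟩
        exact ⟨h1, h2⟩
      · rintro ⟨h1, h2⟩
        exact ⟨h1, fun h => hvB (h ▸ h1), h2⟩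
    have h1 := hm.2.2 (insert v A) B hsep (hZA.trans (subset_insert _ _)) (by rw [hi]; exact ho)
    rw [hd] at h1
    exact le_trans (rho_mono (fun _ _ _ _ _ h => h) (erase_subset _ _) (Finset.Subset.refl _)) h1

theorem le_rho_aux (G : SimpleGraph V) {S U : Finset V} (hU : U ⊆ S) (d : ℕ)
    (h : ∀ v ∈ U, d ≤ degIn G S v) : U.card * d ≤ rho G S U := by
  classical
  have h1 : (U.sigma (fun v => S.filter (fun w => G.Adj v w))).card ≤ rho G S U := by
    unfold rho
    apply Finset.card_le_card_of_injOn (fun e => (e.1, e.2))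
    · rintro ⟨a, b⟩ hab
      have hab' := Finset.mem_sigma.1 (Finset.mem_coe.1 hab)
      have h2 := Finset.mem_filter.1 hab'.2
      refine Finset.mem_coe.2 (Finset.mem_filter.2 ⟨Finset.mem_product.2 ⟨hU hab'.1, h2.1⟩,
        h2.2, Or.inl hab'.1⟩)
    · rintro ⟨a, b⟩ _ ⟨c, d⟩ _ h
      simp only [Prod.mk.injEq] at h
      obtain ⟨rfl, rfl⟩ := h
      rfl
  have h2 : U.card * d ≤ (U.sigma (fun v => S.filter (fun w => G.Adj v w))).card := by
    rw [Finset.card_sigma, ← smul_eq_mul]
    apply Finset.card_nsmul_le_sum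
    intro v hv
    have h3 := h v hv
    unfold degIn at h3
    exact h3
  exact h2.trans h1

/-- a vertex of small degree -/
theorem exists_small_deg {G : SimpleGraph V} {S Z : Finset V} {α : ℕ} (hZ : Z ⊆ S)
    (h1 : 0 < rho G S (S \ Z)) (h : rho G S (S \ Z) ≤ 2 * α * (S \ Z).card + 2) :
    ∃ v ∈ S \ Z, degIn G S v ≤ 2 * α + 2 := by
  classical
  by_contra hcon
  push Not at hcon
  have h2 := le_rho_aux G (S := S) (U := S \ Z) sdiff_subset (2 * α + 3)
    (fun v hv => hcon v hv)
  have h3 : (S \ Z).card = 0 := by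
    by_contra h4
    have h5 : 1 ≤ (S \ Z).card := Nat.one_le_iff_ne_zero.2 h4
    have h6 : (S \ Z).card * (2 * α + 3) = 2 * α * (S \ Z).card + 3 * (S \ Z).card := by ring
    omega
  have h4 : S \ Z = ∅ := card_eq_zero.1 h3
  have h5 : rho G S (S \ Z) = 0 := by
    unfold rho
    rw [card_eq_zero, filter_eq_empty_iff]
    intro e _ he
    rw [h4] at he
    rcases he.2 with h | h
    · exact absurd h (notMem_empty _)
    · exact absurd h (notMem_empty _)
  omega

end Vale.Agent.P060
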