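import Vale.Agent.P060.LinkClaim2
import Vale.Agent.P060.LinkClaim3
import Vale.Agent.P060.DenseLinked

/-!
P060, row L: the linking theorem for massed graphs.
-/

namespace Vale.Agent.P060

open Finset

variable {V : Type} [Fintype V] [DecidableEq V]

theorem massed_linked {k α : ℕ} (hk : 1 ≤ k) (hα : 16 * k + 16 ≤ α) :
    ∀ n m : ℕ, ∀ (G : SimpleGraph V) (S Z : Finset V), S.card = n → rho G S S = m →
      Massed G S Z α → Z.card ≤ 2 * k → Lkd G S Z := by
  classical
  intro n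
  induction n using Nat.strong_induction_on with
  | _ n IHn =>
  intro m
  induction m using Nat.strong_induction_on with
  | _ m IHm =>
  intro G S Z hS hr hm hZ
  by_contra hn
  have IH : IHs V S.card k α := fun G' S' Z' hc hm' hZ' =>
    IHn S'.card (hS ▸ hc) _ G' S' Z' rfl rfl hm' hZ'
  have IH2 : ∀ G' : SimpleGraph V, rho G' S S < rho G S S → Massed G' S Z α → Lkd G' S Z :=
    fun G' hlt hm' => IHm (rho G' S S) (hr ▸ hlt) G' S Z hS rfl hm' hZ
  have c2 : ∀ x ∈ S, ∀ y ∈ S, y ∉ Z → G.Adj x y → α ≤ comm G S x y + 2 * k :=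
    fun x hx y hy hyZ hxy => claim2 hk hZ hm IH hn hx hy hyZ hxy
  have c3 := claim3 hk hα hZ hm hn c2 IH2
  obtain ⟨v, hv, hdv⟩ := exists_small_deg hm.1 (lt_of_le_of_lt (Nat.zero_le _) hm.2.1) c3
  obtain ⟨hvS, hvZ⟩ := mem_sdiff.1 hv
  by_cases h0 : ∀ w ∈ S, ¬ G.Adj v w
  · have hme := massed_erase hm hvS hvZ h0
    have hc : (S.erase v).card < S.card := card_erase_lt_of_mem hvS
    exact hn ((IH G (S.erase v) Z hc hme hZ).mono (erase_subset _ _) (fun _ _ _ _ h => h))
  push Not at h0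
  obtain ⟨w, hwS, hvw⟩ := h0
  set H : Finset V := insert v (S.filter (fun c => G.Adj v c)) with hH
  have hHS : H ⊆ S := by
    rw [hH]
    exact insert_subset hvS (filter_subset _ _)
  have hHc : H.card ≤ 2 * α + 4 := by
    have h1 : H.card ≤ (S.filter (fun c => G.Adj v c)).card + 1 := card_insert_le _ _
    have h2 : (S.filter (fun c => G.Adj v c)).card ≤ 2 * α + 2 := by
      have : degIn G S v = (S.filter (fun c => G.Adj v c)).card := by
        unfold degIn
        congr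
      omega
    omega
  have hcomm : ∀ x z : V, (∀ c, G.Adj x c → G.Adj v c → G.Adj z c) →
      comm G S x v ≤ degIn G H z := by
    intro x z hz
    unfold comm degIn
    apply card_le_card
    intro c hc
    simp only [mem_filter] at hc ⊢
    refine ⟨?_, hz c hc.2.1 hc.2.2⟩
    rw [hH]
    exact mem_insert_of_mem (mem_filter.2 ⟨hc.1, hc.2.2⟩)
  have hHd : ∀ z ∈ H, α ≤ degIn G H z + 2 * k := by
    intro z hz
    rw [hH, mem_insert, mem_filter] at hz
    rcases hz with rfl | ⟨hzS, hvz⟩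
    · have h1 := c2 w hwS z hvS hvZ hvw.symm
      have h2 := hcomm w z (fun c _ h => h)
      omega
    · have h1 := c2 z hzS v hvS hvZ hvz.symm
      have h2 := hcomm z z (fun c h _ => h)
      omega
  obtain ⟨C, hCH, hCk, hCl⟩ := dense_linked G H k α hk hα ⟨v, by rw [hH]; exact mem_insert_self _ _⟩
    hHc hHd
  have hCS : C ⊆ S := hCH.trans hHS
  obtain ⟨A, B, ⟨hs, hZA, hCB⟩, hmin⟩ := exists_min2
    (fun A B : Finset V => Sep G S A B ∧ Z ⊆ A ∧ C ⊆ B) (fun A B => (A ∩ B).card)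
    ⟨Z, S, ⟨union_eq_right.2 hm.1, by
      intro a ha
      simp only [mem_sdiff] at ha
      exact absurd (hm.1 ha.1) ha.2⟩, Finset.Subset.refl _, hCS⟩
  have hSepZS : Sep G S Z S := ⟨union_eq_right.2 hm.1, by
      intro a ha
      simp only [mem_sdiff] at ha
      exact absurd (hm.1 ha.1) ha.2⟩
  have ho : (A ∩ B).card ≤ Z.card := by
    have h1 := hmin Z S ⟨hSepZS, Finset.Subset.refl _, hCS⟩
    have h2 : (Z ∩ S).card ≤ Z.card := card_le_card inter_subset_left
    exact h1.trans h2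
  obtain ⟨P, hP1, hP2, hP3, hP4, hP5⟩ := menger G B (A ∩ B) C (A ∩ B).card inter_subset_right hCB
    (fun C1 D1 hs1 h1 h2 => by
      obtain ⟨q1, q2, q3⟩ := sep_comp hs hs1 h1
      have := hmin (A ∪ C1) D1 ⟨q1, hZA.trans subset_union_left, h2⟩
      rw [q2] at this
      exact this)
  have hl : Lkd G B (A ∩ B) := Lkd.ofSetLinked inter_subset_right hCB (ho.trans hZ) hCl P hP1 hP2
    hP3 hP4 hP5
  have hne : (B \ A).Nonempty := by
    rw [nonempty_iff_ne_empty]
    intro he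
    have hBA : B ⊆ A := sdiff_eq_empty_iff_subset.1 he
    have h1 : A ∩ B = B := inter_eq_right.2 hBA
    have h2 := card_le_card hCB
    rw [h1] at ho
    omega
  exact hn (claim1 hZ hm IH hs hZA ho hne hl)

/-- ROW L (linking theorem for massed graphs; `rho` counts ordered pairs, so twice the edges). -/
theorem link (G : SimpleGraph V) (S Z : Finset V) (k α : ℕ) (hk : 1 ≤ k) (hα : 16 * k + 16 ≤ α)
    (hZS : Z ⊆ S) (hZ : Z.card ≤ 2 * k)
    (M1 : 2 * α * (S \ Z).card < rho G S (S \ Z))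
    (M2 : ∀ A B : Finset V, Sep G S A B → Z ⊆ A → (A ∩ B).card < Z.card →
      rho G S (B \ A) ≤ 2 * α * (B \ A).card)
    (p : ℕ) (s t : Fin p → V) (hs : Function.Injective s) (ht : Function.Injective t)
    (hst : ∀ i j, s i ≠ t j) (hsZ : ∀ i, s i ∈ Z) (htZ : ∀ i, t i ∈ Z) :
    ∃ L : Fin p → Finset V, (∀ i, L i ⊆ S) ∧ (∀ i, Conn G (L i)) ∧
      (∀ i, L i ∩ Z = {s i, t i}) ∧ ∀ i j, i ≠ j → Disjoint (L i) (L j) :=
  massed_linked hk hα _ _ G S Z rfl rfl ⟨hZS, M1, M2⟩ hZ (Fin p) s t hs ht hst hsZ htZ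

end Vale.Agent.P060
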