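import Vale.Agent.P060.LinkB

/-!
P060, row L: LinkC (transport of linkages, 2).
-/

namespace Vale.Agent.P060

open Finset

set_option linter.unusedSectionVars false

variable {V : Type} [Fintype V] [DecidableEq V]

open LinkB

/-- Link through disjoint paths from `K` to a `SetLinked` set `C`, `Q` := the `C`-ends of the unused
paths. -/
theorem Lkd.ofSetLinked {G : SimpleGraph V} {B C K : Finset V} {k : ℕ} (hK : K ⊆ B) (hC : C ⊆ B)
    (hKk : K.card ≤ 2 * k) (hCl : SetLinked G C k)
    (P : Fin K.card → Finset V) (hPB : ∀ i, P i ⊆ B) (hPc : ∀ i, Conn G (P i))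
    (hPd : ∀ i j, i ≠ j → Disjoint (P i) (P j)) (hPK : ∀ i, (P i ∩ K).card = 1)
    (hPC : ∀ i, (P i ∩ C).card = 1) : Lkd G B K := by
  classical
  -- ends of the paths
  have h1 : ∀ i, ∃ a, P i ∩ K = {a} := fun i => card_eq_one.1 (hPK i)
  have h2 : ∀ i, ∃ c, P i ∩ C = {c} := fun i => card_eq_one.1 (hPC i)
  choose a ha using h1
  choose c hc using h2
  have haP : ∀ i, a i ∈ P i := fun i => by
    have : a i ∈ P i ∩ K := by rw [ha i]; simp
    exact (mem_inter.1 this).1
  have haK : ∀ i, a i ∈ K := fun i => by
    have : a i ∈ P i ∩ K := by rw [ha i]; simp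
    exact (mem_inter.1 this).2
  have hcP : ∀ i, c i ∈ P i := fun i => by
    have : c i ∈ P i ∩ C := by rw [hc i]; simp
    exact (mem_inter.1 this).1
  have hcC : ∀ i, c i ∈ C := fun i => by
    have : c i ∈ P i ∩ C := by rw [hc i]; simp
    exact (mem_inter.1 this).2
  have hainj : Function.Injective a := by
    intro i j hij
    by_contra hne
    exact disjoint_left.1 (hPd i j hne) (haP i) (by rw [hij]; exact haP j)
  have hcinj : Function.Injective c := by
    intro i j hij
    by_contra hne
    exact disjoint_left.1 (hPd i j hne) (hcP i) (by rw [hij]; exact hcP j)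
  -- every element of `K` is the end of a path
  have himg : univ.image a = K := by
    apply eq_of_subset_of_card_le
    · intro v hv
      obtain ⟨i, _, rfl⟩ := mem_image.1 hv
      exact haK i
    · rw [card_image_of_injective _ hainj, card_univ, Fintype.card_fin]
  have hsurj : ∀ v ∈ K, ∃ i, a i = v := by
    intro v hv
    rw [← himg] at hv
    obtain ⟨i, _, hi⟩ := mem_image.1 hv
    exact ⟨i, hi⟩
  intro ι s t hs ht hst hsK htK
  have hfin : Finite ι := Finite.of_injective s hs
  have : Fintype ι := Fintype.ofFinite ι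
  choose f hf using fun i => hsurj (s i) (hsK i)
  choose g hg using fun i => hsurj (t i) (htK i)
  have hfinj : Function.Injective f := by
    intro i j hij
    apply hs
    rw [← hf i, ← hf j, hij]
  have hginj : Function.Injective g := by
    intro i j hij
    apply ht
    rw [← hg i, ← hg j, hij]
  have hfg : ∀ i j, f i ≠ g j := by
    intro i j hij
    apply hst i j
    rw [← hf i, ← hg j, hij]
  let U : Finset (Fin K.card) := univ.image f ∪ univ.image g
  have hUcard : U.card = 2 * Fintype.card ι := by
    have hd : Disjoint (univ.image f) (univ.image g) := by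
      rw [disjoint_left]
      intro v hv hv'
      obtain ⟨i, _, rfl⟩ := mem_image.1 hv
      obtain ⟨j, _, hj⟩ := mem_image.1 hv'
      exact hfg i j hj.symm
    rw [card_union_of_disjoint hd, card_image_of_injective _ hfinj,
      card_image_of_injective _ hginj, card_univ]
    ring
  let Q : Finset V := (univ \ U).image c
  have hQcard : Q.card = K.card - 2 * Fintype.card ι := by
    rw [card_image_of_injective _ hcinj, card_sdiff_of_subset (subset_univ _), card_univ,
      Fintype.card_fin, hUcard]
  have hUle : U.card ≤ K.card := by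
    have := card_le_univ U
    rwa [Fintype.card_fin] at this
  have hfU : ∀ i, f i ∈ U := fun i => mem_union_left _ (mem_image_of_mem _ (mem_univ _))
  have hgU : ∀ i, g i ∈ U := fun i => mem_union_right _ (mem_image_of_mem _ (mem_univ _))
  have hnQ : ∀ j, j ∈ U → c j ∉ Q := by
    intro j hj hjQ
    obtain ⟨l, hl, hlj⟩ := mem_image.1 hjQ
    have : l = j := hcinj hlj
    subst this
    exact (mem_sdiff.1 hl).2 hj
  let e : ι ≃ Fin (Fintype.card ι) := Fintype.equivFin ι
  obtain ⟨L, hL1, hL2, hL3, hL4, hL5, hL6⟩ := hCl (Fintype.card ι) (fun i => c (f (e.symm i)))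
    (fun i => c (g (e.symm i))) Q (by rw [hQcard]; omega)
    (hcinj.comp (hfinj.comp e.symm.injective)) (hcinj.comp (hginj.comp e.symm.injective))
    (fun i j hij => hfg _ _ (hcinj hij)) (fun i => hcC _) (fun i => hcC _)
    (fun i => hnQ _ (hfU _)) (fun i => hnQ _ (hgU _))
  -- values at `e i`
  have hL3' : ∀ i, c (f i) ∈ L (e i) := fun i => by simpa using hL3 (e i)
  have hL4' : ∀ i, c (g i) ∈ L (e i) := fun i => by simpa using hL4 (e i)
  have hL6' : ∀ i j, i ≠ j → Disjoint (L (e i)) (L (e j)) := fun i j hij =>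
    hL6 _ _ (fun h => hij (e.injective h))
  -- a path end lying in `L (e i)` is one of the two ends
  have hend : ∀ i j, c j ∈ L (e i) → j = f i ∨ j = g i := by
    intro i j hj
    have hjU : j ∈ U := by
      by_contra hjU
      exact disjoint_left.1 (hL5 (e i)) hj (mem_image_of_mem _ (mem_sdiff.2 ⟨mem_univ _, hjU⟩))
    rcases mem_union.1 hjU with h | h
    · obtain ⟨l, _, rfl⟩ := mem_image.1 h
      by_cases hl : l = i
      · subst hl; exact Or.inl rfl
      · exact absurd hj (disjoint_left.1 (hL6' l i hl) (hL3' l))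
    · obtain ⟨l, _, rfl⟩ := mem_image.1 h
      by_cases hl : l = i
      · subst hl; exact Or.inr rfl
      · exact absurd hj (disjoint_left.1 (hL6' l i hl) (hL4' l))
  have hPL : ∀ i j v, v ∈ P j → v ∈ L (e i) → j = f i ∨ j = g i := by
    intro i j v hv hvL
    apply hend i j
    have : v ∈ P j ∩ C := mem_inter.2 ⟨hv, hL1 _ hvL⟩
    rw [hc j, mem_singleton] at this
    rwa [← this]
  have haf : ∀ i, P (f i) ∩ K = {s i} := fun i => by rw [ha, hf]
  have hag : ∀ i, P (g i) ∩ K = {t i} := fun i => by rw [ha, hg]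
  refine ⟨fun i => P (f i) ∪ L (e i) ∪ P (g i), ?_, ?_, ?_, ?_⟩
  · intro i
    exact union_subset (union_subset (hPB _) ((hL1 _).trans hC)) (hPB _)
  · intro i
    exact conn_union_mem (conn_union_mem (hPc _) (hL2 _) (hcP _) (hL3' i)) (hPc _)
      (mem_union_right _ (hL4' i)) (hcP _)
  · intro i
    ext v
    simp only [mem_inter, mem_union, mem_insert, mem_singleton]
    constructor
    · rintro ⟨(hv | hv) | hv, hvK⟩
      · have : v ∈ P (f i) ∩ K := mem_inter.2 ⟨hv, hvK⟩
        rw [haf i, mem_singleton] at this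
        exact Or.inl this
      · obtain ⟨j, rfl⟩ := hsurj v hvK
        rcases hPL i j _ (haP j) hv with h | h
        · left; rw [h, hf]
        · right; rw [h, hg]
      · have : v ∈ P (g i) ∩ K := mem_inter.2 ⟨hv, hvK⟩
        rw [hag i, mem_singleton] at this
        exact Or.inr this
    · rintro (rfl | rfl)
      · refine ⟨Or.inl (Or.inl ?_), hsK i⟩
        have : s i ∈ P (f i) ∩ K := by rw [haf i]; simp
        exact (mem_inter.1 this).1
      · refine ⟨Or.inr ?_, htK i⟩
        have : t i ∈ P (g i) ∩ K := by rw [hag i]; simp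
        exact (mem_inter.1 this).1
  · intro i j hij
    have hPP : ∀ p q : Fin K.card, p ≠ q → ∀ v, v ∈ P p → v ∈ P q → False :=
      fun p q h v h1 h2 => disjoint_left.1 (hPd p q h) h1 h2
    have hff : f i ≠ f j := fun h => hij (hfinj h)
    have hgg : g i ≠ g j := fun h => hij (hginj h)
    have hfg1 : f i ≠ g j := hfg i j
    have hfg2 : g i ≠ f j := (hfg j i).symm
    rw [disjoint_left]
    intro v hv hv'
    simp only [mem_union] at hv hv'
    rcases hv with (hv | hv) | hv <;> rcases hv' with (hv' | hv') | hv'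
    · exact hPP _ _ hff v hv hv'
    · rcases hPL j _ v hv hv' with h | h
      · exact hff h
      · exact hfg1 h
    · exact hPP _ _ hfg1 v hv hv'
    · rcases hPL i _ v hv' hv with h | h
      · exact hff h.symm
      · exact hfg2 h.symm
    · exact disjoint_left.1 (hL6' i j hij) hv hv'
    · rcases hPL i _ v hv' hv with h | h
      · exact hfg1 h.symm
      · exact hgg h.symm
    · exact hPP _ _ hfg2 v hv hv'
    · rcases hPL j _ v hv hv' with h | h
      · exact hfg2 h
      · exact hgg h
    · exact hPP _ _ hgg v hv hv'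

/-- a set connected in the contracted graph which contains `x` becomes connected when `y` is added -/
theorem conn_insert_of_contr {G : SimpleGraph V} {L : Finset V} {x y : V} (hxy : G.Adj x y)
    (hx : x ∈ L) (h : Conn (contr G x y) L) : Conn G (insert y L) := by
  have hxI : x ∈ insert y L := mem_insert_of_mem hx
  have hyI : y ∈ insert y L := mem_insert_self _ _
  have hyC : y ∈ cmp G (insert y L) x := cmp_closed (self_mem_cmp hxI) hyI hxy
  have hall : insert y L ⊆ cmp G (insert y L) x := by
    intro v hv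
    rcases mem_insert.1 hv with rfl | hvL
    · exact hyC
    · by_contra hvC
      obtain ⟨p, hpL, hpC, q, hqL, hqC, hpq⟩ := exists_cross h hx hvL (self_mem_cmp hxI) hvC
      apply hqC
      obtain ⟨_, h1 | ⟨_, h1⟩ | ⟨h1, _⟩⟩ := hpq
      · exact cmp_closed hpC (mem_insert_of_mem hqL) h1
      · exact cmp_closed hyC (mem_insert_of_mem hqL) h1
      · rw [h1]; exact self_mem_cmp hxI
  have : cmp G (insert y L) x = insert y L := Finset.Subset.antisymm cmp_sub hall
  rw [← this]
  exact cmp_conn hxI

/-- Lift a linkage from the contracted graph: insert `y` in the set containing `x`. -/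
theorem Lkd.contr_lift {G : SimpleGraph V} {T Z : Finset V} {x y : V} (hxy : G.Adj x y)
    (hyT : y ∉ T) (hyZ : y ∉ Z) (h : Lkd (contr G x y) T Z) : Lkd G (insert y T) Z := by
  classical
  intro ι s t hs ht hst hsZ htZ
  obtain ⟨L, h1, h2, h3, h4⟩ := h ι s t hs ht hst hsZ htZ
  have hyL : ∀ i, y ∉ L i := fun i hy => hyT (h1 i hy)
  have hmem : ∀ i v, v ∈ (if x ∈ L i then insert y (L i) else L i) ↔
      v ∈ L i ∨ (v = y ∧ x ∈ L i) := by
    intro i v
    split_ifs with hx
    · simp only [mem_insert]; tauto
    · tauto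
  refine ⟨fun i => if x ∈ L i then insert y (L i) else L i, ?_, ?_, ?_, ?_⟩
  · intro i v hv
    rcases (hmem i v).1 hv with hv | ⟨rfl, _⟩
    · exact mem_insert_of_mem (h1 i hv)
    · exact mem_insert_self _ _
  · intro i
    dsimp only
    split_ifs with hx
    · exact conn_insert_of_contr hxy hx (h2 i)
    · refine conn_mono_on (h2 i) ?_
      intro a ha b hb hab
      obtain ⟨_, h5 | ⟨h5, _⟩ | ⟨h5, _⟩⟩ := hab
      · exact h5
      · exact absurd (h5 ▸ ha) hx
      · exact absurd (h5 ▸ hb) hx
  · intro i
    rw [← h3 i]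
    ext v
    simp only [mem_inter]
    constructor
    · rintro ⟨hv, hvZ⟩
      rcases (hmem i v).1 hv with hv | ⟨rfl, _⟩
      · exact ⟨hv, hvZ⟩
      · exact absurd hvZ hyZ
    · rintro ⟨hv, hvZ⟩
      exact ⟨(hmem i v).2 (Or.inl hv), hvZ⟩
  · intro i j hij
    rw [disjoint_left]
    intro v hv hv'
    have hd := disjoint_left.1 (h4 i j hij)
    rcases (hmem i v).1 hv with hv | ⟨rfl, hx⟩ <;> rcases (hmem j v).1 hv' with hv' | ⟨h5, hx'⟩
    · exact hd hv hv'
    · rw [h5] at hv; exact hyL i hv
    · exact hyL j hv'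
    · exact hd hx hx'

end Vale.Agent.P060
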