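import Vale.Agent.P060.LinkDefs

/-!
P060, row L: LinkA (owner helper80).
-/

namespace Vale.Agent.P060

open Finset

variable {V : Type} [Fintype V] [DecidableEq V]

/-- composition of separations; by symmetry also for a separation of `A`. -/
theorem sep_comp {G : SimpleGraph V} {S A B A2 B2 : Finset V} (h : Sep G S A B)
    (h2 : Sep G B A2 B2) (hK : A ∩ B ⊆ A2) :
    Sep G S (A ∪ A2) B2 ∧ (A ∪ A2) ∩ B2 = A2 ∩ B2 ∧ B2 \ (A ∪ A2) = B2 \ A2 := by
  obtain ⟨h1, hN⟩ := h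
  obtain ⟨h3, hN2⟩ := h2
  have hB2 : B2 ⊆ B := by rw [← h3]; exact subset_union_right
  refine ⟨⟨?_, ?_⟩, ?_, ?_⟩
  · rw [union_assoc, h3, h1]
  · intro a ha b hb
    simp only [mem_sdiff, mem_union, not_or] at ha hb
    obtain ⟨ha1, ha2⟩ := ha
    obtain ⟨hb1, hb2, hb3⟩ := hb
    by_cases haA2 : a ∈ A2
    · exact hN2 a (mem_sdiff.2 ⟨haA2, ha2⟩) b (mem_sdiff.2 ⟨hb1, hb3⟩)
    · have haA : a ∈ A := ha1.resolve_right haA2
      have haB : a ∉ B := fun h => haA2 (hK (mem_inter.2 ⟨haA, h⟩))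
      exact hN a (mem_sdiff.2 ⟨haA, haB⟩) b (mem_sdiff.2 ⟨hB2 hb1, hb2⟩)
  · ext a
    simp only [mem_inter, mem_union]
    constructor
    · rintro ⟨h | h, h'⟩
      · exact ⟨hK (mem_inter.2 ⟨h, hB2 h'⟩), h'⟩
      · exact ⟨h, h'⟩
    · rintro ⟨h, h'⟩
      exact ⟨Or.inr h, h'⟩
  · ext a
    simp only [mem_sdiff, mem_union, not_or]
    constructor
    · rintro ⟨h, _, h'⟩
      exact ⟨h, h'⟩
    · rintro ⟨h, h'⟩
      exact ⟨h, fun hA => h' (hK (mem_inter.2 ⟨hA, hB2 h⟩)), h'⟩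

theorem rho_mono {G G' : SimpleGraph V} {S S' U U' : Finset V}
    (hG : ∀ a ∈ S, ∀ b ∈ S, (a ∈ U ∨ b ∈ U) → G.Adj a b → G'.Adj a b)
    (hS : S ⊆ S') (hU : U ⊆ U') : rho G S U ≤ rho G' S' U' := by
  classical
  unfold rho
  apply card_le_card
  intro e he
  simp only [mem_filter, mem_product] at he ⊢
  obtain ⟨⟨h1, h2⟩, h3, h4⟩ := he
  refine ⟨⟨hS h1, hS h2⟩, hG _ h1 _ h2 h4 h3, ?_⟩
  rcases h4 with h4 | h4
  · exact Or.inl (hU h4)
  · exact Or.inr (hU h4)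

theorem rho_sep {G : SimpleGraph V} {S A B : Finset V} (h : Sep G S A B) :
    rho G S (B \ A) ≤ rho G B (B \ A) := by
  classical
  obtain ⟨h1, hN⟩ := h
  have key : ∀ a ∈ S, ∀ b ∈ B \ A, G.Adj a b → a ∈ B := by
    intro a ha b hb hab
    by_contra haB
    have haA : a ∈ A := by
      rw [← h1] at ha
      exact (mem_union.1 ha).resolve_right haB
    exact hN a (mem_sdiff.2 ⟨haA, haB⟩) b hb hab
  unfold rho
  apply card_le_card
  intro e he
  simp only [mem_filter, mem_product] at he ⊢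
  obtain ⟨⟨h2, h3⟩, h4, h5⟩ := he
  refine ⟨?_, h4, h5⟩
  rcases h5 with h5 | h5
  · exact ⟨(mem_sdiff.1 h5).1, key _ h3 _ h5 h4.symm⟩
  · exact ⟨key _ h2 _ h5 h4, (mem_sdiff.1 h5).1⟩

/-- the failing separation with `B` minimal gives a massed pair. -/
theorem massed_sub {G : SimpleGraph V} {S Z A B : Finset V} {α : ℕ} (h : Sep G S A B)
    (hZ : Z ⊆ A) (ho : (A ∩ B).card < Z.card) (hr : 2 * α * (B \ A).card < rho G S (B \ A))
    (hmin : ∀ A2 B2 : Finset V, Sep G S A2 B2 → Z ⊆ A2 → (A2 ∩ B2).card < Z.card →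
      2 * α * (B2 \ A2).card < rho G S (B2 \ A2) → B.card ≤ B2.card) :
    Massed G B (A ∩ B) α := by
  refine ⟨inter_subset_right, ?_, ?_⟩
  · have : B \ (A ∩ B) = B \ A := by
      ext a; simp only [mem_sdiff, mem_inter]; tauto
    rw [this]
    exact lt_of_lt_of_le hr (rho_sep h)
  · intro A2 B2 h2 hK ho2
    obtain ⟨hs, hi, hd⟩ := sep_comp h h2 hK
    by_contra hcon
    push Not at hcon
    have hB2 : B2 ⊆ B := by rw [← h2.1]; exact subset_union_right
    have hBS : B ⊆ S := by rw [← h.1]; exact subset_union_right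
    have hle : rho G B (B2 \ A2) ≤ rho G S (B2 \ A2) :=
      rho_mono (fun _ _ _ _ _ h => h) hBS (Finset.Subset.refl _)
    have hc := hmin (A ∪ A2) B2 hs (hZ.trans subset_union_left) (by rw [hi]; omega)
      (by rw [hd]; omega)
    have hEq : B2 = B := eq_of_subset_of_card_le hB2 hc
    subst hEq
    have hA2 : A2 ⊆ B2 := by
      have := h2.1
      rw [← this]; exact subset_union_left
    have : A2 ∩ B2 = A2 := inter_eq_left.2 hA2
    rw [this] at ho2
    have := card_le_card hK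
    omega

theorem exists_min2 (P : Finset V → Finset V → Prop) (f : Finset V → Finset V → ℕ)
    (h : ∃ A B, P A B) : ∃ A B, P A B ∧ ∀ A' B', P A' B' → f A B ≤ f A' B' := by
  classical
  obtain ⟨A0, B0, h0⟩ := h
  have hex : ∃ n, ∃ A B, P A B ∧ f A B = n := ⟨_, A0, B0, h0, rfl⟩
  obtain ⟨A, B, h1, h2⟩ := Nat.find_spec hex
  refine ⟨A, B, h1, fun A' B' h' => ?_⟩
  rw [h2]
  exact Nat.find_min' hex ⟨A', B', h', rfl⟩

end Vale.Agent.P060
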