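import Vale.Agent.P060.LinkA
import Vale.Agent.P060.LinkB
import Vale.Agent.P060.LinkRho

/-!
P060, row L: LinkClaim1 (owner helper58).
-/

namespace Vale.Agent.P060

open Finset

variable {V : Type} [Fintype V] [DecidableEq V]

set_option linter.unusedSectionVars false

namespace Rigid

theorem sep_mono_graph {G G' : SimpleGraph V} {S A B : Finset V}
    (h : ∀ a ∈ S, ∀ b ∈ S, G.Adj a b → G'.Adj a b) (hs : Sep G' S A B) :
    Sep G S A B := by
  refine ⟨hs.1, fun a ha b hb hab => hs.2 a ha b hb (h a ?_ b ?_ hab)⟩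
  · rw [← hs.1]; exact mem_union_left _ (mem_sdiff.1 ha).1
  · rw [← hs.1]; exact mem_union_right _ (mem_sdiff.1 hb).1

theorem sep_left_subset {G : SimpleGraph V} {S A B : Finset V} (h : Sep G S A B) : A ⊆ S := by
  rw [← h.1]; exact subset_union_left

theorem sep_right_subset {G : SimpleGraph V} {S A B : Finset V} (h : Sep G S A B) : B ⊆ S := by
  rw [← h.1]; exact subset_union_right

/-- refine the left side; the overlap goes to the right part -/
theorem sep_refine_right {G : SimpleGraph V} {S A B A1 B1 : Finset V} (h : Sep G S A B)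
    (h1 : Sep G A A1 B1) (hT : A ∩ B ⊆ B1) :
    Sep G S A1 (B1 ∪ B) ∧ A1 ∩ (B1 ∪ B) = A1 ∩ B1 := by
  have hA1 := sep_left_subset h1
  have hB1 := sep_right_subset h1
  refine ⟨⟨?_, ?_⟩, ?_⟩
  · rw [← h.1, ← union_assoc, h1.1]
  · intro a ha b hb hab
    simp only [mem_sdiff, mem_union, not_or] at ha hb
    obtain ⟨haA, haB1, haB⟩ := ha
    obtain ⟨hb1, hbA⟩ := hb
    by_cases hbB1 : b ∈ B1
    · exact h1.2 a (mem_sdiff.2 ⟨haA, haB1⟩) b (mem_sdiff.2 ⟨hbB1, hbA⟩) hab
    · have hbB : b ∈ B := hb1.resolve_left hbB1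
      have hbA' : b ∉ A := fun h2 => hbB1 (hT (mem_inter.2 ⟨h2, hbB⟩))
      exact h.2 a (mem_sdiff.2 ⟨hA1 haA, haB⟩) b (mem_sdiff.2 ⟨hbB, hbA'⟩) hab
  · ext w
    simp only [mem_inter, mem_union]
    constructor
    · rintro ⟨h2, h3 | h3⟩
      · exact ⟨h2, h3⟩
      · exact ⟨h2, hT (mem_inter.2 ⟨hA1 h2, h3⟩)⟩
    · rintro ⟨h2, h3⟩
      exact ⟨h2, Or.inl h3⟩

/-- refine the left side; the overlap goes to the left part -/
theorem sep_refine_left {G : SimpleGraph V} {S A B A1 B1 : Finset V} (h : Sep G S A B)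
    (h1 : Sep G A A1 B1) (hT : A ∩ B ⊆ A1) :
    Sep G S (A1 ∪ B) B1 ∧ (A1 ∪ B) ∩ B1 = A1 ∩ B1 ∧ B1 \ (A1 ∪ B) = B1 \ A1 := by
  have h2 := sep_refine_right h (MengerAux.sep_symm h1) hT
  have hB1 := sep_right_subset h1
  refine ⟨MengerAux.sep_symm h2.1, ?_, ?_⟩
  · rw [inter_comm, h2.2, inter_comm]
  · ext w
    simp only [mem_sdiff, mem_union, not_or]
    constructor
    · rintro ⟨h3, h4, _⟩
      exact ⟨h3, h4⟩
    · rintro ⟨h3, h4⟩
      exact ⟨h3, h4, fun h5 => h4 (hT (mem_inter.2 ⟨hB1 h3, h5⟩))⟩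

theorem inter_eq_of {A B B1 : Finset V} (hB1 : B1 ⊆ A) (hT : A ∩ B ⊆ B1) : B1 ∩ B = A ∩ B := by
  ext w
  simp only [mem_inter]
  constructor
  · rintro ⟨h1, h2⟩; exact ⟨hB1 h1, h2⟩
  · rintro ⟨h1, h2⟩; exact ⟨hT (mem_inter.2 ⟨h1, h2⟩), h2⟩

theorem rho_empty (G : SimpleGraph V) (S : Finset V) : rho G S ∅ = 0 := by
  unfold rho
  simp

end Rigid

open Rigid

/-- CLAIM 1. Strong induction on `|A|`. Let `(A1,B1)` be a separation of `G[A]` with `Z ⊆ A1`,
`A ∩ B ⊆ B1` of minimum order. If the order is `≥ |Z|`: `menger` + `Lkd.paths`. Otherwise Menger in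
`G[B1]` (from `A1 ∩ B1` to `A ∩ B`; by minimality and `sep_comp`) and `Lkd.paths` show that
`(A1, B1 ∪ B)` is again such a separation; if `|A1| < |A|` use the induction. If `A1 = A` then
`|A ∩ B| ≤ |B1| < |Z|`, and we work in `G2 := addK G (A ∩ B)` on `A`: M1 by `rho_split`; M2: a
failing `(A1,B1)` with `|B1|` minimal has `A ∩ B ⊆ B1` (if `A ∩ B ⊆ A1` then `(B ∪ A1, B1)` fails in
`G`), `massed_sub` and `IH` give `Lkd G2 B1 (A1 ∩ B1)`, `Lkd.rep` gives `Lkd G (B1 ∪ B) (A1 ∩ B1)`,
`|A1| < |A|`, induction. So `IH` gives `Lkd G2 A Z`, and `Lkd.rep` ends. -/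
theorem claim1 {G : SimpleGraph V} {S Z : Finset V} {k α : ℕ} (hZ : Z.card ≤ 2 * k)
    (hm : Massed G S Z α) (IH : IHs V S.card k α) {A B : Finset V} (hs : Sep G S A B)
    (hZA : Z ⊆ A) (ho : (A ∩ B).card ≤ Z.card) (hne : (B \ A).Nonempty)
    (hl : Lkd G B (A ∩ B)) : Lkd G S Z := by
  induction hn : A.card using Nat.strong_induction_on generalizing A B with
  | _ n ihn =>
  subst hn
  have hAS : A ⊆ S := sep_left_subset hs
  have hAcard : A.card < S.card := by
    apply card_lt_card
    rw [ssubset_iff_of_subset hAS]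
    obtain ⟨w, hw⟩ := hne
    rw [mem_sdiff] at hw
    exact ⟨w, sep_right_subset hs hw.1, hw.2⟩
  have hTA : A ∩ B ⊆ A := inter_subset_left
  -- the step to a smaller left side
  have step : ∀ A1 B1 : Finset V, Sep G A A1 B1 → Z ⊆ A1 → A ∩ B ⊆ B1 → (A1 ∩ B1).card ≤ Z.card →
      A1.card < A.card → Lkd G (B1 ∪ B) (A1 ∩ B1) → Lkd G S Z := by
    intro A1 B1 h1 hZ1 hT hord hlt hl1
    have h2 := sep_refine_right hs h1 hT
    refine ihn A1.card hlt h2.1 hZ1 ?_ ?_ ?_ rfl
    · rw [h2.2]; exact hord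
    · obtain ⟨w, hw⟩ := hne
      rw [mem_sdiff] at hw
      exact ⟨w, mem_sdiff.2 ⟨mem_union_right _ hw.1, fun h3 => hw.2 (sep_left_subset h1 h3)⟩⟩
    · rw [h2.2]; exact hl1
  -- minimum separation between `Z` and `A ∩ B` in `G[A]`
  obtain ⟨A1, B1, ⟨h1, hZ1, hT1⟩, hmin⟩ := exists_min2
    (fun A1 B1 : Finset V => Sep G A A1 B1 ∧ Z ⊆ A1 ∧ A ∩ B ⊆ B1)
    (fun A1 B1 => (A1 ∩ B1).card)
    ⟨A, A ∩ B, ⟨by rw [union_eq_left]; exact hTA, by
      intro a _ b hb
      rw [mem_sdiff] at hb
      exact absurd (hTA hb.1) hb.2⟩, hZA, Subset.rfl⟩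
  by_cases hq : Z.card ≤ (A1 ∩ B1).card
  · -- enough paths
    obtain ⟨P, hPA, hPc, hPd, hPZ, hPK⟩ := menger G A Z (A ∩ B) Z.card hZA hTA
      (fun C D hCD hC hD => hq.trans (hmin C D ⟨hCD, hC, hD⟩))
    have h2 := Lkd.paths (G := G) (A := A) (B := B) hZA P hPA hPc hPd hPZ hPK hl
    rwa [hs.1] at h2
  · push Not at hq
    have hB1A : B1 ⊆ A := sep_right_subset h1
    have hA1A : A1 ⊆ A := sep_left_subset h1
    by_cases hlt : A1.card < A.card
    · refine step A1 B1 h1 hZ1 hT1 hq.le hlt ?_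
      obtain ⟨P, hPA, hPc, hPd, hPZ, hPK⟩ := menger G B1 (A1 ∩ B1) (A ∩ B) (A1 ∩ B1).card
        inter_subset_right hT1 (fun C D hCD hC hD => by
          have h3 := sep_comp h1 hCD hC
          have h4 := hmin (A1 ∪ C) D ⟨h3.1, hZ1.trans subset_union_left, hD⟩
          rwa [h3.2.1] at h4)
      have h5 : B1 ∩ B = A ∩ B := inter_eq_of hB1A hT1
      refine Lkd.paths (G := G) (A := B1) (B := B) inter_subset_right P hPA hPc hPd hPZ ?_ ?_
      · rw [h5]; exact hPK
      · rw [h5]; exact hl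
    · have hAA : A1 = A := eq_of_subset_of_card_le hA1A (by omega)
      subst hAA
      have hTlt : (A1 ∩ B).card < Z.card := by
        refine lt_of_le_of_lt (card_le_card ?_) hq
        intro w hw
        exact mem_inter.2 ⟨hTA hw, hT1 hw⟩
      clear hmin hT1 h1 hq hB1A hA1A hlt hZ1
      clear B1
      -- work in `G2`
      set T := A1 ∩ B with hTdef
      have hG2 : ∀ a b, (addK G T).Adj a b → G.Adj a b ∨ (a ∈ T ∧ b ∈ T) := fun a b h => h.2
      have hle : ∀ a b, G.Adj a b → (addK G T).Adj a b := fun a b h => ⟨h.ne, Or.inl h⟩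
      by_cases hM2 : ∀ A' B' : Finset V, Sep (addK G T) A1 A' B' → Z ⊆ A' →
          (A' ∩ B').card < Z.card → rho (addK G T) A1 (B' \ A') ≤ 2 * α * (B' \ A').card
      · -- massed
        have hMs : Massed (addK G T) A1 Z α := by
          refine ⟨hZA, ?_, hM2⟩
          have e1 := rho_split (G := G) hs.1 hZA
          have e2 := hm.2.2 A1 B hs hZA hTlt
          have e3 := hm.2.1
          have e4 : rho G A1 (A1 \ Z) ≤ rho (addK G T) A1 (A1 \ Z) :=
            rho_mono (fun a _ b _ _ h => hle a b h) Subset.rfl Subset.rfl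
          have e5 : (S \ Z).card = (A1 \ Z).card + (B \ A1).card := by
            rw [← card_union_of_disjoint]
            · congr 1
              ext w
              simp only [mem_sdiff, mem_union, ← hs.1]
              constructor
              · rintro ⟨h1 | h1, h2⟩
                · exact Or.inl ⟨h1, h2⟩
                · by_cases h3 : w ∈ A1
                  · exact Or.inl ⟨h3, h2⟩
                  · exact Or.inr ⟨h1, h3⟩
              · rintro (⟨h1, h2⟩ | ⟨h1, h2⟩)
                · exact ⟨Or.inl h1, h2⟩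
                · exact ⟨Or.inr h1, fun h3 => h2 (hZA h3)⟩
            · rw [disjoint_left]
              intro w h1 h2
              exact (mem_sdiff.1 h2).2 (mem_sdiff.1 h1).1
          rw [e5, Nat.mul_add] at e3
          omega
        have hL := IH (addK G T) A1 Z hAcard hMs hZ
        have h3 := Lkd.rep (G := G) (G2 := addK G T) (A := A1) (B := B) hZA
          (fun a _ b _ h => hG2 a b h) hL hl
        rwa [hs.1] at h3
      · push Not at hM2
        obtain ⟨A0, B0, hP0⟩ := hM2
        obtain ⟨A', B', ⟨h1, hZ1, hord, hr⟩, hmin⟩ := exists_min2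
          (fun A' B' : Finset V => Sep (addK G T) A1 A' B' ∧ Z ⊆ A' ∧ (A' ∩ B').card < Z.card ∧
            2 * α * (B' \ A').card < rho (addK G T) A1 (B' \ A'))
          (fun A' B' => B'.card) ⟨A0, B0, hP0⟩
        have hms : Massed (addK G T) B' (A' ∩ B') α := massed_sub h1 hZ1 hord hr
          (fun A2 B2 g1 g2 g3 g4 => hmin A2 B2 ⟨g1, g2, g3, g4⟩)
        have h1' : Sep G A1 A' B' := sep_mono_graph (fun a _ b _ h => hle a b h) h1
        have hB'A : B' ⊆ A1 := sep_right_subset h1
        have hA'A : A' ⊆ A1 := sep_left_subset h1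
        have hdich : T ⊆ A' ∨ T ⊆ B' := by
          by_contra hcon
          rw [not_or, not_subset, not_subset] at hcon
          obtain ⟨⟨b, hbT, hbA⟩, ⟨a, haT, haB⟩⟩ := hcon
          have hb1 : b ∈ A1 := hTA hbT
          have ha1 : a ∈ A1 := hTA haT
          rw [← h1.1, mem_union] at hb1 ha1
          have hb2 : b ∈ B' := hb1.resolve_left hbA
          have ha2 : a ∈ A' := ha1.resolve_right haB
          refine h1.2 a (mem_sdiff.2 ⟨ha2, haB⟩) b (mem_sdiff.2 ⟨hb2, hbA⟩) ⟨?_, Or.inr ⟨haT, hbT⟩⟩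
          rintro rfl
          exact hbA ha2
        rcases hdich with hd | hd
        · exfalso
          have h2 := sep_refine_left hs h1' hd
          have h3 := hm.2.2 (A' ∪ B) B' h2.1 (hZ1.trans subset_union_left) (by rw [h2.2.1]; exact hord)
          rw [h2.2.2] at h3
          have h4 : rho (addK G T) A1 (B' \ A') ≤ rho G S (B' \ A') := by
            refine rho_mono ?_ hAS Subset.rfl
            intro a _ b _ hU hab
            rcases hG2 a b hab with h5 | ⟨h5, h6⟩
            · exact h5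
            · exfalso
              rcases hU with h7 | h7
              · exact (mem_sdiff.1 h7).2 (hd h5)
              · exact (mem_sdiff.1 h7).2 (hd h6)
          omega
        · have h5 : B' ∩ B = A1 ∩ B := inter_eq_of hB'A hd
          have hL := IH (addK G T) B' (A' ∩ B') (lt_of_le_of_lt (card_le_card hB'A) hAcard) hms
            (hord.le.trans hZ)
          refine step A' B' h1' hZ1 hd hord.le ?_ ?_
          · apply card_lt_card
            rw [ssubset_iff_of_subset hA'A]
            have h6 : (B' \ A').Nonempty := by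
              rw [nonempty_iff_ne_empty]
              intro h7
              rw [h7, rho_empty] at hr
              omega
            obtain ⟨w, hw⟩ := h6
            rw [mem_sdiff] at hw
            exact ⟨w, hB'A hw.1, hw.2⟩
          · refine Lkd.rep (G := G) (G2 := addK G T) (A := B') (B := B) inter_subset_right ?_ hL ?_
            · intro a _ b _ hab
              rw [h5]
              exact hG2 a b hab
            · rw [h5]; exact hl

end Vale.Agent.P060
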