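import Vale.Agent.P060.LinkClaim1
import Vale.Agent.P060.LinkC

/-!
P060, row L: LinkClaim2 (owner helper57).
-/

namespace Vale.Agent.P060

open Finset

variable {V : Type} [Fintype V] [DecidableEq V]

theorem contr_of_adj {G : SimpleGraph V} {x y a b : V} (h : G.Adj a b) : (contr G x y).Adj a b :=
  ⟨h.ne, Or.inl h⟩

theorem rho_empty' {G : SimpleGraph V} {S : Finset V} : rho G S ∅ = 0 := by
  classical
  unfold rho
  simp

/-- Case `x ∈ A' \ B'`. -/
theorem claim2_case1 {G : SimpleGraph V} {S Z : Finset V} {α : ℕ}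
    (hm : Massed G S Z α) {x y : V} (hx : x ∈ S) (hy : y ∈ S) (hxy : G.Adj x y)
    {A B : Finset V} (hs : Sep (contr G x y) (S.erase y) A B) (hZA : Z ⊆ A)
    (ho : (A ∩ B).card < Z.card)
    (hf : 2 * α * (B \ A).card < rho (contr G x y) (S.erase y) (B \ A))
    (hxA : x ∈ A) (hxB : x ∉ B) : False := by
  obtain ⟨hU, hN⟩ := hs
  have hyA : y ∉ A := fun h => by
    have : y ∈ S.erase y := by rw [← hU]; exact mem_union_left _ h
    simp at this
  have hyB : y ∉ B := fun h => by
    have : y ∈ S.erase y := by rw [← hU]; exact mem_union_right _ h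
    simp at this
  have h1 : Sep G S (insert y A) B := by
    refine ⟨?_, ?_⟩
    · rw [insert_union, hU, insert_erase hy]
    · intro a ha b hb hab
      simp only [mem_sdiff, mem_insert, not_or] at ha hb
      obtain ⟨ha1, ha2⟩ := ha
      obtain ⟨hb1, hb2, hb3⟩ := hb
      rcases ha1 with rfl | ha1
      · exact hN x (mem_sdiff.2 ⟨hxA, hxB⟩) b (mem_sdiff.2 ⟨hb1, hb3⟩)
          ⟨fun h => hxB (h ▸ hb1), Or.inr (Or.inl ⟨rfl, hab⟩)⟩
      · exact hN a (mem_sdiff.2 ⟨ha1, ha2⟩) b (mem_sdiff.2 ⟨hb1, hb3⟩) (contr_of_adj hab)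
  have h2 : insert y A ∩ B = A ∩ B := insert_inter_of_notMem hyB
  have h3 : B \ insert y A = B \ A := by
    ext a
    simp only [mem_sdiff, mem_insert, not_or]
    constructor
    · rintro ⟨h, _, h'⟩; exact ⟨h, h'⟩
    · rintro ⟨h, h'⟩; exact ⟨h, fun hh => hyB (hh ▸ h), h'⟩
  have h4 := hm.2.2 (insert y A) B h1 (hZA.trans (subset_insert _ _)) (by rw [h2]; exact ho)
  rw [h3] at h4
  have h5 : rho (contr G x y) (S.erase y) (B \ A) ≤ rho (contr G x y) B (B \ A) :=
    rho_sep ⟨hU, hN⟩
  have hBS : B ⊆ S := by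
    rw [← h1.1]; exact subset_union_right
  have h6 : rho (contr G x y) B (B \ A) ≤ rho G S (B \ A) := by
    refine rho_mono ?_ hBS (Finset.Subset.refl _)
    rintro a ha b hb _ ⟨_, h | ⟨rfl, _⟩ | ⟨rfl, _⟩⟩
    · exact h
    · exact absurd ha hxB
    · exact absurd hb hxB
  omega

/-- CLAIM 2. Otherwise `contr G x y` on `S.erase y` satisfies M1 (`rho_contr`). If it satisfies M2:
`IH` and `Lkd.contr_lift`. Otherwise take a failing `(A',B')` with `|B'|` minimal.
`x ∈ A' \ B'`: `(insert y A', B')` contradicts M2 of `G`. `x ∈ B' \ A'`: `massed_sub`, `IH`,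
`Lkd.contr_lift`, `claim1` with `(A', insert y B')`. `x ∈ A' ∩ B'`: `(insert y A', insert y B')` has
order `≤ |Z|`, `(G, insert y B')` is massed with respect to the intersection (M1: `rho_contr_le`,
M2: `sep_comp` and M2 of `G`), smaller than `S`; `IH`, `claim1`. -/
theorem claim2 {G : SimpleGraph V} {S Z : Finset V} {k α : ℕ} (hk : 1 ≤ k)
    (hZ : Z.card ≤ 2 * k) (hm : Massed G S Z α) (IH : IHs V S.card k α) (hn : ¬ Lkd G S Z)
    {x y : V} (hx : x ∈ S) (hy : y ∈ S) (hyZ : y ∉ Z) (hxy : G.Adj x y) :
    α ≤ comm G S x y + 2 * k := by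
  by_contra hcon
  push Not at hcon
  have hne : x ≠ y := hxy.ne
  have hxS' : x ∈ S.erase y := mem_erase.2 ⟨hne, hx⟩
  have hZS' : Z ⊆ S.erase y := fun z hz => mem_erase.2 ⟨fun h => hyZ (h ▸ hz), hm.1 hz⟩
  have hcard : (S.erase y).card < S.card := card_erase_lt_of_mem hy
  -- M1
  have M1 : 2 * α * (S.erase y \ Z).card < rho (contr G x y) (S.erase y) (S.erase y \ Z) := by
    have h1 := hm.2.1
    have h2 := rho_contr hx hy hyZ hxy
    have h3 : (S \ Z).card = (S.erase y \ Z).card + 1 := by
      have : S.erase y \ Z = (S \ Z).erase y := by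
        ext a; simp only [mem_sdiff, mem_erase]; tauto
      rw [this, card_erase_of_mem (mem_sdiff.2 ⟨hy, hyZ⟩)]
      have : 0 < (S \ Z).card := card_pos.2 ⟨y, mem_sdiff.2 ⟨hy, hyZ⟩⟩
      omega
    rw [h3] at h1
    have h4 : 2 * α * ((S.erase y \ Z).card + 1) = 2 * α * (S.erase y \ Z).card + 2 * α := by ring
    rw [h4] at h1
    have h5 : 2 * (comm G S x y + Z.card + 1) ≤ 2 * α := by omega
    omega
  by_cases hM2 : ∀ A B : Finset V, Sep (contr G x y) (S.erase y) A B → Z ⊆ A →
      (A ∩ B).card < Z.card → rho (contr G x y) (S.erase y) (B \ A) ≤ 2 * α * (B \ A).card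
  · have h1 := IH (contr G x y) (S.erase y) Z hcard ⟨hZS', M1, hM2⟩ hZ
    have h2 := Lkd.contr_lift hxy (notMem_erase y S) hyZ h1
    rw [insert_erase hy] at h2
    exact hn h2
  · push Not at hM2
    obtain ⟨A, B, ⟨hs, hZA, ho, hf⟩, hmin⟩ := exists_min2
      (fun A B : Finset V => Sep (contr G x y) (S.erase y) A B ∧ Z ⊆ A ∧
        (A ∩ B).card < Z.card ∧ 2 * α * (B \ A).card < rho (contr G x y) (S.erase y) (B \ A))
      (fun _ B => B.card) hM2
    have hU := hs.1
    have hN := hs.2
    have hyA : y ∉ A := fun h => by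
      have : y ∈ S.erase y := by rw [← hU]; exact mem_union_left _ h
      simp at this
    have hyB : y ∉ B := fun h => by
      have : y ∈ S.erase y := by rw [← hU]; exact mem_union_right _ h
      simp at this
    have hBS' : B ⊆ S.erase y := by rw [← hU]; exact subset_union_right
    have hBcard : B.card < S.card := lt_of_le_of_lt (card_le_card hBS') hcard
    by_cases hxB : x ∈ B
    swap
    · have hxA : x ∈ A := by
        rw [← hU] at hxS'
        exact (mem_union.1 hxS').resolve_right hxB
      exact claim2_case1 hm hx hy hxy hs hZA ho hf hxA hxB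
    by_cases hxA : x ∈ A
    · -- case 3
      have hsep : Sep G S (insert y A) (insert y B) := by
        refine ⟨?_, ?_⟩
        · rw [← insert_union_distrib, hU, insert_erase hy]
        · intro a ha b hb hab
          simp only [mem_sdiff, mem_insert, not_or] at ha hb
          obtain ⟨ha1, ha2, ha3⟩ := ha
          obtain ⟨hb1, hb2, hb3⟩ := hb
          exact hN a (mem_sdiff.2 ⟨ha1.resolve_left ha2, ha3⟩) b
            (mem_sdiff.2 ⟨hb1.resolve_left hb2, hb3⟩) (contr_of_adj hab)
      have hint : insert y A ∩ insert y B = insert y (A ∩ B) := (insert_inter_distrib _ _ _).symm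
      have hintc : (insert y A ∩ insert y B).card = (A ∩ B).card + 1 := by
        rw [hint, card_insert_of_notMem]
        exact fun h => hyA (mem_inter.1 h).1
      have hoZ : (insert y A ∩ insert y B).card ≤ Z.card := by omega
      have hdiff : insert y B \ insert y A = B \ A := by
        ext a
        simp only [mem_sdiff, mem_insert, not_or]
        constructor
        · rintro ⟨h, h', h''⟩; exact ⟨h.resolve_left h', h''⟩
        · rintro ⟨h, h'⟩; exact ⟨Or.inr h, fun hh => hyB (hh ▸ h), h'⟩
      have hdiff2 : insert y B \ (insert y A ∩ insert y B) = B \ A := by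
        rw [← hdiff]
        ext a; simp only [mem_sdiff, mem_inter]; tauto
      have hmass : Massed G (insert y B) (insert y A ∩ insert y B) α := by
        refine ⟨inter_subset_right, ?_, ?_⟩
        · rw [hdiff2]
          have h1 : rho (contr G x y) (S.erase y) (B \ A) ≤ rho (contr G x y) B (B \ A) :=
            rho_sep hs
          have h2 := rho_contr_le (G := G) (S := insert y B) (U := B \ A) (x := x) (y := y)
            (mem_insert_of_mem hxB) (mem_insert_self _ _) hxy
            (fun h => (mem_sdiff.1 h).2 hxA) (fun h => hyB (mem_sdiff.1 h).1)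
          rw [erase_insert hyB] at h2
          omega
        · intro A2 B2 h2 hK ho2
          obtain ⟨hs3, hi3, hd3⟩ := sep_comp hsep h2 hK
          have h4 := hm.2.2 _ _ hs3 (hZA.trans ((subset_insert _ _).trans subset_union_left))
            (by rw [hi3]; omega)
          rw [hd3] at h4
          have hBS : insert y B ⊆ S := by rw [← hsep.1]; exact subset_union_right
          have h5 : rho G (insert y B) (B2 \ A2) ≤ rho G S (B2 \ A2) :=
            rho_mono (fun _ _ _ _ _ h => h) hBS (Finset.Subset.refl _)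
          omega
      have hBS : insert y B ⊆ S := by rw [← hsep.1]; exact subset_union_right
      have hlt : (insert y B).card < S.card := by
        apply card_lt_card
        refine ⟨hBS, fun hSB => ?_⟩
        have hA : insert y A ⊆ insert y B := by
          refine Finset.Subset.trans ?_ hSB
          rw [← hsep.1]; exact subset_union_left
        have h1 : insert y A ∩ insert y B = insert y A := inter_eq_left.2 hA
        rw [h1] at hoZ
        have h2 : insert y Z ⊆ insert y A := insert_subset_insert _ hZA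
        have h3 := card_le_card h2
        rw [card_insert_of_notMem hyZ] at h3
        omega
      have hl := IH G (insert y B) _ hlt hmass (hoZ.trans hZ)
      refine hn (claim1 hZ hm IH hsep (hZA.trans (subset_insert _ _)) hoZ ?_ hl)
      rw [hdiff]
      rw [nonempty_iff_ne_empty]
      intro h
      rw [h, rho_empty'] at hf
      omega
    · -- case 2
      have hmass : Massed (contr G x y) B (A ∩ B) α :=
        massed_sub hs hZA ho hf (fun A2 B2 h1 h2 h3 h4 => hmin A2 B2 ⟨h1, h2, h3, h4⟩)
      have hl := IH (contr G x y) B (A ∩ B) hBcard hmass (by omega)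
      have hl2 := Lkd.contr_lift hxy hyB (fun h => hyA (mem_inter.1 h).1) hl
      have hint : A ∩ insert y B = A ∩ B := inter_insert_of_notMem hyA
      have hsep : Sep G S A (insert y B) := by
        refine ⟨?_, ?_⟩
        · rw [union_insert, hU, insert_erase hy]
        · intro a ha b hb hab
          simp only [mem_sdiff, mem_insert, not_or] at ha hb
          obtain ⟨ha1, ha2, ha3⟩ := ha
          obtain ⟨hb1, hb2⟩ := hb
          rcases hb1 with rfl | hb1
          · exact hN a (mem_sdiff.2 ⟨ha1, ha3⟩) x (mem_sdiff.2 ⟨hxB, hxA⟩)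
              ⟨fun h => hxA (h ▸ ha1), Or.inr (Or.inr ⟨rfl, hab.symm⟩)⟩
          · exact hN a (mem_sdiff.2 ⟨ha1, ha3⟩) b (mem_sdiff.2 ⟨hb1, hb2⟩) (contr_of_adj hab)
      refine hn (claim1 hZ hm IH hsep hZA (by rw [hint]; omega)
        ⟨y, mem_sdiff.2 ⟨mem_insert_self _ _, hyA⟩⟩ (by rw [hint]; exact hl2))

end Vale.Agent.P060
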