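import Mathlib
import Vale.Agent.P060.GoodDef
import Vale.Agent.P060.Link

/-!
# P060, row LH: the hub is linkable (from the linking theorem)
-/

namespace Vale.Agent.P060

open Finset

set_option linter.unusedSectionVars false

variable {V : Type} [Fintype V] [DecidableEq V]

namespace LinkHub

theorem degIn_mono (G : SimpleGraph V) {S T : Finset V} (h : S ⊆ T) (v : V) :
    degIn G S v ≤ degIn G T v := by
  classical
  unfold degIn
  exact Finset.card_le_card (Finset.filter_subset_filter _ h)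

theorem degIn_le_card (G : SimpleGraph V) (S : Finset V) (v : V) : degIn G S v ≤ S.card := by
  classical
  unfold degIn
  exact Finset.card_filter_le _ _

/-- lower bound for `rho`: sum of the degrees in `S` over `U ⊆ S`. -/
theorem le_rho (G : SimpleGraph V) {S U : Finset V} (hU : U ⊆ S) (d : ℕ)
    (h : ∀ v ∈ U, d ≤ degIn G S v) : U.card * d ≤ rho G S U := by
  classical
  have h1 : (U.sigma (fun v => S.filter (fun w => G.Adj v w))).card ≤
      ((S ×ˢ S).filter (fun e => G.Adj e.1 e.2 ∧ (e.1 ∈ U ∨ e.2 ∈ U))).card := by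
    apply Finset.card_le_card_of_injOn (fun e => (e.1, e.2))
    · rintro ⟨a, b⟩ hab
      have hab' := Finset.mem_sigma.1 (Finset.mem_coe.1 hab)
      have h2 := Finset.mem_filter.1 hab'.2
      refine Finset.mem_coe.2 (Finset.mem_filter.2 ⟨Finset.mem_product.2 ⟨hU hab'.1, h2.1⟩,
        h2.2, Or.inl hab'.1⟩)
    · rintro ⟨a, b⟩ _ ⟨c, d⟩ _ h
      simp only [Prod.mk.injEq] at h
      obtain ⟨rfl, rfl⟩ := h
      rfl
  have h2 : U.card * d ≤ (U.sigma (fun v => S.filter (fun w => G.Adj v w))).card := by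
    rw [Finset.card_sigma, ← smul_eq_mul]
    apply Finset.card_nsmul_le_sum
    intro v hv
    have h3 := h v hv
    unfold degIn at h3
    convert h3
  unfold rho
  convert h2.trans h1

/-- upper bound for `rho` of the small side of a separation. -/
theorem rho_le (G : SimpleGraph V) {S A B : Finset V} (h : Sep G S A B) :
    rho G S (B \ A) ≤ 2 * ((B \ A).card * B.card) := by
  classical
  have h1 : ((S ×ˢ S).filter (fun e => G.Adj e.1 e.2 ∧ (e.1 ∈ B \ A ∨ e.2 ∈ B \ A))) ⊆
      ((B \ A) ×ˢ B) ∪ (B ×ˢ (B \ A)) := by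
    rintro ⟨x, y⟩ hxy
    obtain ⟨h2, h3, h4⟩ := Finset.mem_filter.1 hxy
    obtain ⟨hx, hy⟩ := Finset.mem_product.1 h2
    simp only at hx hy h3 h4
    have key : ∀ a b : V, a ∈ S → b ∈ S → G.Adj a b → a ∈ B \ A → b ∈ B := by
      intro a b _ hb hab ha
      by_contra hbB
      rw [← h.1, Finset.mem_union] at hb
      have hbA : b ∈ A := by
        rcases hb with hb | hb
        · exact hb
        · exact absurd hb hbB
      exact h.2 b (Finset.mem_sdiff.2 ⟨hbA, hbB⟩) a ha hab.symm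
    rw [Finset.mem_union, Finset.mem_product, Finset.mem_product]
    rcases h4 with h4 | h4
    · exact Or.inl ⟨h4, key x y hx hy h3 h4⟩
    · exact Or.inr ⟨key y x hy hx h3.symm h4, h4⟩
  have h2 := (Finset.card_le_card h1).trans (Finset.card_union_le _ _)
  rw [Finset.card_product, Finset.card_product] at h2
  have h3 : rho G S (B \ A) =
      ((S ×ˢ S).filter (fun e => G.Adj e.1 e.2 ∧ (e.1 ∈ B \ A ∨ e.2 ∈ B \ A))).card := by
    unfold rho
    congr
  rw [h3]
  calc _ ≤ _ := h2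
    _ = _ := by ring

/-- The statement of the linking theorem (row L). -/
def LinkStatement (V : Type) [Fintype V] [DecidableEq V] : Prop :=
  ∀ (G : SimpleGraph V) (S Z : Finset V) (k α : ℕ), 1 ≤ k → 16 * k + 16 ≤ α →
    Z ⊆ S → Z.card ≤ 2 * k → 2 * α * (S \ Z).card < rho G S (S \ Z) →
    (∀ A B : Finset V, Sep G S A B → Z ⊆ A → (A ∩ B).card < Z.card →
      rho G S (B \ A) ≤ 2 * α * (B \ A).card) →
    ∀ (p : ℕ) (s t : Fin p → V), Function.Injective s → Function.Injective t →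
    (∀ i j, s i ≠ t j) → (∀ i, s i ∈ Z) → (∀ i, t i ∈ Z) →
    ∃ L : Fin p → Finset V, (∀ i, L i ⊆ S) ∧ (∀ i, Conn G (L i)) ∧
      (∀ i, L i ∩ Z = {s i, t i}) ∧ ∀ i j, i ≠ j → Disjoint (L i) (L j)

end LinkHub

open LinkHub in
theorem linkHub_of (hlink : LinkStatement V) (G : SimpleGraph V) (R X Y : Finset V) (u : ℕ)
    (hu : 1 ≤ u) (_hRX : Disjoint R X) (hX : X.card ≤ 2 * (10 ^ 7 * u)) (hY : Y ⊆ R ∪ X)
    (hR : R.Nonempty) (hg : Good G R u Y) : Linkable G Y (R ∩ Y) (4 * u) := by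
  intro p s t hp hs ht hst hsT htT
  rcases Nat.eq_zero_or_pos p with rfl | hp0
  · exact ⟨fun _ => ∅, fun i => i.elim0, fun i => i.elim0, fun i => i.elim0, fun i => i.elim0,
      fun i => i.elim0⟩
  set Z : Finset V := univ.image s ∪ univ.image t with hZdef
  have hZR : Z ⊆ R ∩ Y := by
    intro v hv
    rw [hZdef, Finset.mem_union] at hv
    rcases hv with hv | hv
    · obtain ⟨i, _, rfl⟩ := Finset.mem_image.1 hv; exact hsT i
    · obtain ⟨i, _, rfl⟩ := Finset.mem_image.1 hv; exact htT i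
  have hZY : Z ⊆ Y := hZR.trans Finset.inter_subset_right
  have hZc : Z.card = 2 * p := by
    rw [hZdef, Finset.card_union_of_disjoint, Finset.card_image_of_injective _ hs,
      Finset.card_image_of_injective _ ht, Finset.card_univ, Fintype.card_fin]
    · ring
    · rw [Finset.disjoint_left]
      intro v hv hv'
      obtain ⟨i, _, rfl⟩ := Finset.mem_image.1 hv
      obtain ⟨j, _, hj⟩ := Finset.mem_image.1 hv'
      exact hst i j hj.symm
  -- cardinalities
  obtain ⟨v₀, hv₀⟩ := hR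
  have hRY : 10 ^ 8 * u ≤ (R ∩ Y).card := (hg.1 v₀ hv₀).trans (degIn_le_card _ _ _)
  have ha : 10 ^ 8 * u ≤ ((R ∩ Y) \ Z).card + 4 * u := by
    have h1 := Finset.card_sdiff_add_card_inter (R ∩ Y) Z
    have h2 : ((R ∩ Y) ∩ Z).card ≤ Z.card := Finset.card_le_card Finset.inter_subset_right
    omega
  have hb : (Y \ Z).card ≤ ((R ∩ Y) \ Z).card + 2 * (10 ^ 7 * u) := by
    have h1 : Y \ Z ⊆ ((R ∩ Y) \ Z) ∪ X := by
      intro v hv
      obtain ⟨hvY, hvZ⟩ := Finset.mem_sdiff.1 hv
      rcases Finset.mem_union.1 (hY hvY) with h | h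
      · exact Finset.mem_union_left _ (Finset.mem_sdiff.2 ⟨Finset.mem_inter.2 ⟨h, hvY⟩, hvZ⟩)
      · exact Finset.mem_union_right _ h
    have h2 := (Finset.card_le_card h1).trans (Finset.card_union_le _ _)
    omega
  have hrho : ((R ∩ Y) \ Z).card * (10 ^ 8 * u) ≤ rho G Y (Y \ Z) := by
    have h1 : ((R ∩ Y) \ Z).card * (10 ^ 8 * u) ≤ rho G Y ((R ∩ Y) \ Z) := by
      apply le_rho G (Finset.sdiff_subset.trans Finset.inter_subset_right)
      intro v hv
      have hvR : v ∈ R := (Finset.mem_inter.1 (Finset.mem_sdiff.1 hv).1).1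
      exact (hg.1 v hvR).trans (degIn_mono G Finset.inter_subset_right v)
    refine h1.trans ?_
    classical
    unfold rho
    apply Finset.card_le_card
    intro e he
    obtain ⟨h2, h3, h4⟩ := Finset.mem_filter.1 he
    refine Finset.mem_filter.2 ⟨h2, h3, ?_⟩
    have h5 : (R ∩ Y) \ Z ⊆ Y \ Z :=
      Finset.sdiff_subset_sdiff Finset.inter_subset_right (Finset.Subset.refl _)
    exact h4.imp (fun h => h5 h) (fun h => h5 h)
  have M1 : 2 * (2 * (10 ^ 7 * u) + 4 * u) * (Y \ Z).card < rho G Y (Y \ Z) := by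
    refine lt_of_lt_of_le ?_ hrho
    set a := ((R ∩ Y) \ Z).card with hadef
    have h1 : 2 * (2 * (10 ^ 7 * u) + 4 * u) * (Y \ Z).card ≤
        2 * (2 * (10 ^ 7 * u) + 4 * u) * (a + 2 * (10 ^ 7 * u)) := Nat.mul_le_mul_left _ hb
    refine lt_of_le_of_lt h1 ?_
    obtain ⟨c, hc⟩ : ∃ c, a + 4 * u = 10 ^ 8 * u + c := ⟨a + 4 * u - 10 ^ 8 * u, by omega⟩
    have ha' : a = (10 ^ 8 - 4) * u + c := by omega
    rw [ha']
    norm_num
    nlinarith [Nat.mul_pos hu hu, Nat.zero_le (u * c)]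
  have M2 : ∀ A B : Finset V, Sep G Y A B → Z ⊆ A → (A ∩ B).card < Z.card →
      rho G Y (B \ A) ≤ 2 * (2 * (10 ^ 7 * u) + 4 * u) * (B \ A).card := by
    intro A B hAB hZA hc
    have h1 : (A ∩ B).card < 4 * u := by omega
    have h2 : R ∩ (B \ A) = ∅ := by
      rcases hg.2 A B hAB h1 with h | h
      · exfalso
        obtain ⟨z, hz, hz'⟩ : ∃ z ∈ Z, z ∉ A ∩ B := by
          by_contra hcon
          push Not at hcon
          exact absurd (Finset.card_le_card (fun z hz => hcon z hz)) (by omega)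
        have h3 : z ∈ R ∩ (A \ B) := by
          refine Finset.mem_inter.2 ⟨(Finset.mem_inter.1 (hZR hz)).1, Finset.mem_sdiff.2
            ⟨hZA hz, fun h4 => hz' (Finset.mem_inter.2 ⟨hZA hz, h4⟩)⟩⟩
        rw [h] at h3
        exact absurd h3 (Finset.notMem_empty z)
      · exact h
    have h3 : B \ A ⊆ X := by
      intro v hv
      have hvY : v ∈ Y := by
        rw [← hAB.1]
        exact Finset.mem_union_right _ (Finset.mem_sdiff.1 hv).1
      rcases Finset.mem_union.1 (hY hvY) with h | h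
      · have h4 : v ∈ R ∩ (B \ A) := Finset.mem_inter.2 ⟨h, hv⟩
        rw [h2] at h4
        exact absurd h4 (Finset.notMem_empty v)
      · exact h
    have h4 : B.card ≤ 2 * (10 ^ 7 * u) + 4 * u := by
      have h5 := Finset.card_sdiff_add_card_inter B A
      have h6 := Finset.card_le_card h3
      rw [Finset.inter_comm] at h5
      omega
    calc rho G Y (B \ A) ≤ 2 * ((B \ A).card * B.card) := rho_le G hAB
      _ ≤ 2 * ((B \ A).card * (2 * (10 ^ 7 * u) + 4 * u)) := by gcongr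
      _ = _ := by ring
  obtain ⟨L, hL1, hL2, hL3, hL4⟩ := hlink G Y Z (2 * u) (2 * (10 ^ 7 * u) + 4 * u) (by omega)
    (by omega) hZY (by omega) M1 M2 p s t hs ht hst
    (fun i => Finset.mem_union_left _ (Finset.mem_image_of_mem _ (Finset.mem_univ i)))
    (fun i => Finset.mem_union_right _ (Finset.mem_image_of_mem _ (Finset.mem_univ i)))
  refine ⟨L, hL1, hL2, fun i => ?_, fun i => ?_, hL4⟩
  · have : s i ∈ L i ∩ Z := by rw [hL3 i]; simp
    exact (Finset.mem_inter.1 this).1
  · have : t i ∈ L i ∩ Z := by rw [hL3 i]; simp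
    exact (Finset.mem_inter.1 this).1

/-- ROW LH (hub is linkable), from `link`. -/
theorem linkHub (G : SimpleGraph V) (R X Y : Finset V) (u : ℕ) (hu : 1 ≤ u) (hRX : Disjoint R X)
    (hX : X.card ≤ 2 * (10 ^ 7 * u)) (hY : Y ⊆ R ∪ X) (hR : R.Nonempty) (hg : Good G R u Y) :
    Linkable G Y (R ∩ Y) (4 * u) :=
  linkHub_of (fun G S Z k α hk hα hZS hZ M1 M2 p s t hs ht hst hsZ htZ =>
    link G S Z k α hk hα hZS hZ M1 M2 p s t hs ht hst hsZ htZ) G R X Y u hu hRX hX hY hR hg

end Vale.Agent.P060
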