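import Mathlib
import Vale.Agent.P060.Defs
import Vale.Agent.P044.Minimax

/-!
P060, row P: packing of hard sets or a fractional transversal (minimax + sampling).
-/

namespace Vale.Agent.P060

open Finset

namespace Pack

variable {V : Type} [Fintype V] [DecidableEq V]

omit [Fintype V] [DecidableEq V] in
/-- two coordinates of a product distribution -/
theorem two_coord {n : ℕ} (F : Finset (Finset V)) (μ : Finset V → ℝ)
    (hμ1 : ∑ W ∈ F, μ W = 1) (f g : Finset V → ℝ) (i j : Fin n) (hij : i ≠ j) :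
    ∑ ω ∈ Fintype.piFinset (fun _ : Fin n => F), (∏ k, μ (ω k)) * (f (ω i) * g (ω j)) =
      (∑ W ∈ F, μ W * f W) * (∑ W ∈ F, μ W * g W) := by
  classical
  let h : Fin n → Finset V → ℝ := fun k W =>
    μ W * ((if k = i then f W else 1) * (if k = j then g W else 1))
  have h1 : ∏ k, ∑ W ∈ F, h k W = (∑ W ∈ F, μ W * f W) * (∑ W ∈ F, μ W * g W) := by
    have : ∀ k, ∑ W ∈ F, h k W = (if k = i then (∑ W ∈ F, μ W * f W) else 1) *
        (if k = j then (∑ W ∈ F, μ W * g W) else 1) := by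
      intro k
      by_cases hki : k = i
      · have hkj : k ≠ j := by rw [hki]; exact hij
        simp [h, hki, hij]
      · by_cases hkj : k = j
        · simp [h, hkj, hij.symm]
        · simp [h, hki, hkj, hμ1]
    rw [Finset.prod_congr rfl (fun k _ => this k), Finset.prod_mul_distrib]
    simp
  rw [← h1, Finset.prod_univ_sum]
  refine Finset.sum_congr rfl fun ω _ => ?_
  simp only [h]
  rw [Finset.prod_mul_distrib, Finset.prod_mul_distrib]
  simp

omit [Fintype V] [DecidableEq V] in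
theorem total {n : ℕ} (F : Finset (Finset V)) (μ : Finset V → ℝ)
    (hμ1 : ∑ W ∈ F, μ W = 1) :
    ∑ ω ∈ Fintype.piFinset (fun _ : Fin n => F), (∏ k, μ (ω k)) = 1 := by
  have := (Finset.prod_univ_sum (fun _ : Fin n => F) (fun _ W => μ W)).symm
  rw [this]
  simp [hμ1]

/-- the pair expectation -/
theorem pair_le {n : ℕ} (F : Finset (Finset V)) (hne : ∀ W ∈ F, W.Nonempty)
    (μ : Finset V → ℝ) (hμ0 : ∀ W, 0 ≤ μ W) (hμ1 : ∑ W ∈ F, μ W = 1) (β : ℝ)
    (hb : ∀ v, ∑ W ∈ F, μ W * (if v ∈ W then 1 else 0) ≤ β) (i j : Fin n) (hij : i ≠ j) :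
    ∑ ω ∈ Fintype.piFinset (fun _ : Fin n => F), (∏ k, μ (ω k)) *
      (((ω i ∩ ω j).card : ℝ) / (ω i).card) ≤ β := by
  classical
  have h1 : ∀ ω : Fin n → Finset V, (((ω i ∩ ω j).card : ℝ) / (ω i).card) =
      ∑ v, ((if v ∈ ω i then (1 : ℝ) else 0) / (ω i).card) * (if v ∈ ω j then (1 : ℝ) else 0) := by
    intro ω
    have : ((ω i ∩ ω j).card : ℝ) = ∑ v, (if v ∈ ω i then (1 : ℝ) else 0) * (if v ∈ ω j then (1 : ℝ) else 0) := by
      have e : ∀ v, (if v ∈ ω i then (1 : ℝ) else 0) * (if v ∈ ω j then (1 : ℝ) else 0) =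
          if v ∈ ω i ∩ ω j then (1 : ℝ) else 0 := by
        intro v
        by_cases h1 : v ∈ ω i <;> by_cases h2 : v ∈ ω j <;> simp [h1, h2]
      simp only [e]
      obtain ⟨A, hA⟩ : ∃ A, A = ω i ∩ ω j := ⟨_, rfl⟩
      rw [← hA]
      simp
    rw [this, Finset.sum_div]
    refine Finset.sum_congr rfl fun v _ => by ring
  have h2 : ∑ ω ∈ Fintype.piFinset (fun _ : Fin n => F), (∏ k, μ (ω k)) *
      (((ω i ∩ ω j).card : ℝ) / (ω i).card) =
      ∑ v, (∑ W ∈ F, μ W * ((if v ∈ W then (1 : ℝ) else 0) / W.card)) *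
        (∑ W ∈ F, μ W * (if v ∈ W then (1 : ℝ) else 0)) := by
    simp_rw [h1, Finset.mul_sum]
    rw [Finset.sum_comm]
    refine Finset.sum_congr rfl fun v _ => ?_
    have := two_coord (n := n) F μ hμ1 (fun W => (if v ∈ W then (1 : ℝ) else 0) / W.card)
      (fun W => (if v ∈ W then (1 : ℝ) else 0)) i j hij
    rw [← Finset.mul_sum] 
    exact this
  rw [h2]
  have h3 : ∀ v, (∑ W ∈ F, μ W * ((if v ∈ W then (1 : ℝ) else 0) / W.card)) *
        (∑ W ∈ F, μ W * (if v ∈ W then (1 : ℝ) else 0)) ≤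
        (∑ W ∈ F, μ W * ((if v ∈ W then (1 : ℝ) else 0) / W.card)) * β := by
    intro v
    refine mul_le_mul_of_nonneg_left (hb v) ?_
    refine Finset.sum_nonneg fun W _ => mul_nonneg (hμ0 W) ?_
    split_ifs <;> positivity
  refine (Finset.sum_le_sum fun v _ => h3 v).trans ?_
  rw [← Finset.sum_mul, Finset.sum_comm]
  have h4 : ∑ W ∈ F, ∑ v, μ W * ((if v ∈ W then (1 : ℝ) else 0) / W.card) = 1 := by
    refine Eq.trans (Finset.sum_congr rfl fun W hW => ?_) hμ1
    rw [← Finset.mul_sum, ← Finset.sum_div]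
    have : (∑ v, (if v ∈ W then (1 : ℝ) else 0)) = W.card := by simp
    rw [this, div_self, mul_one]
    have := hne W hW
    exact_mod_cast this.card_pos.ne'
  rw [h4, one_mul]

/-- existence of a good sample -/
theorem exists_sample {n : ℕ} (F : Finset (Finset V)) (hne : ∀ W ∈ F, W.Nonempty)
    (μ : Finset V → ℝ) (hμ0 : ∀ W, 0 ≤ μ W) (hμ1 : ∑ W ∈ F, μ W = 1) (β : ℝ)
    (hb : ∀ v, ∑ W ∈ F, μ W * (if v ∈ W then 1 else 0) ≤ β) :
    ∃ ω : Fin n → Finset V, (∀ i, ω i ∈ F) ∧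
      ∑ i, ∑ j ∈ univ.erase i, (((ω i ∩ ω j).card : ℝ) / (ω i).card) ≤ n * ((n - 1 : ℕ) * β) := by
  classical
  by_contra hcon
  push Not at hcon
  set Ω := Fintype.piFinset (fun _ : Fin n => F) with hΩ
  set S : (Fin n → Finset V) → ℝ := fun ω =>
    ∑ i, ∑ j ∈ univ.erase i, (((ω i ∩ ω j).card : ℝ) / (ω i).card) with hS
  set B : ℝ := n * ((n - 1 : ℕ) * β) with hB
  have hw0 : ∀ ω : Fin n → Finset V, 0 ≤ ∏ k, μ (ω k) := fun ω => Finset.prod_nonneg fun k _ => hμ0 _
  have h1 : ∑ ω ∈ Ω, (∏ k, μ (ω k)) * S ω ≤ B := by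
    have : ∑ ω ∈ Ω, (∏ k, μ (ω k)) * S ω =
        ∑ i, ∑ j ∈ univ.erase i, ∑ ω ∈ Ω, (∏ k, μ (ω k)) * (((ω i ∩ ω j).card : ℝ) / (ω i).card) := by
      simp only [hS, Finset.mul_sum]
      rw [Finset.sum_comm]
      refine Finset.sum_congr rfl fun i _ => ?_
      rw [Finset.sum_comm]
    rw [this]
    calc _ ≤ ∑ i : Fin n, ∑ j ∈ univ.erase i, β := by
          refine Finset.sum_le_sum fun i _ => Finset.sum_le_sum fun j hj => ?_
          exact pair_le F hne μ hμ0 hμ1 β hb i j (Finset.ne_of_mem_erase hj).symm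
      _ = B := by
          simp [hB, Finset.card_erase_of_mem]
  have htot : ∑ ω ∈ Ω, (∏ k, μ (ω k)) = 1 := total F μ hμ1
  have h2 : ∃ ω ∈ Ω, 0 < ∏ k, μ (ω k) := by
    by_contra hc
    push Not at hc
    have : ∑ ω ∈ Ω, (∏ k, μ (ω k)) ≤ 0 := Finset.sum_nonpos hc
    rw [htot] at this
    exact absurd this (by norm_num)
  obtain ⟨ω₀, hω₀, hpos⟩ := h2
  have h3 : ∑ ω ∈ Ω, (∏ k, μ (ω k)) * B < ∑ ω ∈ Ω, (∏ k, μ (ω k)) * S ω := by
    refine Finset.sum_lt_sum (fun ω hω => ?_) ⟨ω₀, hω₀, ?_⟩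
    · refine mul_le_mul_of_nonneg_left (le_of_lt (hcon ω ?_)) (hw0 ω)
      intro i; exact Fintype.mem_piFinset.mp hω i
    · refine mul_lt_mul_of_pos_left (hcon ω₀ ?_) hpos
      intro i; exact Fintype.mem_piFinset.mp hω₀ i
  rw [← Finset.sum_mul, htot, one_mul] at h3
  exact absurd (h3.trans_le h1) (lt_irrefl _)

/-- minimax step -/
theorem exists_mu (F : Finset (Finset V)) (γ ε : ℝ) (hε : 0 < ε)
    (h : ∀ w : V → ℝ, (∀ v, 0 ≤ w v) → ∃ W ∈ F, ∑ v ∈ W, w v ≤ (∑ v, w v) * γ) :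
    ∃ μ : Finset V → ℝ, (∀ W, 0 ≤ μ W) ∧ ∑ W ∈ F, μ W = 1 ∧
      ∀ v, ∑ W ∈ F, μ W * (if v ∈ W then 1 else 0) ≤ γ + ε := by
  classical
  set P : Set (V → ℝ) := {x | ∃ μ : Finset V → ℝ, (∀ W, 0 ≤ μ W) ∧ ∑ W ∈ F, μ W = 1 ∧
    ∀ v, x v = γ - ∑ W ∈ F, μ W * (if v ∈ W then 1 else 0)} with hP
  have hconv : Convex ℝ P := by
    rintro x ⟨μ, h0, h1, hx⟩ y ⟨ν, k0, k1, hy⟩ a b ha hb hab
    refine ⟨fun W => a * μ W + b * ν W, fun W => ?_, ?_, fun v => ?_⟩
    · have := h0 W; have := k0 W; positivity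
    · rw [Finset.sum_add_distrib, ← Finset.mul_sum, ← Finset.mul_sum, h1, k1]; linarith
    · have e : ∑ W ∈ F, (a * μ W + b * ν W) * (if v ∈ W then (1 : ℝ) else 0) =
          a * (∑ W ∈ F, μ W * (if v ∈ W then 1 else 0)) +
          b * (∑ W ∈ F, ν W * (if v ∈ W then 1 else 0)) := by
        rw [Finset.mul_sum, Finset.mul_sum, ← Finset.sum_add_distrib]
        exact Finset.sum_congr rfl fun W _ => by ring
      simp only [Pi.add_apply, Pi.smul_apply, smul_eq_mul, hx v, hy v]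
      rw [e]
      have : γ = (a + b) * γ := by rw [hab, one_mul]
      linear_combination (-1) * this
  obtain ⟨x, ⟨μ, h0, h1, hx⟩, hx2⟩ := P044.minimax_sep P hconv (by
    intro w hw
    obtain ⟨W, hWF, hW⟩ := h w hw
    refine ⟨fun v => γ - ∑ W' ∈ F, (if W' = W then (1 : ℝ) else 0) * (if v ∈ W' then 1 else 0),
      ⟨fun W' => if W' = W then 1 else 0, fun W' => by
        show (0 : ℝ) ≤ (if W' = W then 1 else 0)
        split_ifs <;> norm_num, ?_, fun v => rfl⟩, ?_⟩
    · simp [hWF]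
    · have e : ∀ v, ∑ W' ∈ F, (if W' = W then (1 : ℝ) else 0) * (if v ∈ W' then 1 else 0) =
          if v ∈ W then 1 else 0 := by
        intro v
        rw [Finset.sum_eq_single W (fun b _ hb => by simp [hb]) (fun h => absurd hWF h)]
        simp
      simp only [e]
      have e2 : ∑ v, w v * (γ - if v ∈ W then (1 : ℝ) else 0) =
          (∑ v, w v) * γ - ∑ v ∈ W, w v := by
        simp only [mul_sub, Finset.sum_sub_distrib, ← Finset.sum_mul]
        simp
      rw [e2]; linarith) hε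
  refine ⟨μ, h0, h1, fun v => ?_⟩
  have := hx2 v
  rw [hx v] at this
  linarith

end Pack

variable {V : Type} [Fintype V] [DecidableEq V]

/-- ROW P (packing / minimax). -/
theorem pack (G : SimpleGraph V) (W₀ : Finset V) (a q : ℕ) (hq : 1 ≤ q)
    (hno : ¬ ∃ W : Fin q → Finset V, (∀ i, W i ⊆ W₀) ∧ (∀ i j, i ≠ j → Disjoint (W i) (W j)) ∧
      ∀ i, Hard G a (W i)) :
    ∃ z : V → ℝ, (∀ v, 0 ≤ z v) ∧ ∑ v ∈ W₀, z v ≤ 6 * q ∧
      ∀ U ⊆ W₀, ∑ v ∈ U, z v < 1 → ∃ I ⊆ U, Indep G I ∧ U.card ≤ 4 * a * I.card := by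
  classical
  set F : Finset (Finset V) := W₀.powerset.filter (fun W => Hard G (4 * a) W) with hFdef
  have hmemF : ∀ W, W ∈ F ↔ W ⊆ W₀ ∧ Hard G (4 * a) W := by
    intro W; simp [hFdef]
  have hnotF : ∀ U ⊆ W₀, U ∉ F → ∃ I ⊆ U, Indep G I ∧ U.card ≤ 4 * a * I.card := by
    intro U hU hUF
    have : ¬ Hard G (4 * a) U := fun h => hUF ((hmemF U).2 ⟨hU, h⟩)
    unfold Hard at this
    push Not at this
    exact this
  have hne : ∀ W ∈ F, W.Nonempty := by
    intro W hW
    have := ((hmemF W).1 hW).2 ∅ (empty_subset _) (by intro x hx; simp at hx)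
    rw [← Finset.card_pos]
    simpa using lt_of_le_of_lt (Nat.zero_le _) this
  have hq0 : (0 : ℝ) < q := by exact_mod_cast hq
  by_cases hw : ∃ w : V → ℝ, (∀ v, 0 ≤ w v) ∧ ∀ W ∈ F, (∑ v, w v) * (1 / (6 * q)) < ∑ v ∈ W, w v
  · obtain ⟨w, hw0, hw1⟩ := hw
    rcases (Finset.sum_nonneg fun v _ => hw0 v : 0 ≤ ∑ v, w v).eq_or_lt with hs | hs
    · refine ⟨fun _ => 0, fun _ => le_rfl, by simp, fun U hU _ => hnotF U hU fun hUF => ?_⟩
      have h1 := hw1 U hUF
      have h2 : ∑ v ∈ U, w v ≤ ∑ v, w v :=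
        Finset.sum_le_sum_of_subset_of_nonneg (subset_univ _) fun v _ _ => hw0 v
      rw [← hs] at h1 h2
      simp at h1
      exact absurd (h1.trans_le h2) (lt_irrefl _)
    · set s := ∑ v, w v with hsdef
      refine ⟨fun v => 6 * q / s * w v, fun v => ?_, ?_, fun U hU hU1 => hnotF U hU fun hUF => ?_⟩
      · have := hw0 v; positivity
      · rw [← Finset.mul_sum]
        have h2 : ∑ v ∈ W₀, w v ≤ s :=
          Finset.sum_le_sum_of_subset_of_nonneg (subset_univ _) fun v _ _ => hw0 v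
        calc 6 * q / s * ∑ v ∈ W₀, w v ≤ 6 * q / s * s :=
              mul_le_mul_of_nonneg_left h2 (by positivity)
          _ = 6 * q := by field_simp
      · have h1 := hw1 U hUF
        rw [← Finset.mul_sum] at hU1
        have : 6 * q / s * (s * (1 / (6 * q))) < 6 * q / s * ∑ v ∈ U, w v :=
          mul_lt_mul_of_pos_left h1 (by positivity)
        have e : 6 * (q : ℝ) / s * (s * (1 / (6 * q))) = 1 := by field_simp
        rw [e] at this
        linarith
  · exfalso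
    push Not at hw
    set ε : ℝ := 1 / (18 * q ^ 2) with hε
    have hεpos : 0 < ε := by positivity
    obtain ⟨μ, hμ0, hμ1, hμ2⟩ := Pack.exists_mu F (1 / (6 * q)) ε hεpos hw
    obtain ⟨ω, hωF, hω⟩ := Pack.exists_sample (n := 3 * q) F hne μ hμ0 hμ1 _ hμ2
    -- the total is at most 3q/2
    have htot : ∑ i, ∑ j ∈ univ.erase i, (((ω i ∩ ω j).card : ℝ) / (ω i).card) ≤ 3 * q / 2 := by
      refine hω.trans ?_
      have h1 : ((3 * q - 1 : ℕ) : ℝ) = 3 * q - 1 := by
        rw [Nat.cast_sub (by omega)]; push_cast; ring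
      rw [h1]
      push_cast
      have h2 : (3 * (q : ℝ)) * ((3 * q - 1) * (1 / (6 * q) + ε)) = 3 * q / 2 - 1 / (6 * q) := by
        rw [hε]; field_simp; ring
      rw [h2]
      have : (0 : ℝ) < 1 / (6 * q) := by positivity
      linarith
    set W' : Fin (3 * q) → Finset V := fun i => ω i \ (univ.erase i).biUnion ω with hW'
    set good : Finset (Fin (3 * q)) := univ.filter fun i => (ω i).card ≤ 4 * (W' i).card with hgood
    have hr0 : ∀ i, 0 ≤ ∑ j ∈ univ.erase i, (((ω i ∩ ω j).card : ℝ) / (ω i).card) :=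
      fun i => Finset.sum_nonneg fun j _ => by positivity
    have hbad : ∀ i, i ∉ good → 3 / 4 < ∑ j ∈ univ.erase i, (((ω i ∩ ω j).card : ℝ) / (ω i).card) := by
      intro i hi
      have hi' : 4 * (W' i).card < (ω i).card := by simpa [hgood] using hi
      rw [← Finset.sum_div]
      have hc0 : (0 : ℝ) < (ω i).card := by exact_mod_cast (hne _ (hωF i)).card_pos
      rw [lt_div_iff₀ hc0]
      have h1 : (ω i).card ≤ (W' i).card + ∑ j ∈ univ.erase i, (ω i ∩ ω j).card := by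
        have h2 : ω i ⊆ W' i ∪ (univ.erase i).biUnion (fun j => ω i ∩ ω j) := by
          intro v hv
          by_cases hv2 : v ∈ (univ.erase i).biUnion ω
          · rw [Finset.mem_biUnion] at hv2
            obtain ⟨j, hj, hvj⟩ := hv2
            exact mem_union_right _ (mem_biUnion.2 ⟨j, hj, mem_inter.2 ⟨hv, hvj⟩⟩)
          · exact mem_union_left _ (mem_sdiff.2 ⟨hv, hv2⟩)
        exact (card_le_card h2).trans ((card_union_le _ _).trans
          (Nat.add_le_add_left card_biUnion_le _))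
      have h1' : ((ω i).card : ℝ) ≤ (W' i).card + ∑ j ∈ univ.erase i, ((ω i ∩ ω j).card : ℝ) := by
        exact_mod_cast h1
      have hi'' : 4 * ((W' i).card : ℝ) < (ω i).card := by exact_mod_cast hi'
      linarith
    have hcard : q ≤ good.card := by
      by_contra hlt
      push Not at hlt
      have hbc : 2 * q ≤ (univ \ good).card := by
        have := Finset.card_sdiff_add_card_eq_card (subset_univ good)
        rw [Finset.card_univ, Fintype.card_fin] at this
        omega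
      have h1 : ∑ i ∈ univ \ good, (3 / 4 : ℝ) <
          ∑ i ∈ univ \ good, ∑ j ∈ univ.erase i, (((ω i ∩ ω j).card : ℝ) / (ω i).card) := by
        refine Finset.sum_lt_sum_of_nonempty ?_ fun i hi => hbad i (mem_sdiff.1 hi).2
        rw [← Finset.card_pos]; omega
      have h2 : ∑ i ∈ univ \ good, ∑ j ∈ univ.erase i, (((ω i ∩ ω j).card : ℝ) / (ω i).card) ≤
          ∑ i, ∑ j ∈ univ.erase i, (((ω i ∩ ω j).card : ℝ) / (ω i).card) :=
        Finset.sum_le_sum_of_subset_of_nonneg (subset_univ _) fun i _ _ => hr0 i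
      rw [Finset.sum_const, nsmul_eq_mul] at h1
      have h3 : (2 * (q : ℝ)) ≤ ((univ \ good).card : ℝ) := by exact_mod_cast hbc
      linarith
    obtain ⟨g, hg1, hg2⟩ := Finset.exists_subset_card_eq hcard
    let e := (g.orderEmbOfFin hg2)
    refine hno ⟨fun k => W' (e k), fun k => ?_, fun k l hkl => ?_, fun k => ?_⟩
    · exact sdiff_subset.trans ((hmemF _).1 (hωF _)).1
    · have hne' : e k ≠ e l := fun h => hkl (e.injective h)
      rw [Finset.disjoint_left]
      intro v hv1 hv2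
      have h1 := (mem_sdiff.1 hv1).1
      have h2 := (mem_sdiff.1 hv2).2
      exact h2 (mem_biUnion.2 ⟨e k, mem_erase.2 ⟨hne', mem_univ _⟩, h1⟩)
    · intro I hI hI2
      have hk : e k ∈ good := hg1 (by
        have := g.orderEmbOfFin_mem hg2 k
        exact this)
      have hk2 : (ω (e k)).card ≤ 4 * (W' (e k)).card := (mem_filter.1 hk).2
      have h1 := ((hmemF _).1 (hωF (e k))).2 I (hI.trans sdiff_subset) hI2
      have h3 : 4 * (a * I.card) < 4 * (W' (e k)).card := by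
        calc 4 * (a * I.card) = 4 * a * I.card := by ring
          _ < (ω (e k)).card := h1
          _ ≤ _ := hk2
      exact lt_of_mul_lt_mul_left h3 (by norm_num)

end Vale.Agent.P060
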