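import Mathlib
import Vale.Agent.P060.Defs

/-!
P060, rows S1, S2, S3: common definitions for the random sample.
`ω : V → Fin 8` uniform (counting measure on all of `V → Fin 8`).
`lev N ω c` = vertices of `N` with label `< c`: `D = lev N ω 1`, `Y2 = lev N ω 2`, `Y = lev N ω 4`.
-/

namespace Vale.Agent.P060

open Finset

variable {V : Type} [Fintype V] [DecidableEq V]

/-- vertices of `N` whose label is `< c` -/
def lev (N : Finset V) (ω : V → Fin 8) (c : ℕ) : Finset V := N.filter (fun v => (ω v).val < c)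

/-- S1 event: every vertex of `R` has at least `10^9 u / 16` neighbours in `D ∩ R`. -/
def DenseAt (G : SimpleGraph V) (R X : Finset V) (u : ℕ) (ω : V → Fin 8) : Prop :=
  ∀ v ∈ R, 10 ^ 9 * u ≤ 16 * degIn G (R ∩ lev (R ∪ X) ω 1) v

/-- S2 event: the vertices of `R ∩ Y2` all lie in one component of `G[Y2]` (no nontrivial cut). -/
def OneComp (G : SimpleGraph V) (R X : Finset V) (ω : V → Fin 8) : Prop :=
  ∀ P Q : Finset V, P ∪ Q = lev (R ∪ X) ω 2 → Disjoint P Q → NoEdge G P Q →
    R ∩ P = ∅ ∨ R ∩ Q = ∅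

end Vale.Agent.P060
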