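import Mathlib
import Vale.Agent.P060.Defs
import Vale.Agent.P060.SampleDefs

/-! P060, row S2, counting half. -/

namespace Vale.Agent.P060

open Finset

variable {V : Type} [Fintype V] [DecidableEq V]

/-- One block: if `S` is a set of labelings which is closed under changing the labels on `T`
to nonzero values, and all labels on `T` are nonzero, then at least a `7^{-|T|}` fraction of `S`
is identically `1` on `T`. -/
lemma block_count (S : Finset (V → Fin 8)) (T : Finset V)
    (hne : ∀ ω ∈ S, ∀ v ∈ T, ω v ≠ 0)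
    (hcl : ∀ ω ∈ S, ∀ ω' : V → Fin 8, (∀ v, v ∉ T → ω' v = ω v) → (∀ v ∈ T, ω' v ≠ 0) → ω' ∈ S) :
    S.card ≤ 7 ^ T.card * (S.filter (fun ω => ∀ v ∈ T, ω v = 1)).card := by
  classical
  have hinj : S.card ≤ ((Fintype.piFinset (fun v : V => if v ∈ T then
      (univ.filter (fun x : Fin 8 => x ≠ 0)) else {0})) ×ˢ
      (S.filter (fun ω => ∀ v ∈ T, ω v = 1))).card := by
    apply Finset.card_le_card_of_injOn
      (fun ω => ((fun v => if v ∈ T then ω v else 0), (fun v => if v ∈ T then 1 else ω v)))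
    · intro ω hω
      rw [mem_coe] at hω
      rw [mem_coe, mem_product, Fintype.mem_piFinset, mem_filter]
      refine ⟨fun v => ?_, hcl ω hω _ ?_ ?_, ?_⟩
      · by_cases hv : v ∈ T
        · simp only [hv, if_true, mem_filter, mem_univ, true_and]
          exact hne ω hω v hv
        · simp [hv]
      · intro v hv; simp [hv]
      · intro v hv; simp [hv]
      · intro v hv; simp [hv]
    · intro ω _ ω' _ h
      simp only [Prod.mk.injEq] at h
      funext v
      by_cases hv : v ∈ T
      · have := congrFun h.1 v; simpa [hv] using this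
      · have := congrFun h.2 v; simpa [hv] using this
  rw [card_product, Fintype.card_piFinset] at hinj
  have h7 : ∏ v : V, (if v ∈ T then (univ.filter (fun x : Fin 8 => x ≠ 0)) else {0}).card
      = 7 ^ T.card := by
    have : ∀ v : V, (if v ∈ T then (univ.filter (fun x : Fin 8 => x ≠ 0)) else {0}).card
        = if v ∈ T then 7 else 1 := by
      intro v
      by_cases hv : v ∈ T
      · simp only [hv, if_true]; decide
      · simp [hv]
    rw [Finset.prod_congr rfl (fun v _ => this v), Finset.prod_ite_mem, Finset.univ_inter,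
      Finset.prod_const]
  rw [h7] at hinj
  exact hinj

open Classical in
theorem no_connector_count (N D0 : Finset V) (M : ℕ) (T : Fin M → Finset V)
    (hTN : ∀ i, T i ⊆ N \ D0) (hdisj : ∀ i j, i ≠ j → Disjoint (T i) (T j))
    (hc : ∀ i, (T i).card ≤ 6) :
    (univ.filter (fun ω : V → Fin 8 => lev N ω 1 = D0 ∧ ∀ i, ∃ v ∈ T i, ω v ≠ 1)).card
      * (7 ^ 6) ^ M ≤
    (7 ^ 6 - 1) ^ M * (univ.filter (fun ω : V → Fin 8 => lev N ω 1 = D0)).card := by
  induction M with
  | zero =>
    simp
  | succ M ih =>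
    have ih' := ih (fun i => T i.castSucc) (fun i => hTN _)
      (fun i j hij => hdisj _ _ (fun h => hij (Fin.castSucc_injective M h))) (fun i => hc _)
    set S := univ.filter (fun ω : V → Fin 8 => lev N ω 1 = D0 ∧
      ∀ i : Fin M, ∃ v ∈ T i.castSucc, ω v ≠ 1) with hS
    set TL := T (Fin.last M) with hTL
    have h0 : ∀ ω : V → Fin 8, lev N ω 1 = D0 → ∀ v ∈ TL, ω v ≠ 0 := by
      intro ω hω v hv h0
      have h1 := hTN (Fin.last M) hv
      rw [mem_sdiff] at h1
      apply h1.2
      rw [← hω]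
      simp only [lev, mem_filter]
      refine ⟨h1.1, ?_⟩
      rw [h0]; simp
    have hblock : S.card ≤ 7 ^ TL.card * (S.filter (fun ω => ∀ v ∈ TL, ω v = 1)).card := by
      apply block_count
      · intro ω hω
        rw [hS, mem_filter] at hω
        exact h0 ω hω.2.1
      · intro ω hω ω' hag hnz
        rw [hS, mem_filter] at hω ⊢
        refine ⟨mem_univ _, ?_, ?_⟩
        · rw [← hω.2.1]
          ext v
          simp only [lev, mem_filter]
          by_cases hv : v ∈ TL
          · have e1 := hnz v hv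
            have e2 := h0 ω hω.2.1 v hv
            have e1' : ¬ (ω' v).val < 1 := by
              intro h; apply e1; apply Fin.ext; simp; omega
            have e2' : ¬ (ω v).val < 1 := by
              intro h; apply e2; apply Fin.ext; simp; omega
            tauto
          · rw [hag v hv]
        · intro i
          obtain ⟨v, hv, hne⟩ := hω.2.2 i
          refine ⟨v, hv, ?_⟩
          have hv' : v ∉ TL := by
            have hd := hdisj i.castSucc (Fin.last M) (Fin.castSucc_ne_last i)
            exact Finset.disjoint_left.1 hd hv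
          rw [hag v hv']; exact hne
    have hsub : univ.filter (fun ω : V → Fin 8 => lev N ω 1 = D0 ∧ ∀ i, ∃ v ∈ T i, ω v ≠ 1)
        = S.filter (fun ω => ¬ ∀ v ∈ TL, ω v = 1) := by
      ext ω
      simp only [hS, mem_filter, mem_univ, true_and]
      constructor
      · rintro ⟨h1, h2⟩
        refine ⟨⟨h1, fun i => h2 _⟩, ?_⟩
        obtain ⟨v, hv, hne⟩ := h2 (Fin.last M)
        intro h3; exact hne (h3 v hv)
      · rintro ⟨⟨h1, h2⟩, h3⟩
        refine ⟨h1, fun i => ?_⟩
        induction i using Fin.lastCases with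
        | last =>
          push Not at h3
          exact h3
        | cast i => exact h2 i
    rw [hsub]
    have hsplit := Finset.card_filter_add_card_filter_not (s := S) (fun ω => ∀ v ∈ TL, ω v = 1)
    set a := (S.filter (fun ω => ∀ v ∈ TL, ω v = 1)).card
    set b := (S.filter (fun ω => ¬ ∀ v ∈ TL, ω v = 1)).card
    have h7 : (7 : ℕ) ^ TL.card ≤ 7 ^ 6 := Nat.pow_le_pow_right (by norm_num) (hc _)
    have ha : S.card ≤ 7 ^ 6 * a := le_trans hblock (Nat.mul_le_mul_right _ h7)
    have hb : b * 7 ^ 6 ≤ (7 ^ 6 - 1) * S.card := by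
      have : b = S.card - a := by omega
      norm_num at ha ⊢
      omega
    calc b * (7 ^ 6) ^ (M + 1) = (b * 7 ^ 6) * (7 ^ 6) ^ M := by rw [pow_succ]; ring
      _ ≤ ((7 ^ 6 - 1) * S.card) * (7 ^ 6) ^ M := Nat.mul_le_mul_right _ hb
      _ = (7 ^ 6 - 1) * (S.card * (7 ^ 6) ^ M) := by ring
      _ ≤ (7 ^ 6 - 1) * ((7 ^ 6 - 1) ^ M *
          (univ.filter (fun ω : V → Fin 8 => lev N ω 1 = D0)).card) :=
          Nat.mul_le_mul_left _ ih'
      _ = (7 ^ 6 - 1) ^ (M + 1) *
          (univ.filter (fun ω : V → Fin 8 => lev N ω 1 = D0)).card := by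
          rw [pow_succ]; ring

/-- numeric: `(1 - 7^{-6})^{5*10^6 u} ≤ 2^{-40 u}` -/
lemma numeric_connector (u N : ℕ) (hN : 5000000 * u ≤ N) :
    (7 ^ 6 - 1) ^ N * 2 ^ (40 * u) ≤ (7 ^ 6) ^ N := by
  have h1 : (117648 : ℝ) ≤ 117649 * Real.exp (-(1 / 117649)) := by
    have := Real.add_one_le_exp (-(1 / 117649 : ℝ))
    linarith
  have h2 : (117648 : ℝ) ^ N ≤ 117649 ^ N * Real.exp (-(N / 117649)) := by
    calc (117648 : ℝ) ^ N ≤ (117649 * Real.exp (-(1 / 117649))) ^ N :=
          pow_le_pow_left₀ (by norm_num) h1 N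
      _ = 117649 ^ N * Real.exp (-(N / 117649)) := by
          rw [mul_pow, ← Real.exp_nat_mul]
          congr 2
          ring
  have h3 : (2 : ℝ) ^ (40 * u) ≤ Real.exp (N / 117649) := by
    have e1 : (2 : ℝ) ≤ Real.exp 1 := by
      have := Real.add_one_le_exp (1 : ℝ); linarith
    calc (2 : ℝ) ^ (40 * u) ≤ (Real.exp 1) ^ (40 * u) := pow_le_pow_left₀ (by norm_num) e1 _
      _ = Real.exp ((40 * u : ℕ) * 1) := by rw [← Real.exp_nat_mul]
      _ ≤ Real.exp (N / 117649) := by
          apply Real.exp_le_exp.2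
          rw [mul_one, le_div_iff₀ (by norm_num)]
          have : ((5000000 * u : ℕ) : ℝ) ≤ N := by exact_mod_cast hN
          push_cast at this ⊢
          nlinarith [Nat.cast_nonneg (α := ℝ) u]
  have h4 : ((7 ^ 6 - 1 : ℕ) : ℝ) ^ N * 2 ^ (40 * u) ≤ ((7 ^ 6 : ℕ) : ℝ) ^ N := by
    have e1 : ((7 ^ 6 - 1 : ℕ) : ℝ) = 117648 := by norm_num
    have e2 : ((7 ^ 6 : ℕ) : ℝ) = 117649 := by norm_num
    rw [e1, e2]
    calc (117648 : ℝ) ^ N * 2 ^ (40 * u)
        ≤ (117649 ^ N * Real.exp (-(N / 117649))) * Real.exp (N / 117649) :=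
          mul_le_mul h2 h3 (by positivity) (by positivity)
      _ = 117649 ^ N := by
          rw [mul_assoc, ← Real.exp_add]; simp
  exact_mod_cast h4

end Vale.Agent.P060
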