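import Mathlib
import Vale.Agent.P060.Defs
import Vale.Agent.P060.SampleDefs

/-! P060, row S1: density of a random set (moment generating function count). -/

namespace Vale.Agent.P060

open Finset

variable {V : Type} [Fintype V] [DecidableEq V]

/-- exact value of the weighted count -/
lemma sum_weight (T : Finset V) (C : Finset (Fin 8)) :
    (∑ ω : V → Fin 8, ∏ v : V, (if v ∈ T then (if ω v ∈ C then 1 else 2) else 1)) * 8 ^ T.card
      = (16 - C.card) ^ T.card * 8 ^ Fintype.card V := by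
  have h1 : (∑ ω : V → Fin 8, ∏ v : V, (if v ∈ T then (if ω v ∈ C then 1 else 2) else 1))
      = ∏ v : V, ∑ x : Fin 8, (if v ∈ T then (if x ∈ C then 1 else 2) else 1) := by
    rw [Finset.prod_univ_sum, Fintype.piFinset_univ]
  have hc : C.card ≤ 8 := by simpa using Finset.card_le_univ C
  have h2 : ∑ x : Fin 8, (if x ∈ C then 1 else 2) = 16 - C.card := by
    rw [Finset.sum_ite]
    simp only [Finset.sum_const, smul_eq_mul, mul_one]
    have e1 : (univ.filter (fun x : Fin 8 => x ∈ C)).card = C.card := by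
      congr 1; ext x; simp
    have e2 : (univ.filter (fun x : Fin 8 => x ∉ C)).card = 8 - C.card := by
      have := Finset.card_compl C
      rw [Fintype.card_fin] at this
      rw [← this]; congr 1; ext x; simp
    rw [e1, e2]; omega
  have h3 : ∀ v : V, ∑ x : Fin 8, (if v ∈ T then (if x ∈ C then 1 else 2) else 1)
      = if v ∈ T then (16 - C.card) else 8 := by
    intro v
    by_cases hv : v ∈ T
    · simp only [hv, if_true]; exact h2
    · simp [hv]
  rw [h1, Finset.prod_congr rfl (fun v _ => h3 v)]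
  have h4 : (8 : ℕ) ^ T.card = ∏ v : V, (if v ∈ T then 8 else 1) := by
    rw [Finset.prod_ite_mem, Finset.univ_inter, Finset.prod_const]
  have h5 : (16 - C.card) ^ T.card = ∏ v : V, (if v ∈ T then (16 - C.card) else 1) := by
    rw [Finset.prod_ite_mem, Finset.univ_inter, Finset.prod_const]
  have h6 : (8 : ℕ) ^ Fintype.card V = ∏ _v : V, 8 := by
    rw [Finset.prod_const, Finset.card_univ]
  rw [h4, h5, h6, ← Finset.prod_mul_distrib, ← Finset.prod_mul_distrib]
  refine Finset.prod_congr rfl (fun v _ => ?_)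
  by_cases hv : v ∈ T <;> simp [hv]

lemma tail_count (T : Finset V) (C : Finset (Fin 8)) (d : ℕ) :
    (univ.filter (fun ω : V → Fin 8 => (T.filter (fun v => ω v ∈ C)).card < d)).card * 16 ^ T.card
      ≤ 2 ^ d * ((16 - C.card) ^ T.card * 8 ^ Fintype.card V) := by
  set B := univ.filter (fun ω : V → Fin 8 => (T.filter (fun v => ω v ∈ C)).card < d) with hB
  have key : B.card * 2 ^ T.card ≤
      2 ^ d * ∑ ω : V → Fin 8, ∏ v : V, (if v ∈ T then (if ω v ∈ C then 1 else 2) else 1) := by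
    have h1 : ∀ ω ∈ B, 2 ^ T.card ≤
        2 ^ d * ∏ v : V, (if v ∈ T then (if ω v ∈ C then 1 else 2) else 1) := by
      intro ω hω
      have hd : (T.filter (fun v => ω v ∈ C)).card < d := by
        simpa [hB] using hω
      have e1 : ∏ v : V, (if v ∈ T then (if ω v ∈ C then 1 else 2) else 1)
          = 2 ^ (T.filter (fun v => ω v ∉ C)).card := by
        rw [Finset.prod_ite_mem, Finset.univ_inter, Finset.prod_ite]
        simp
      have e2 := Finset.card_filter_add_card_filter_not (s := T) (fun v => ω v ∈ C)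
      rw [e1, ← pow_add]
      apply Nat.pow_le_pow_right (by norm_num)
      omega
    calc B.card * 2 ^ T.card = ∑ _ω ∈ B, 2 ^ T.card := by rw [Finset.sum_const, smul_eq_mul]
      _ ≤ ∑ ω ∈ B, 2 ^ d * ∏ v : V, (if v ∈ T then (if ω v ∈ C then 1 else 2) else 1) :=
          Finset.sum_le_sum h1
      _ ≤ ∑ ω : V → Fin 8, 2 ^ d * ∏ v : V, (if v ∈ T then (if ω v ∈ C then 1 else 2) else 1) :=
          Finset.sum_le_sum_of_subset (Finset.subset_univ _)
      _ = _ := by rw [Finset.mul_sum]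
  have h16 : (16 : ℕ) ^ T.card = 2 ^ T.card * 8 ^ T.card := by
    rw [← mul_pow]; norm_num
  rw [h16, ← mul_assoc, ← sum_weight T C]
  calc B.card * 2 ^ T.card * 8 ^ T.card
      ≤ (2 ^ d * ∑ ω : V → Fin 8, ∏ v : V, (if v ∈ T then (if ω v ∈ C then 1 else 2) else 1))
        * 8 ^ T.card := Nat.mul_le_mul_right _ key
    _ = _ := by rw [mul_assoc]

lemma tail_count' (T : Finset V) (C : Finset (Fin 8)) (d j k : ℕ)
    (hj : (16 - C.card) ^ j * 2 ≤ 16 ^ j) (hk : j * k ≤ T.card) :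
    (univ.filter (fun ω : V → Fin 8 => (T.filter (fun v => ω v ∈ C)).card < d)).card * 2 ^ k
      ≤ 2 ^ d * 8 ^ Fintype.card V := by
  have h := tail_count T C d
  have h1 : (16 - C.card) ^ T.card * 2 ^ k ≤ 16 ^ T.card := by
    obtain ⟨r, hr⟩ := Nat.exists_eq_add_of_le hk
    rw [hr, pow_add, pow_add, pow_mul, pow_mul]
    calc ((16 - C.card) ^ j) ^ k * (16 - C.card) ^ r * 2 ^ k
        = ((16 - C.card) ^ j * 2) ^ k * (16 - C.card) ^ r := by rw [mul_pow]; ring
      _ ≤ (16 ^ j) ^ k * 16 ^ r :=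
          Nat.mul_le_mul (Nat.pow_le_pow_left hj k) (Nat.pow_le_pow_left (Nat.sub_le _ _) r)
  have hpos : 0 < (16 : ℕ) ^ T.card := by positivity
  refine Nat.le_of_mul_le_mul_right (c := 16 ^ T.card) ?_ hpos
  calc (univ.filter (fun ω : V → Fin 8 => (T.filter (fun v => ω v ∈ C)).card < d)).card * 2 ^ k
        * 16 ^ T.card
      = ((univ.filter (fun ω : V → Fin 8 => (T.filter (fun v => ω v ∈ C)).card < d)).card
        * 16 ^ T.card) * 2 ^ k := by ring
    _ ≤ (2 ^ d * ((16 - C.card) ^ T.card * 8 ^ Fintype.card V)) * 2 ^ k := Nat.mul_le_mul_right _ h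
    _ = 2 ^ d * 8 ^ Fintype.card V * ((16 - C.card) ^ T.card * 2 ^ k) := by ring
    _ ≤ 2 ^ d * 8 ^ Fintype.card V * 16 ^ T.card := Nat.mul_le_mul_left _ h1

open Classical in
/-- union bound over `R` -/
lemma count_deg (G : SimpleGraph V) (R : Finset V) (u : ℕ) (hn : R.card ≤ u ^ 2)
    (C : Finset (Fin 8)) (j k d e N : ℕ) (hdeg : ∀ v ∈ R, N ≤ degIn G R v)
    (hj : (16 - C.card) ^ j * 2 ≤ 16 ^ j) (hk : j * k ≤ N) (he : d + e + 2 * u ≤ k) :
    2 ^ e * (univ.filter (fun ω : V → Fin 8 =>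
      ∃ v ∈ R, ((R.filter (fun w => G.Adj v w)).filter (fun w => ω w ∈ C)).card < d)).card
      ≤ 8 ^ Fintype.card V := by
  set B := univ.filter (fun ω : V → Fin 8 =>
      ∃ v ∈ R, ((R.filter (fun w => G.Adj v w)).filter (fun w => ω w ∈ C)).card < d) with hB
  have h1 : B ⊆ R.biUnion (fun v => univ.filter (fun ω : V → Fin 8 =>
      ((R.filter (fun w => G.Adj v w)).filter (fun w => ω w ∈ C)).card < d)) := by
    intro ω hω
    simpa [hB] using hω
  have h2 : B.card ≤ ∑ v ∈ R, (univ.filter (fun ω : V → Fin 8 =>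
      ((R.filter (fun w => G.Adj v w)).filter (fun w => ω w ∈ C)).card < d)).card :=
    le_trans (Finset.card_le_card h1) Finset.card_biUnion_le
  have h3 : ∀ v ∈ R, (univ.filter (fun ω : V → Fin 8 =>
      ((R.filter (fun w => G.Adj v w)).filter (fun w => ω w ∈ C)).card < d)).card * 2 ^ k
      ≤ 2 ^ d * 8 ^ Fintype.card V := by
    intro v hv
    apply tail_count' _ C d j k hj
    have := hdeg v hv
    unfold degIn at this
    omega
  have h4 : B.card * 2 ^ k ≤ R.card * (2 ^ d * 8 ^ Fintype.card V) := by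
    calc B.card * 2 ^ k ≤ (∑ v ∈ R, (univ.filter (fun ω : V → Fin 8 =>
          ((R.filter (fun w => G.Adj v w)).filter (fun w => ω w ∈ C)).card < d)).card) * 2 ^ k :=
          Nat.mul_le_mul_right _ h2
      _ = ∑ v ∈ R, (univ.filter (fun ω : V → Fin 8 =>
          ((R.filter (fun w => G.Adj v w)).filter (fun w => ω w ∈ C)).card < d)).card * 2 ^ k := by
          rw [Finset.sum_mul]
      _ ≤ ∑ _v ∈ R, 2 ^ d * 8 ^ Fintype.card V := Finset.sum_le_sum h3
      _ = _ := by rw [Finset.sum_const, smul_eq_mul]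
  have h5 : R.card ≤ 2 ^ (2 * u) := by
    have : u ≤ 2 ^ u := Nat.lt_two_pow_self.le
    calc R.card ≤ u ^ 2 := hn
      _ ≤ (2 ^ u) ^ 2 := Nat.pow_le_pow_left this 2
      _ = 2 ^ (2 * u) := by rw [← pow_mul, mul_comm]
  have hpos : 0 < (2 : ℕ) ^ (d + 2 * u) := by positivity
  refine Nat.le_of_mul_le_mul_right (c := 2 ^ (d + 2 * u)) ?_ hpos
  calc 2 ^ e * B.card * 2 ^ (d + 2 * u) = B.card * 2 ^ (d + e + 2 * u) := by ring
    _ ≤ B.card * 2 ^ k := Nat.mul_le_mul_left _ (Nat.pow_le_pow_right (by norm_num) he)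
    _ ≤ R.card * (2 ^ d * 8 ^ Fintype.card V) := h4
    _ ≤ 2 ^ (2 * u) * (2 ^ d * 8 ^ Fintype.card V) := Nat.mul_le_mul_right _ h5
    _ = 8 ^ Fintype.card V * 2 ^ (d + 2 * u) := by ring

omit [Fintype V] in
open Classical in
/-- `degIn` inside a level set -/
lemma degIn_lev (G : SimpleGraph V) (R X : Finset V) (ω : V → Fin 8) (c : ℕ) (v : V) :
    degIn G (R ∩ lev (R ∪ X) ω c) v = ((R.filter (fun w => G.Adj v w)).filter
      (fun w => ω w ∈ univ.filter (fun x : Fin 8 => x.val < c))).card := by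
  unfold degIn lev
  congr 1
  ext w
  simp only [mem_filter, mem_inter, mem_union, mem_univ, true_and]
  tauto

omit [Fintype V] in
open Classical in
lemma degIn_lev_compl (G : SimpleGraph V) (R X : Finset V) (ω : V → Fin 8) (c : ℕ) (v : V) :
    degIn G (R ∩ ((R ∪ X) \ lev (R ∪ X) ω c)) v = ((R.filter (fun w => G.Adj v w)).filter
      (fun w => ω w ∈ univ.filter (fun x : Fin 8 => ¬ x.val < c))).card := by
  unfold degIn lev
  congr 1
  ext w
  simp only [mem_filter, mem_inter, mem_union, mem_univ, true_and, mem_sdiff]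
  tauto

open Classical in
/-- ROW S1 -/
theorem dense_count (G : SimpleGraph V) (R X : Finset V) (u : ℕ) (hn : R.card ≤ u ^ 2)
    (hdeg : ∀ v ∈ R, 10 ^ 9 * u ≤ degIn G R v) :
    2 ^ (60 * u) * (univ.filter (fun ω : V → Fin 8 => ¬ DenseAt G R X u ω)).card
      ≤ 8 ^ Fintype.card V := by
  have h := count_deg G R u hn (univ.filter (fun x : Fin 8 => x.val < 1)) 11 (90000000 * u)
    (62500000 * u) (60 * u) (10 ^ 9 * u) hdeg (by decide) (by omega) (by omega)
  refine le_trans (Nat.mul_le_mul_left _ (Finset.card_le_card ?_)) h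
  intro ω hω
  simp only [mem_filter, mem_univ, true_and, DenseAt, not_forall] at hω ⊢
  obtain ⟨v, hv, hlt⟩ := hω
  refine ⟨v, hv, ?_⟩
  rw [degIn_lev] at hlt
  simp only [mem_filter, mem_univ, true_and] at hlt ⊢
  omega

open Classical in
theorem degY_count (G : SimpleGraph V) (R X : Finset V) (u : ℕ) (hn : R.card ≤ u ^ 2)
    (hdeg : ∀ v ∈ R, 10 ^ 9 * u ≤ degIn G R v) :
    2 ^ (60 * u) * (univ.filter (fun ω : V → Fin 8 =>
      ¬ ∀ v ∈ R, 10 ^ 8 * u ≤ degIn G (R ∩ lev (R ∪ X) ω 4) v)).card ≤ 8 ^ Fintype.card V := by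
  have h := count_deg G R u hn (univ.filter (fun x : Fin 8 => x.val < 4)) 3 (300000000 * u)
    (100000000 * u) (60 * u) (10 ^ 9 * u) hdeg (by decide) (by omega) (by omega)
  refine le_trans (Nat.mul_le_mul_left _ (Finset.card_le_card ?_)) h
  intro ω hω
  simp only [mem_filter, mem_univ, true_and, not_forall] at hω ⊢
  obtain ⟨v, hv, hlt⟩ := hω
  refine ⟨v, hv, ?_⟩
  rw [degIn_lev] at hlt
  simp only [mem_filter, mem_univ, true_and] at hlt ⊢
  omega

open Classical in
theorem degYc_count (G : SimpleGraph V) (R X : Finset V) (u : ℕ) (hn : R.card ≤ u ^ 2)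
    (hdeg : ∀ v ∈ R, 10 ^ 9 * u ≤ degIn G R v) :
    2 ^ (60 * u) * (univ.filter (fun ω : V → Fin 8 =>
      ¬ ∀ v ∈ R, 10 ^ 8 * u ≤ degIn G (R ∩ ((R ∪ X) \ lev (R ∪ X) ω 4)) v)).card
      ≤ 8 ^ Fintype.card V := by
  have h := count_deg G R u hn (univ.filter (fun x : Fin 8 => ¬ x.val < 4)) 3 (300000000 * u)
    (100000000 * u) (60 * u) (10 ^ 9 * u) hdeg (by decide) (by omega) (by omega)
  refine le_trans (Nat.mul_le_mul_left _ (Finset.card_le_card ?_)) h
  intro ω hω
  simp only [mem_filter, mem_univ, true_and, not_forall] at hω ⊢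
  obtain ⟨v, hv, hlt⟩ := hω
  refine ⟨v, hv, ?_⟩
  rw [degIn_lev_compl] at hlt
  simp only [mem_filter, mem_univ, true_and] at hlt ⊢
  omega

end Vale.Agent.P060
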