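import Mathlib
import Vale.Agent.P060.Defs
import Vale.Agent.P060.GoodDef
import Vale.Agent.P060.SampleDefs
import Vale.Agent.P060.SampleDense

/-! P060, row S3: the two-colour trick and the union bound. -/

namespace Vale.Agent.P060

open Finset

variable {V : Type} [Fintype V] [DecidableEq V]

/-- bad hub: a separation of small order with `R`-vertices on both sides -/
def BadHub (G : SimpleGraph V) (R : Finset V) (u : ℕ) (Y : Finset V) : Prop :=
  ∃ A B : Finset V, Sep G Y A B ∧ (A ∩ B).card < 4 * u ∧ (R ∩ (A \ B)).Nonempty ∧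
    (R ∩ (B \ A)).Nonempty

open Classical in
/-- for a fixed bad pattern `Y₀` -/
lemma bad_fiber (G : SimpleGraph V) (R X : Finset V) (u : ℕ) (Y₀ : Finset V)
    (hY : Y₀ ⊆ R ∪ X) (hb : BadHub G R u Y₀) :
    (univ.filter (fun ω : V → Fin 8 => lev (R ∪ X) ω 4 = Y₀)).card ≤
      2 ^ (4 * u + 1) * (univ.filter (fun ω : V → Fin 8 =>
        ¬ OneComp G R X ω ∧ lev (R ∪ X) ω 4 = Y₀)).card := by
  obtain ⟨A, B, hsep, hord, ⟨a, ha⟩, ⟨b, hb'⟩⟩ := hb
  obtain ⟨hAB, hno⟩ := hsep
  simp only [mem_inter, mem_sdiff] at ha hb'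
  obtain ⟨haR, haA, haB⟩ := ha
  obtain ⟨hbR, hbB, hbA⟩ := hb'
  set N := R ∪ X with hN
  set K : Finset V := insert a (insert b (A ∩ B)) with hK
  have hKcard : K.card ≤ 4 * u + 1 := by
    have h1 := Finset.card_insert_le a (insert b (A ∩ B))
    have h2 := Finset.card_insert_le b (A ∩ B)
    rw [hK]
    omega
  have hKY : K ⊆ Y₀ := by
    intro v hv
    rw [hK, mem_insert, mem_insert, mem_inter] at hv
    rw [← hAB, mem_union]
    rcases hv with rfl | rfl | h
    · exact Or.inl haA
    · exact Or.inr hbB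
    · exact Or.inl h.1
  let t : V → Finset (Fin 8) := fun v =>
    if v ∈ N then (if v ∈ Y₀ then univ.filter (fun x : Fin 8 => x.val < 4)
      else univ.filter (fun x : Fin 8 => ¬ x.val < 4)) else univ
  let t' : V → Finset (Fin 8) := fun v =>
    if v ∈ K then (if v = a ∨ v = b then univ.filter (fun x : Fin 8 => x.val < 2)
      else univ.filter (fun x : Fin 8 => 2 ≤ x.val ∧ x.val < 4)) else t v
  have ht : (univ.filter (fun ω : V → Fin 8 => lev N ω 4 = Y₀)) ⊆ Fintype.piFinset t := by
    intro ω hω
    simp only [mem_filter, mem_univ, true_and] at hω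
    rw [Fintype.mem_piFinset]
    intro v
    have hv : v ∈ lev N ω 4 ↔ v ∈ Y₀ := by rw [hω]
    simp only [lev, mem_filter] at hv
    simp only [t]
    by_cases h1 : v ∈ N
    · by_cases h2 : v ∈ Y₀
      · simp only [h1, h2, if_true, mem_filter, mem_univ, true_and]
        exact (hv.2 h2).2
      · simp only [h1, h2, if_true, if_false, mem_filter, mem_univ, true_and]
        intro h3; exact h2 (hv.1 ⟨h1, h3⟩)
    · simp [h1]
  have hcard : (Fintype.piFinset t).card ≤ 2 ^ K.card * (Fintype.piFinset t').card := by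
    rw [Fintype.card_piFinset, Fintype.card_piFinset]
    have e1 : (2 : ℕ) ^ K.card = ∏ v : V, (if v ∈ K then 2 else 1) := by
      rw [Finset.prod_ite_mem, Finset.univ_inter, Finset.prod_const]
    rw [e1, ← Finset.prod_mul_distrib]
    refine Finset.prod_le_prod' (fun v _ => ?_)
    by_cases hv : v ∈ K
    · have h1 : v ∈ Y₀ := hKY hv
      have h2 : v ∈ N := hY h1
      have e2 : (t v).card = 4 := by
        simp only [t, h1, h2, if_true]; decide
      have e3 : (t' v).card = 2 := by
        simp only [t', hv, if_true]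
        by_cases h3 : v = a ∨ v = b
        · simp only [h3, if_true]; decide
        · simp only [h3, if_false]; decide
      rw [e2, e3, if_pos hv]; norm_num
    · have e4 : t' v = t v := by simp only [t', hv, if_false]
      rw [e4, if_neg hv, one_mul]
  have ht' : Fintype.piFinset t' ⊆ univ.filter (fun ω : V → Fin 8 =>
        ¬ OneComp G R X ω ∧ lev N ω 4 = Y₀) := by
    intro ω hω
    rw [Fintype.mem_piFinset] at hω
    have hval : ∀ v ∈ K, (ω v).val < 4 := by
      intro v hv
      have := hω v
      simp only [t', hv, if_true] at this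
      by_cases h3 : v = a ∨ v = b
      · simp only [h3, if_true, mem_filter, mem_univ, true_and] at this; omega
      · simp only [h3, if_false, mem_filter, mem_univ, true_and] at this; omega
    have hlev : lev N ω 4 = Y₀ := by
      ext v
      simp only [lev, mem_filter]
      constructor
      · rintro ⟨h1, h2⟩
        by_contra h3
        have hvK : v ∉ K := fun h => h3 (hKY h)
        have := hω v
        simp only [t', hvK, if_false, t, h1, h3, if_true, mem_filter, mem_univ, true_and] at this
        exact this h2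
      · intro h1
        refine ⟨hY h1, ?_⟩
        by_cases hvK : v ∈ K
        · exact hval v hvK
        · have := hω v
          simp only [t', hvK, if_false, t, h1, hY h1, if_true, mem_filter, mem_univ,
            true_and] at this
          exact this
    have haK : a ∈ K := by simp [hK]
    have hbK : b ∈ K := by simp [hK]
    have ha2 : (ω a).val < 2 := by
      have := hω a
      simp only [t', haK, if_true, true_or, mem_filter, mem_univ, true_and] at this
      exact this
    have hb2 : (ω b).val < 2 := by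
      have := hω b
      simp only [t', hbK, if_true, or_true, mem_filter, mem_univ, true_and] at this
      exact this
    have hmid : ∀ v ∈ A ∩ B, ¬ (ω v).val < 2 := by
      intro v hv
      have hvK : v ∈ K := by
        rw [hK, mem_insert, mem_insert]; exact Or.inr (Or.inr hv)
      rw [mem_inter] at hv
      have hne : ¬ (v = a ∨ v = b) := by
        rintro (rfl | rfl)
        · exact haB hv.2
        · exact hbA hv.1
      have := hω v
      simp only [t', hvK, if_true, hne, if_false, mem_filter, mem_univ, true_and] at this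
      omega
    rw [mem_filter]
    refine ⟨mem_univ _, ?_, hlev⟩
    intro hone
    have hsub : lev N ω 2 ⊆ A ∪ B := by
      intro v hv
      rw [hAB, ← hlev]
      simp only [lev, mem_filter] at hv ⊢
      exact ⟨hv.1, by omega⟩
    have := hone (lev N ω 2 ∩ (A \ B)) (lev N ω 2 ∩ (B \ A)) ?_ ?_ ?_
    · rcases this with h | h
      · have : a ∈ R ∩ (lev N ω 2 ∩ (A \ B)) := by
          simp only [lev, mem_inter, mem_filter, mem_sdiff]
          exact ⟨haR, ⟨hY (hKY haK), ha2⟩, haA, haB⟩
        rw [h] at this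
        simp at this
      · have : b ∈ R ∩ (lev N ω 2 ∩ (B \ A)) := by
          simp only [lev, mem_inter, mem_filter, mem_sdiff]
          exact ⟨hbR, ⟨hY (hKY hbK), hb2⟩, hbB, hbA⟩
        rw [h] at this
        simp at this
    · ext v
      simp only [mem_union, mem_inter, mem_sdiff]
      constructor
      · rintro (h | h) <;> exact h.1
      · intro hv
        have h1 := hsub hv
        rw [mem_union] at h1
        have h2 : ¬ (v ∈ A ∧ v ∈ B) := by
          intro h3
          have := hmid v (by rw [mem_inter]; exact h3)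
          simp only [lev, mem_filter] at hv
          exact this hv.2
        tauto
    · rw [Finset.disjoint_left]
      intro v h1 h2
      simp only [mem_inter, mem_sdiff] at h1 h2
      exact h1.2.2 h2.2.1
    · intro x hx y hy
      rw [mem_inter] at hx hy
      exact hno x hx.2 y hy.2
  calc (univ.filter (fun ω : V → Fin 8 => lev N ω 4 = Y₀)).card
      ≤ (Fintype.piFinset t).card := Finset.card_le_card ht
    _ ≤ 2 ^ K.card * (Fintype.piFinset t').card := hcard
    _ ≤ 2 ^ (4 * u + 1) * (univ.filter (fun ω : V → Fin 8 =>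
        ¬ OneComp G R X ω ∧ lev N ω 4 = Y₀)).card :=
        Nat.mul_le_mul (Nat.pow_le_pow_right (by norm_num) hKcard) (Finset.card_le_card ht')

open Classical in
lemma bad_count (G : SimpleGraph V) (R X : Finset V) (u : ℕ) :
    (univ.filter (fun ω : V → Fin 8 => BadHub G R u (lev (R ∪ X) ω 4))).card ≤
      2 ^ (4 * u + 1) * (univ.filter (fun ω : V → Fin 8 => ¬ OneComp G R X ω)).card := by
  have hmap : ∀ S : Finset (V → Fin 8), ∀ ω ∈ S, lev (R ∪ X) ω 4 ∈ (R ∪ X).powerset := by
    intro S ω _
    rw [mem_powerset]; exact Finset.filter_subset _ _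
  rw [Finset.card_eq_sum_card_fiberwise (f := fun ω => lev (R ∪ X) ω 4)
      (t := (R ∪ X).powerset) (fun ω hω => hmap _ ω hω),
    Finset.card_eq_sum_card_fiberwise (s := univ.filter (fun ω : V → Fin 8 => ¬ OneComp G R X ω))
      (f := fun ω => lev (R ∪ X) ω 4) (t := (R ∪ X).powerset) (fun ω hω => hmap _ ω hω),
    Finset.mul_sum]
  refine Finset.sum_le_sum (fun Y₀ hY₀ => ?_)
  rw [mem_powerset] at hY₀
  by_cases hb : BadHub G R u Y₀
  · refine le_trans (Finset.card_le_card ?_) (le_trans (bad_fiber G R X u Y₀ hY₀ hb) ?_)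
    · intro ω hω
      simp only [mem_filter, mem_univ, true_and] at hω ⊢
      exact hω.2
    · apply Nat.mul_le_mul_left
      apply Finset.card_le_card
      intro ω hω
      simp only [mem_filter, mem_univ, true_and] at hω ⊢
      exact hω
  · have : ((univ.filter (fun ω : V → Fin 8 => BadHub G R u (lev (R ∪ X) ω 4))).filter
        (fun ω => lev (R ∪ X) ω 4 = Y₀)) = ∅ := by
      ext ω
      simp only [mem_filter, mem_univ, true_and, notMem_empty, iff_false, not_and]
      intro h1 h2
      rw [h2] at h1; exact hb h1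
    rw [this]; simp

omit [Fintype V] in
/-- the flip `x ↦ x + 4` exchanges `Y` and its complement -/
lemma lev_flip (N : Finset V) (ω : V → Fin 8) : lev N (fun v => ω v + 4) 4 = N \ lev N ω 4 := by
  ext v
  simp only [lev, mem_filter, mem_sdiff]
  have : ∀ x : Fin 8, (x + 4).val < 4 ↔ ¬ x.val < 4 := by decide
  rw [this]
  tauto

open Classical in
lemma bad_compl_count (G : SimpleGraph V) (R X : Finset V) (u : ℕ) :
    (univ.filter (fun ω : V → Fin 8 => BadHub G R u ((R ∪ X) \ lev (R ∪ X) ω 4))).card ≤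
      (univ.filter (fun ω : V → Fin 8 => BadHub G R u (lev (R ∪ X) ω 4))).card := by
  apply Finset.card_le_card_of_injOn (fun ω v => ω v + 4)
  · intro ω hω
    simp only [coe_filter, mem_univ, true_and, Set.mem_ofPred_eq] at hω ⊢
    rw [lev_flip]; exact hω
  · intro ω _ ω' _ h
    funext v
    have := congrFun h v
    exact add_right_cancel this

open Classical in
theorem sample_of_conn (G : SimpleGraph V) (R X : Finset V) (u : ℕ) (hu : 1 ≤ u)
    (hn : (R ∪ X).card ≤ u ^ 2)
    (hdeg : ∀ v ∈ R, 10 ^ 9 * u ≤ degIn G R v)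
    (hconn : 2 ^ (10 * u) * (univ.filter (fun ω : V → Fin 8 => ¬ OneComp G R X ω)).card
      ≤ 8 ^ Fintype.card V) :
    ∃ Y ⊆ R ∪ X, Good G R u Y ∧ Good G R u ((R ∪ X) \ Y) := by
  have hRn : R.card ≤ u ^ 2 := le_trans (Finset.card_le_card Finset.subset_union_left) hn
  by_contra hcon
  push Not at hcon
  set S1 := univ.filter (fun ω : V → Fin 8 => BadHub G R u (lev (R ∪ X) ω 4)) with hS1
  set S2 := univ.filter (fun ω : V → Fin 8 => BadHub G R u ((R ∪ X) \ lev (R ∪ X) ω 4)) with hS2
  set S3 := univ.filter (fun ω : V → Fin 8 =>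
      ¬ ∀ v ∈ R, 10 ^ 8 * u ≤ degIn G (R ∩ lev (R ∪ X) ω 4) v) with hS3
  set S4 := univ.filter (fun ω : V → Fin 8 =>
      ¬ ∀ v ∈ R, 10 ^ 8 * u ≤ degIn G (R ∩ ((R ∪ X) \ lev (R ∪ X) ω 4)) v) with hS4
  set n8 := 8 ^ Fintype.card V with hn8
  have hpos : 0 < n8 := by positivity
  have c3 : 2 ^ (60 * u) * S3.card ≤ n8 := degY_count G R X u hRn hdeg
  have c4 : 2 ^ (60 * u) * S4.card ≤ n8 := degYc_count G R X u hRn hdeg
  have c1 : S1.card ≤ 2 ^ (4 * u + 1) * (univ.filter (fun ω : V → Fin 8 =>
      ¬ OneComp G R X ω)).card := bad_count G R X u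
  have c2 : S2.card ≤ S1.card := bad_compl_count G R X u
  have b1 : 8 * S1.card ≤ n8 := by
    have hp : 0 < (2 : ℕ) ^ (4 * u + 1) := by positivity
    refine Nat.le_of_mul_le_mul_right (c := 2 ^ (4 * u + 1)) ?_ hp
    have h1 : (8 : ℕ) * 2 ^ (4 * u + 1) ≤ 2 ^ (10 * u) := by
      have : (8 : ℕ) * 2 ^ (4 * u + 1) = 2 ^ (4 * u + 4) := by
        rw [pow_add, pow_add]; ring
      rw [this]
      exact Nat.pow_le_pow_right (by norm_num) (by omega)
    calc 8 * S1.card * 2 ^ (4 * u + 1) = 8 * 2 ^ (4 * u + 1) * S1.card := by ring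
      _ ≤ 2 ^ (10 * u) * S1.card := Nat.mul_le_mul_right _ h1
      _ ≤ 2 ^ (10 * u) * (2 ^ (4 * u + 1) * (univ.filter (fun ω : V → Fin 8 =>
          ¬ OneComp G R X ω)).card) := Nat.mul_le_mul_left _ c1
      _ = 2 ^ (10 * u) * (univ.filter (fun ω : V → Fin 8 =>
          ¬ OneComp G R X ω)).card * 2 ^ (4 * u + 1) := by ring
      _ ≤ n8 * 2 ^ (4 * u + 1) := Nat.mul_le_mul_right _ hconn
  have h60 : (8 : ℕ) ≤ 2 ^ (60 * u) := by
    calc (8 : ℕ) = 2 ^ 3 := by norm_num
      _ ≤ 2 ^ (60 * u) := Nat.pow_le_pow_right (by norm_num) (by omega)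
  have b3 : 8 * S3.card ≤ n8 := le_trans (Nat.mul_le_mul_right _ h60) c3
  have b4 : 8 * S4.card ≤ n8 := le_trans (Nat.mul_le_mul_right _ h60) c4
  have hcover : (univ : Finset (V → Fin 8)) ⊆ S1 ∪ (S2 ∪ (S3 ∪ S4)) := by
    intro ω _
    by_contra hω
    simp only [mem_union, not_or] at hω
    obtain ⟨h1, h2, h3, h4⟩ := hω
    simp only [hS1, hS2, hS3, hS4, mem_filter, mem_univ, true_and, not_not] at h1 h2 h3 h4
    refine hcon (lev (R ∪ X) ω 4) (Finset.filter_subset _ _) ⟨h3, ?_⟩ ⟨h4, ?_⟩
    · intro A B hs ho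
      by_contra hc
      rw [not_or] at hc
      exact h1 ⟨A, B, hs, ho, Finset.nonempty_iff_ne_empty.2 hc.1,
        Finset.nonempty_iff_ne_empty.2 hc.2⟩
    · intro A B hs ho
      by_contra hc
      rw [not_or] at hc
      exact h2 ⟨A, B, hs, ho, Finset.nonempty_iff_ne_empty.2 hc.1,
        Finset.nonempty_iff_ne_empty.2 hc.2⟩
  have hc := Finset.card_le_card hcover
  have hu1 := Finset.card_union_le S1 (S2 ∪ (S3 ∪ S4))
  have hu2 := Finset.card_union_le S2 (S3 ∪ S4)
  have hu3 := Finset.card_union_le S3 S4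
  have hcu : (univ : Finset (V → Fin 8)).card = n8 := by
    rw [Finset.card_univ, Fintype.card_fun, Fintype.card_fin]
  omega

end Vale.Agent.P060
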