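import Mathlib
import Vale.Agent.P060.Defs
import Vale.Agent.P060.SampleDefs
import Vale.Agent.P060.SampleDense
import Vale.Agent.P060.SampleCount
import Vale.Agent.P060.SampleS3
import Vale.Agent.P060.Menger

/-! P060, row S2: the random set `Y2` is connected as far as `R` is concerned. -/

namespace Vale.Agent.P060

open Finset

variable {V : Type} [Fintype V] [DecidableEq V]

omit [Fintype V] [DecidableEq V] in
lemma walk_side {G : SimpleGraph V} {S : Set V} {P Q : Set V}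
    (hsub : S ⊆ P ∪ Q) (hno : ∀ a ∈ P, ∀ b ∈ Q, ¬ G.Adj a b) :
    ∀ {a b : S} (_ : (G.induce S).Walk a b), a.1 ∈ P → b.1 ∈ P := by
  intro a b p
  induction p with
  | nil => exact id
  | cons h p ih =>
    rename_i x y z
    intro hx
    apply ih
    rcases hsub y.2 with h1 | h1
    · exact h1
    · exact absurd h (hno _ hx _ h1)

omit [Fintype V] in
lemma side {G : SimpleGraph V} {S P Q : Finset V} (hS : Conn G S) (hsub : S ⊆ P ∪ Q)
    (hno : NoEdge G P Q) {s : V} (hs : s ∈ S) (hsP : s ∈ P) : S ⊆ P := by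
  intro w hw
  have hpre := hS.preconnected ⟨s, by simpa using hs⟩ ⟨w, by simpa using hw⟩
  obtain ⟨p⟩ := hpre
  have := walk_side (G := G) (S := (S : Set V)) (P := (P : Set V)) (Q := (Q : Set V))
    (by intro x hx
        have := hsub (by simpa using hx)
        rw [mem_union] at this
        simpa using this)
    (by intro a ha b hb; exact hno a (by simpa using ha) b (by simpa using hb)) p
    (by simpa using hsP)
  simpa using this

open Classical in
/-- the component of `v` in `G[D]` -/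
noncomputable def rc (G : SimpleGraph V) (D : Finset V) (v : V) : Finset V :=
  univ.filter (fun w => ∃ S : Finset V, S ⊆ D ∧ Conn G S ∧ v ∈ S ∧ w ∈ S)

lemma mem_rc {G : SimpleGraph V} {D : Finset V} {v w : V} :
    w ∈ rc G D v ↔ ∃ S : Finset V, S ⊆ D ∧ Conn G S ∧ v ∈ S ∧ w ∈ S := by
  classical
  simp [rc]

lemma rc_subset {G : SimpleGraph V} {D : Finset V} {v : V} : rc G D v ⊆ D := by
  intro w hw
  rw [mem_rc] at hw
  obtain ⟨S, hS, _, _, hw⟩ := hw
  exact hS hw

lemma self_mem_rc {G : SimpleGraph V} {D : Finset V} {v : V} (hv : v ∈ D) : v ∈ rc G D v := by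
  rw [mem_rc]
  exact ⟨{v}, by simpa using hv, MengerAux.conn_singleton G v, by simp, by simp⟩

lemma rc_trans {G : SimpleGraph V} {D : Finset V} {v w z : V} (h1 : w ∈ rc G D v)
    (h2 : z ∈ rc G D w) : z ∈ rc G D v := by
  rw [mem_rc] at *
  obtain ⟨S, hS, hc, hv, hw⟩ := h1
  obtain ⟨S', hS', hc', hw', hz⟩ := h2
  exact ⟨S ∪ S', Finset.union_subset hS hS', MengerAux.conn_union hc hc' hw hw',
    Finset.mem_union_left _ hv, Finset.mem_union_right _ hz⟩

lemma rc_symm {G : SimpleGraph V} {D : Finset V} {v w : V} (h1 : w ∈ rc G D v) :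
    v ∈ rc G D w := by
  rw [mem_rc] at *
  obtain ⟨S, hS, hc, hv, hw⟩ := h1
  exact ⟨S, hS, hc, hw, hv⟩

lemma rc_eq {G : SimpleGraph V} {D : Finset V} {v w z : V} (h1 : z ∈ rc G D v)
    (h2 : z ∈ rc G D w) : rc G D v = rc G D w := by
  have hvw : w ∈ rc G D v := rc_trans h1 (rc_symm h2)
  ext x
  exact ⟨fun hx => rc_trans (rc_symm hvw) hx, fun hx => rc_trans hvw hx⟩

lemma adj_mem_rc {G : SimpleGraph V} {D : Finset V} {v w : V} (hv : v ∈ D) (hw : w ∈ D)
    (h : G.Adj v w) : w ∈ rc G D v := by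
  rw [mem_rc]
  refine ⟨{v} ∪ {w}, ?_, MengerAux.conn_union_adj (MengerAux.conn_singleton G v)
    (MengerAux.conn_singleton G w) (by simp) (by simp) h, by simp, by simp⟩
  intro x hx
  simp only [mem_union, mem_singleton] at hx
  rcases hx with rfl | rfl <;> assumption

lemma rc_side {G : SimpleGraph V} {D P Q : Finset V} {v s : V} (hsub : D ⊆ P ∪ Q)
    (hno : NoEdge G P Q) (hs : s ∈ rc G D v) (hsP : s ∈ P) : rc G D v ⊆ P := by
  intro w hw
  have h := rc_trans (rc_symm hs) hw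
  rw [mem_rc] at h
  obtain ⟨S, hS, hc, h1, h2⟩ := h
  exact side hc (hS.trans hsub) hno h1 hsP h2

/-- many disjoint small connectors between `A0` and `B0` -/
lemma connectors (G : SimpleGraph V) (R X : Finset V) (u : ℕ) (hu : 1 ≤ u)
    (hX : X.card ≤ 2 * (10 ^ 7 * u))
    (hP : ∀ A B : Finset V, Sep G (R ∪ X) A B → (A ∩ B).card < 10 ^ 7 * u →
        R ∩ (A \ B) = ∅ ∨ R ∩ (B \ A) = ∅)
    (D0 : Finset V) (hD0 : D0 ⊆ R ∪ X)
    (hdense : ∀ v ∈ R, 10 ^ 9 * u ≤ 16 * degIn G (R ∩ D0) v)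
    (A0 B0 : Finset V) (hA0 : A0 ⊆ D0) (hB0 : B0 ⊆ D0)
    (hRD : R ∩ D0 ⊆ A0 ∪ B0) (hA : 10 ^ 7 * u ≤ (A0 ∩ R).card) (hB : 10 ^ 7 * u ≤ (B0 ∩ R).card) :
    ∃ T : Fin (5000000 * u) → Finset V, (∀ i, T i ⊆ (R ∪ X) \ D0) ∧
      (∀ i j, i ≠ j → Disjoint (T i) (T j)) ∧ (∀ i, (T i).card ≤ 6) ∧
      ∀ i, ∀ P Q : Finset V, Disjoint P Q → NoEdge G P Q → A0 ⊆ P → B0 ⊆ Q → D0 ⊆ P ∪ Q →
        ¬ (T i ⊆ P ∪ Q) := by
  classical
  obtain ⟨L, hLS, hLc, hLd, hLA, hLB⟩ := menger G (R ∪ X) A0 B0 (10 ^ 7 * u) (hA0.trans hD0)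
    (hB0.trans hD0) (by
      intro C D hsep hAC hBD
      by_contra hlt
      push Not at hlt
      rcases hP C D hsep hlt with h | h
      · have : A0 ∩ R ⊆ C ∩ D := by
          intro x hx
          rw [mem_inter] at hx ⊢
          refine ⟨hAC hx.1, ?_⟩
          by_contra hxD
          have : x ∈ R ∩ (C \ D) := by
            rw [mem_inter, mem_sdiff]; exact ⟨hx.2, hAC hx.1, hxD⟩
          rw [h] at this; simp at this
        have := Finset.card_le_card this
        omega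
      · have : B0 ∩ R ⊆ C ∩ D := by
          intro x hx
          rw [mem_inter] at hx ⊢
          refine ⟨?_, hBD hx.1⟩
          by_contra hxD
          have : x ∈ R ∩ (D \ C) := by
            rw [mem_inter, mem_sdiff]; exact ⟨hx.2, hBD hx.1, hxD⟩
          rw [h] at this; simp at this
        have := Finset.card_le_card this
        omega)
  -- few paths with many X-vertices
  set I : Finset (Fin (10 ^ 7 * u)) := univ.filter (fun i => (L i ∩ X).card ≤ 4) with hI
  have hsum : ∑ i, (L i ∩ X).card ≤ X.card := by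
    rw [← Finset.card_biUnion]
    · apply Finset.card_le_card
      intro x hx
      rw [mem_biUnion] at hx
      obtain ⟨i, _, hi⟩ := hx
      exact (mem_inter.1 hi).2
    · intro i _ j _ hij
      exact Finset.disjoint_of_subset_left inter_subset_left
        (Finset.disjoint_of_subset_right inter_subset_left (hLd i j hij))
  have hIc : 5000000 * u ≤ I.card := by
    have h1 : ∑ i ∈ univ.filter (fun i => ¬ (L i ∩ X).card ≤ 4), 5 ≤ ∑ i, (L i ∩ X).card := by
      calc ∑ i ∈ univ.filter (fun i => ¬ (L i ∩ X).card ≤ 4), 5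
          ≤ ∑ i ∈ univ.filter (fun i => ¬ (L i ∩ X).card ≤ 4), (L i ∩ X).card := by
            apply Finset.sum_le_sum
            intro i hi
            rw [mem_filter] at hi; omega
        _ ≤ ∑ i, (L i ∩ X).card := Finset.sum_le_sum_of_subset (Finset.subset_univ _)
    rw [Finset.sum_const, smul_eq_mul] at h1
    have h2 := Finset.card_filter_add_card_filter_not (s := (univ : Finset (Fin (10 ^ 7 * u))))
      (fun i => (L i ∩ X).card ≤ 4)
    rw [Finset.card_univ, Fintype.card_fin] at h2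
    have h3 : I.card = (univ.filter (fun i => (L i ∩ X).card ≤ 4)).card := rfl
    rw [h3]
    omega
  have hemb : Nonempty (Fin (5000000 * u) ↪ I) := by
    apply Function.Embedding.nonempty_of_card_le
    rw [Fintype.card_fin, Fintype.card_coe]; exact hIc
  obtain ⟨e⟩ := hemb
  set SA : Finset V := A0 ∪ (R \ D0).filter (fun v => ∃ a ∈ A0, G.Adj v a) with hSA
  set SB : Finset V := B0 ∪ (R \ D0).filter (fun v => ∃ b ∈ B0, G.Adj v b) with hSB
  have hRS : R ⊆ SA ∪ SB := by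
    intro v hv
    by_cases hvD : v ∈ D0
    · have := hRD (mem_inter.2 ⟨hv, hvD⟩)
      rw [mem_union] at this
      rcases this with h | h
      · exact mem_union_left _ (mem_union_left _ h)
      · exact mem_union_right _ (mem_union_left _ h)
    · have h1 := hdense v hv
      have h2 : 0 < degIn G (R ∩ D0) v := by omega
      unfold degIn at h2
      obtain ⟨w, hw⟩ := Finset.card_pos.1 h2
      rw [mem_filter] at hw
      have := hRD hw.1
      rw [mem_union] at this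
      rcases this with h | h
      · exact mem_union_left _ (mem_union_right _ (mem_filter.2
          ⟨mem_sdiff.2 ⟨hv, hvD⟩, w, h, hw.2⟩))
      · exact mem_union_right _ (mem_union_right _ (mem_filter.2
          ⟨mem_sdiff.2 ⟨hv, hvD⟩, w, h, hw.2⟩))
  have hsh : ∀ i : Fin (5000000 * u), ∃ L' ⊆ L (e i).1, Conn G L' ∧ (L' ∩ SA).card = 1 ∧
      (L' ∩ SB).card = 1 := by
    intro i
    apply MengerAux.shorten (L (e i).1) (hLc _)
    · have : (L (e i).1 ∩ A0).Nonempty := by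
        rw [← Finset.card_pos, hLA]; norm_num
      obtain ⟨x, hx⟩ := this
      rw [mem_inter] at hx
      exact ⟨x, mem_inter.2 ⟨hx.1, mem_union_left _ hx.2⟩⟩
    · have : (L (e i).1 ∩ B0).Nonempty := by
        rw [← Finset.card_pos, hLB]; norm_num
      obtain ⟨x, hx⟩ := this
      rw [mem_inter] at hx
      exact ⟨x, mem_inter.2 ⟨hx.1, mem_union_left _ hx.2⟩⟩
  choose L' hL' hL'c hL'A hL'B using hsh
  refine ⟨fun i => L' i \ D0, ?_, ?_, ?_, ?_⟩
  · intro i
    exact Finset.sdiff_subset_sdiff ((hL' i).trans (hLS _)) Subset.rfl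
  · intro i j hij
    have h1 : (e i).1 ≠ (e j).1 := by
      intro h; exact hij (e.injective (Subtype.ext h))
    exact Finset.disjoint_of_subset_left (sdiff_subset.trans (hL' i))
      (Finset.disjoint_of_subset_right (sdiff_subset.trans (hL' j)) (hLd _ _ h1))
  · intro i
    have h1 : L' i \ D0 ⊆ (L' i ∩ SA) ∪ ((L' i ∩ SB) ∪ (L (e i).1 ∩ X)) := by
      intro x hx
      rw [mem_sdiff] at hx
      have hxN := hLS _ (hL' i hx.1)
      rw [mem_union] at hxN
      rcases hxN with h | h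
      · have := hRS h
        rw [mem_union] at this
        rcases this with h | h
        · exact mem_union_left _ (mem_inter.2 ⟨hx.1, h⟩)
        · exact mem_union_right _ (mem_union_left _ (mem_inter.2 ⟨hx.1, h⟩))
      · exact mem_union_right _ (mem_union_right _ (mem_inter.2 ⟨hL' i hx.1, h⟩))
    have h2 := Finset.card_le_card h1
    have h3 := Finset.card_union_le (L' i ∩ SA) ((L' i ∩ SB) ∪ (L (e i).1 ∩ X))
    have h4 := Finset.card_union_le (L' i ∩ SB) (L (e i).1 ∩ X)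
    have h5 : (L (e i).1 ∩ X).card ≤ 4 := (Finset.mem_filter.1 (e i).2).2
    have h6 := hL'A i
    have h7 := hL'B i
    show (L' i \ D0).card ≤ 6
    omega
  · intro i P Q hPQ hno hAP hBQ hDPQ hT
    have hsub : L' i ⊆ P ∪ Q := by
      intro x hx
      by_cases hxD : x ∈ D0
      · exact hDPQ hxD
      · exact hT (mem_sdiff.2 ⟨hx, hxD⟩)
    obtain ⟨s, hs⟩ : (L' i ∩ SA).Nonempty := by
      rw [← Finset.card_pos, hL'A]; norm_num
    obtain ⟨t, ht⟩ : (L' i ∩ SB).Nonempty := by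
      rw [← Finset.card_pos, hL'B]; norm_num
    rw [mem_inter] at hs ht
    have hsP : s ∈ P := by
      have h1 := hs.2
      rw [hSA, mem_union, mem_filter] at h1
      rcases h1 with h1 | ⟨_, a, ha, hadj⟩
      · exact hAP h1
      · have h2 := hsub hs.1
        rw [mem_union] at h2
        rcases h2 with h2 | h2
        · exact h2
        · exact absurd hadj.symm (hno a (hAP ha) s h2)
    have htQ : t ∈ Q := by
      have h1 := ht.2
      rw [hSB, mem_union, mem_filter] at h1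
      rcases h1 with h1 | ⟨_, b, hb, hadj⟩
      · exact hBQ h1
      · have h2 := hsub ht.1
        rw [mem_union] at h2
        rcases h2 with h2 | h2
        · exact absurd hadj (hno t h2 b (hBQ hb))
        · exact h2
    have h3 := side (hL'c i) hsub hno hs.1 hsP ht.1
    exact Finset.disjoint_left.1 hPQ h3 htQ

open Classical in
/-- number of `R`-components of `G[D0]` -/
lemma card_comps (G : SimpleGraph V) (R : Finset V) (u : ℕ) (hu : 1 ≤ u) (hn : R.card ≤ u ^ 2)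
    (D0 : Finset V) (hdense : ∀ v ∈ R, 10 ^ 9 * u ≤ 16 * degIn G (R ∩ D0) v) :
    ((R ∩ D0).image (rc G D0)).card ≤ u ∧
    ∀ C ∈ (R ∩ D0).image (rc G D0), 62500000 * u ≤ (C ∩ R).card := by
  have hbig : ∀ C ∈ (R ∩ D0).image (rc G D0), 62500000 * u ≤ (C ∩ R).card := by
    intro C hC
    rw [mem_image] at hC
    obtain ⟨v, hv, rfl⟩ := hC
    rw [mem_inter] at hv
    have h1 := hdense v hv.1
    have h2 : degIn G (R ∩ D0) v ≤ (rc G D0 v ∩ R).card := by
      unfold degIn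
      apply Finset.card_le_card
      intro w hw
      rw [mem_filter, mem_inter] at hw
      rw [mem_inter]
      exact ⟨adj_mem_rc hv.2 hw.1.2 hw.2, hw.1.1⟩
    omega
  refine ⟨?_, hbig⟩
  set 𝒞 := (R ∩ D0).image (rc G D0) with h𝒞
  have hdisj : ∀ C ∈ 𝒞, ∀ C' ∈ 𝒞, C ≠ C' → Disjoint (C ∩ R) (C' ∩ R) := by
    intro C hC C' hC' hne
    rw [h𝒞, mem_image] at hC hC'
    obtain ⟨v, _, rfl⟩ := hC
    obtain ⟨w, _, rfl⟩ := hC'
    rw [Finset.disjoint_left]
    intro x hx hx'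
    exact hne (rc_eq (mem_inter.1 hx).1 (mem_inter.1 hx').1)
  have h1 : ∑ C ∈ 𝒞, (C ∩ R).card ≤ R.card := by
    rw [← Finset.card_biUnion hdisj]
    apply Finset.card_le_card
    intro x hx
    rw [mem_biUnion] at hx
    obtain ⟨C, _, hx⟩ := hx
    exact (mem_inter.1 hx).2
  have h2 : 𝒞.card * (62500000 * u) ≤ R.card := by
    calc 𝒞.card * (62500000 * u) = ∑ _C ∈ 𝒞, 62500000 * u := by
          rw [Finset.sum_const, smul_eq_mul]
      _ ≤ ∑ C ∈ 𝒞, (C ∩ R).card := Finset.sum_le_sum hbig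
      _ ≤ R.card := h1
  have h3 : 𝒞.card * (62500000 * u) ≤ u * u := by
    calc _ ≤ R.card := h2
      _ ≤ u ^ 2 := hn
      _ = u * u := by ring
  by_contra hlt
  push Not at hlt
  have h4 : u * u < 𝒞.card * (62500000 * u) := by
    calc u * u < 𝒞.card * u := Nat.mul_lt_mul_of_pos_right hlt (by omega)
      _ ≤ 𝒞.card * (62500000 * u) := Nat.mul_le_mul_left _ (by omega)
  omega

open Classical in
/-- the fibre over a dense pattern `D0` -/
lemma conn_fiber (G : SimpleGraph V) (R X : Finset V) (u : ℕ) (hu : 1 ≤ u)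
    (hn : R.card ≤ u ^ 2) (hX : X.card ≤ 2 * (10 ^ 7 * u))
    (hP : ∀ A B : Finset V, Sep G (R ∪ X) A B → (A ∩ B).card < 10 ^ 7 * u →
        R ∩ (A \ B) = ∅ ∨ R ∩ (B \ A) = ∅)
    (D0 : Finset V) (hD0 : D0 ⊆ R ∪ X)
    (hdense : ∀ v ∈ R, 10 ^ 9 * u ≤ 16 * degIn G (R ∩ D0) v) :
    2 ^ (39 * u) * (univ.filter (fun ω : V → Fin 8 =>
      ¬ OneComp G R X ω ∧ lev (R ∪ X) ω 1 = D0)).card ≤
      (univ.filter (fun ω : V → Fin 8 => lev (R ∪ X) ω 1 = D0)).card := by
  obtain ⟨hcomp, hbig⟩ := card_comps G R u hu hn D0 hdense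
  set 𝒞 := (R ∩ D0).image (rc G D0) with h𝒞
  set F := (univ.filter (fun ω : V → Fin 8 => lev (R ∪ X) ω 1 = D0)).card with hF
  have hCsub : ∀ C ∈ 𝒞, C ⊆ D0 := by
    intro C hC
    rw [h𝒞, mem_image] at hC
    obtain ⟨v, _, rfl⟩ := hC
    exact rc_subset
  have hRcov : ∀ v ∈ R ∩ D0, ∃ C ∈ 𝒞, v ∈ C := by
    intro v hv
    exact ⟨rc G D0 v, mem_image_of_mem _ hv, self_mem_rc (mem_inter.1 hv).2⟩
  -- for every nontrivial partition, choose connectors
  have hch : ∀ 𝒜 : Finset (Finset V), ∃ T : Fin (5000000 * u) → Finset V,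
      (∀ i, T i ⊆ (R ∪ X) \ D0) ∧ (∀ i j, i ≠ j → Disjoint (T i) (T j)) ∧
      (∀ i, (T i).card ≤ 6) ∧
      (𝒜 ⊆ 𝒞 → 𝒜.Nonempty → (𝒞 \ 𝒜).Nonempty →
      ∀ i, ∀ P Q : Finset V, Disjoint P Q → NoEdge G P Q → 𝒜.biUnion id ⊆ P →
        (𝒞 \ 𝒜).biUnion id ⊆ Q → D0 ⊆ P ∪ Q → ¬ (T i ⊆ P ∪ Q)) := by
    intro 𝒜
    by_cases h : 𝒜 ⊆ 𝒞 ∧ 𝒜.Nonempty ∧ (𝒞 \ 𝒜).Nonempty
    · obtain ⟨h1, ⟨CA, hCA⟩, ⟨CB, hCB⟩⟩ := h
      obtain ⟨T, hT1, hT2, hT3, hT4⟩ := connectors G R X u hu hX hP D0 hD0 hdense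
        (𝒜.biUnion id) ((𝒞 \ 𝒜).biUnion id)
        (by intro x hx
            rw [mem_biUnion] at hx
            obtain ⟨C, hC, hx⟩ := hx
            exact hCsub C (h1 hC) hx)
        (by intro x hx
            rw [mem_biUnion] at hx
            obtain ⟨C, hC, hx⟩ := hx
            exact hCsub C (mem_sdiff.1 hC).1 hx)
        (by intro x hx
            obtain ⟨C, hC, hxC⟩ := hRcov x hx
            by_cases hCA' : C ∈ 𝒜
            · exact mem_union_left _ (mem_biUnion.2 ⟨C, hCA', hxC⟩)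
            · exact mem_union_right _ (mem_biUnion.2 ⟨C, mem_sdiff.2 ⟨hC, hCA'⟩, hxC⟩))
        (by have e1 := hbig CA (h1 hCA)
            have e2 : (CA ∩ R).card ≤ (𝒜.biUnion id ∩ R).card := by
              apply Finset.card_le_card
              apply Finset.inter_subset_inter_right
              intro x hx
              exact mem_biUnion.2 ⟨CA, hCA, hx⟩
            omega)
        (by have e1 := hbig CB (mem_sdiff.1 hCB).1
            have e2 : (CB ∩ R).card ≤ ((𝒞 \ 𝒜).biUnion id ∩ R).card := by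
              apply Finset.card_le_card
              apply Finset.inter_subset_inter_right
              intro x hx
              exact mem_biUnion.2 ⟨CB, hCB, hx⟩
            omega)
      exact ⟨T, hT1, hT2, hT3, fun _ _ _ => hT4⟩
    · refine ⟨fun _ => ∅, by simp, by simp, by simp, ?_⟩
      intro h1 h2 h3
      exact absurd ⟨h1, h2, h3⟩ h
  choose T hT1 hT2 hT3 hT4 using hch
  have hcov : univ.filter (fun ω : V → Fin 8 => ¬ OneComp G R X ω ∧ lev (R ∪ X) ω 1 = D0) ⊆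
      𝒞.powerset.biUnion (fun 𝒜 => univ.filter (fun ω : V → Fin 8 =>
        lev (R ∪ X) ω 1 = D0 ∧ ∀ i, ∃ v ∈ T 𝒜 i, ω v ≠ 1)) := by
    intro ω hω
    simp only [mem_filter, mem_univ, true_and] at hω
    obtain ⟨hnot, hlev⟩ := hω
    unfold OneComp at hnot
    push Not at hnot
    obtain ⟨P, Q, hPQ, hdis, hno, hRP, hRQ⟩ := hnot
    have hDPQ : D0 ⊆ P ∪ Q := by
      rw [hPQ, ← hlev]
      intro x hx
      simp only [lev, mem_filter] at hx ⊢
      exact ⟨hx.1, by omega⟩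
    -- every R vertex of P has a D0-neighbour in P
    have key : ∀ P' Q' : Finset V, D0 ⊆ P' ∪ Q' → NoEdge G P' Q' →
        (R ∩ P').Nonempty → ∃ C ∈ 𝒞, C ⊆ P' := by
      intro P' Q' hs hno' ⟨v, hv⟩
      rw [mem_inter] at hv
      have h1 := hdense v hv.1
      have h2 : 0 < degIn G (R ∩ D0) v := by omega
      unfold degIn at h2
      obtain ⟨w, hw⟩ := Finset.card_pos.1 h2
      rw [mem_filter] at hw
      have hwP : w ∈ P' := by
        have := hs (mem_inter.1 hw.1).2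
        rw [mem_union] at this
        rcases this with h | h
        · exact h
        · exact absurd hw.2 (hno' v hv.2 w h)
      refine ⟨rc G D0 w, mem_image_of_mem _ hw.1, ?_⟩
      exact rc_side hs hno' (self_mem_rc (mem_inter.1 hw.1).2) hwP
    obtain ⟨CA, hCA, hCAP⟩ := key P Q hDPQ hno hRP
    obtain ⟨CB, hCB, hCBQ⟩ := key Q P (by rw [Finset.union_comm]; exact hDPQ)
      (fun a ha b hb hab => hno b hb a ha hab.symm) hRQ
    set 𝒜 := 𝒞.filter (fun C => C ⊆ P) with h𝒜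
    have h𝒜sub : 𝒜 ⊆ 𝒞 := Finset.filter_subset _ _
    have hCne : ∀ C ∈ 𝒞, C.Nonempty := by
      intro C hC
      rw [h𝒞, mem_image] at hC
      obtain ⟨v, hv, rfl⟩ := hC
      exact ⟨v, self_mem_rc (mem_inter.1 hv).2⟩
    have hCB' : CB ∈ 𝒞 \ 𝒜 := by
      rw [mem_sdiff]
      refine ⟨hCB, ?_⟩
      intro h
      rw [h𝒜, mem_filter] at h
      obtain ⟨x, hx⟩ := hCne CB hCB
      exact Finset.disjoint_left.1 hdis (h.2 hx) (hCBQ hx)
    rw [mem_biUnion]
    refine ⟨𝒜, by rw [mem_powerset]; exact h𝒜sub, ?_⟩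
    simp only [mem_filter, mem_univ, true_and]
    refine ⟨hlev, fun i => ?_⟩
    by_contra hall
    push Not at hall
    refine hT4 𝒜 h𝒜sub ⟨CA, by rw [h𝒜, mem_filter]; exact ⟨hCA, hCAP⟩⟩ ⟨CB, hCB'⟩ i P Q hdis hno
      ?_ ?_ hDPQ ?_
    · intro x hx
      rw [mem_biUnion] at hx
      obtain ⟨C, hC, hx⟩ := hx
      rw [h𝒜, mem_filter] at hC
      exact hC.2 hx
    · intro x hx
      rw [mem_biUnion] at hx
      obtain ⟨C, hC, hx⟩ := hx
      rw [mem_sdiff] at hC
      have hxD := hCsub C hC.1 hx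
      have hxPQ := hDPQ hxD
      rw [mem_union] at hxPQ
      rcases hxPQ with h | h
      · exfalso
        apply hC.2
        rw [h𝒜, mem_filter]
        refine ⟨hC.1, ?_⟩
        have hC1 := hC.1
        rw [h𝒞, mem_image] at hC1
        obtain ⟨v, hv, rfl⟩ := hC1
        exact rc_side hDPQ hno hx h
      · exact h
    · intro x hx
      rw [hPQ]
      simp only [lev, mem_filter]
      refine ⟨(mem_sdiff.1 (hT1 𝒜 i hx)).1, ?_⟩
      rw [hall x hx]; decide
  have hone : ∀ 𝒜 ∈ 𝒞.powerset, 2 ^ (40 * u) * (univ.filter (fun ω : V → Fin 8 =>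
        lev (R ∪ X) ω 1 = D0 ∧ ∀ i, ∃ v ∈ T 𝒜 i, ω v ≠ 1)).card ≤ F := by
    intro 𝒜 _
    have h1 := no_connector_count (R ∪ X) D0 (5000000 * u) (T 𝒜) (hT1 𝒜) (hT2 𝒜) (hT3 𝒜)
    have h2 := numeric_connector u (5000000 * u) le_rfl
    set c := (univ.filter (fun ω : V → Fin 8 =>
        lev (R ∪ X) ω 1 = D0 ∧ ∀ i, ∃ v ∈ T 𝒜 i, ω v ≠ 1)).card
    have hpos : 0 < (7 ^ 6 : ℕ) ^ (5000000 * u) := by positivity
    refine Nat.le_of_mul_le_mul_right (c := (7 ^ 6) ^ (5000000 * u)) ?_ hpos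
    calc 2 ^ (40 * u) * c * (7 ^ 6) ^ (5000000 * u)
        = 2 ^ (40 * u) * (c * (7 ^ 6) ^ (5000000 * u)) := by ring
      _ ≤ 2 ^ (40 * u) * ((7 ^ 6 - 1) ^ (5000000 * u) * F) := Nat.mul_le_mul_left _ h1
      _ = ((7 ^ 6 - 1) ^ (5000000 * u) * 2 ^ (40 * u)) * F := by ring
      _ ≤ (7 ^ 6) ^ (5000000 * u) * F := Nat.mul_le_mul_right _ h2
      _ = F * (7 ^ 6) ^ (5000000 * u) := by ring
  have htot : 2 ^ (40 * u) * (univ.filter (fun ω : V → Fin 8 =>
      ¬ OneComp G R X ω ∧ lev (R ∪ X) ω 1 = D0)).card ≤ 2 ^ u * F := by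
    calc _ ≤ 2 ^ (40 * u) * ∑ 𝒜 ∈ 𝒞.powerset, (univ.filter (fun ω : V → Fin 8 =>
        lev (R ∪ X) ω 1 = D0 ∧ ∀ i, ∃ v ∈ T 𝒜 i, ω v ≠ 1)).card :=
          Nat.mul_le_mul_left _ (le_trans (Finset.card_le_card hcov) Finset.card_biUnion_le)
      _ = ∑ 𝒜 ∈ 𝒞.powerset, 2 ^ (40 * u) * (univ.filter (fun ω : V → Fin 8 =>
        lev (R ∪ X) ω 1 = D0 ∧ ∀ i, ∃ v ∈ T 𝒜 i, ω v ≠ 1)).card := by rw [Finset.mul_sum]
      _ ≤ ∑ _𝒜 ∈ 𝒞.powerset, F := Finset.sum_le_sum hone
      _ = 2 ^ 𝒞.card * F := by rw [Finset.sum_const, smul_eq_mul, card_powerset]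
      _ ≤ 2 ^ u * F := Nat.mul_le_mul_right _ (Nat.pow_le_pow_right (by norm_num) hcomp)
  have hpos : 0 < (2 : ℕ) ^ u := by positivity
  refine Nat.le_of_mul_le_mul_right (c := 2 ^ u) ?_ hpos
  calc 2 ^ (39 * u) * (univ.filter (fun ω : V → Fin 8 =>
      ¬ OneComp G R X ω ∧ lev (R ∪ X) ω 1 = D0)).card * 2 ^ u
      = 2 ^ (40 * u) * (univ.filter (fun ω : V → Fin 8 =>
      ¬ OneComp G R X ω ∧ lev (R ∪ X) ω 1 = D0)).card := by
        rw [show 40 * u = 39 * u + u by ring, pow_add]; ring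
    _ ≤ 2 ^ u * F := htot
    _ = F * 2 ^ u := by ring

open Classical in
/-- ROW S2 -/
theorem conn_count (G : SimpleGraph V) (R X : Finset V) (u : ℕ) (hu : 1 ≤ u)
    (hn : R.card ≤ u ^ 2) (hX : X.card ≤ 2 * (10 ^ 7 * u))
    (hP : ∀ A B : Finset V, Sep G (R ∪ X) A B → (A ∩ B).card < 10 ^ 7 * u →
        R ∩ (A \ B) = ∅ ∨ R ∩ (B \ A) = ∅)
    (hdeg : ∀ v ∈ R, 10 ^ 9 * u ≤ degIn G R v) :
    2 ^ (10 * u) * (univ.filter (fun ω : V → Fin 8 => ¬ OneComp G R X ω)).card
      ≤ 8 ^ Fintype.card V := by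
  have h1 := dense_count G R X u hn hdeg
  set nOC := univ.filter (fun ω : V → Fin 8 => ¬ OneComp G R X ω) with hnOC
  set nD := univ.filter (fun ω : V → Fin 8 => ¬ DenseAt G R X u ω) with hnD
  have hmap : ∀ S : Finset (V → Fin 8), ∀ ω ∈ S, lev (R ∪ X) ω 1 ∈ (R ∪ X).powerset := by
    intro S ω _
    rw [mem_powerset]; exact Finset.filter_subset _ _
  have e1 := Finset.card_eq_sum_card_fiberwise (s := nOC) (f := fun ω => lev (R ∪ X) ω 1)
      (t := (R ∪ X).powerset) (fun ω hω => hmap _ ω hω)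
  have e2 := Finset.card_eq_sum_card_fiberwise (s := nD) (f := fun ω => lev (R ∪ X) ω 1)
      (t := (R ∪ X).powerset) (fun ω hω => hmap _ ω hω)
  have e3 := Finset.card_eq_sum_card_fiberwise (s := (univ : Finset (V → Fin 8)))
      (f := fun ω => lev (R ∪ X) ω 1)
      (t := (R ∪ X).powerset) (fun ω hω => hmap _ ω hω)
  have hterm : ∀ D0 ∈ (R ∪ X).powerset,
      2 ^ (39 * u) * (nOC.filter (fun ω => lev (R ∪ X) ω 1 = D0)).card ≤
      2 ^ (39 * u) * (nD.filter (fun ω => lev (R ∪ X) ω 1 = D0)).card +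
        (univ.filter (fun ω : V → Fin 8 => lev (R ∪ X) ω 1 = D0)).card := by
    intro D0 hD0
    rw [mem_powerset] at hD0
    by_cases hd : ∀ v ∈ R, 10 ^ 9 * u ≤ 16 * degIn G (R ∩ D0) v
    · have h2 := conn_fiber G R X u hu hn hX hP D0 hD0 hd
      have h3 : nOC.filter (fun ω => lev (R ∪ X) ω 1 = D0) = univ.filter (fun ω : V → Fin 8 =>
          ¬ OneComp G R X ω ∧ lev (R ∪ X) ω 1 = D0) := by
        rw [hnOC, Finset.filter_filter]
      rw [h3]
      exact le_trans h2 (Nat.le_add_left _ _)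
    · have h3 : nOC.filter (fun ω => lev (R ∪ X) ω 1 = D0) ⊆
          nD.filter (fun ω => lev (R ∪ X) ω 1 = D0) := by
        intro ω hω
        rw [mem_filter] at hω ⊢
        refine ⟨?_, hω.2⟩
        rw [hnD, mem_filter]
        refine ⟨mem_univ _, ?_⟩
        intro hdense
        apply hd
        intro v hv
        have := hdense v hv
        rw [hω.2] at this
        exact this
      exact le_trans (Nat.mul_le_mul_left _ (Finset.card_le_card h3)) (Nat.le_add_right _ _)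
  have hsum : 2 ^ (39 * u) * nOC.card ≤ 2 ^ (39 * u) * nD.card + 8 ^ Fintype.card V := by
    have e4 : (univ : Finset (V → Fin 8)).card = 8 ^ Fintype.card V := by
      rw [Finset.card_univ, Fintype.card_fun, Fintype.card_fin]
    rw [← e4, e1, e2, e3, Finset.mul_sum, Finset.mul_sum, ← Finset.sum_add_distrib]
    exact Finset.sum_le_sum hterm
  have h39 : 2 ^ (39 * u) * nD.card ≤ 8 ^ Fintype.card V := by
    refine le_trans (Nat.mul_le_mul_right _ (Nat.pow_le_pow_right (by norm_num) (by omega))) h1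
  have hfin : 2 ^ (39 * u) * nOC.card ≤ 2 * 8 ^ Fintype.card V := by omega
  refine Nat.le_of_mul_le_mul_right (c := 2) ?_ (by norm_num)
  calc 2 ^ (10 * u) * nOC.card * 2 = 2 ^ (10 * u + 1) * nOC.card := by rw [pow_succ]; ring
    _ ≤ 2 ^ (39 * u) * nOC.card :=
        Nat.mul_le_mul_right _ (Nat.pow_le_pow_right (by norm_num) (by omega))
    _ ≤ 2 * 8 ^ Fintype.card V := hfin
    _ = 8 ^ Fintype.card V * 2 := by ring

/-- ROW S (sampling). -/
theorem sample (G : SimpleGraph V) (R X : Finset V) (u : ℕ) (hu : 1 ≤ u) (_hRX : Disjoint R X)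
    (hn : (R ∪ X).card ≤ u ^ 2) (hX : X.card ≤ 2 * (10 ^ 7 * u))
    (hP : ∀ A B : Finset V, Sep G (R ∪ X) A B → (A ∩ B).card < 10 ^ 7 * u →
        R ∩ (A \ B) = ∅ ∨ R ∩ (B \ A) = ∅)
    (hdeg : ∀ v ∈ R, 10 ^ 9 * u ≤ degIn G R v) :
    ∃ Y ⊆ R ∪ X, Good G R u Y ∧ Good G R u ((R ∪ X) \ Y) :=
  sample_of_conn G R X u hu hn hdeg (conn_count G R X u hu
    (le_trans (Finset.card_le_card Finset.subset_union_left) hn) hX hP hdeg)

end Vale.Agent.P060
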