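import Mathlib
import Vale.Agent.P060.Defs

/-!
P060, row T: the minimal precoloured triple.
-/

namespace Vale.Agent.P060

open Finset

variable {V : Type} [Fintype V] [DecidableEq V]

namespace Trip

/-- `φ` is a proper colouring of `G[S]` with colours `< k`. -/
def PC (G : SimpleGraph V) (k : ℕ) (S : Finset V) (φ : V → ℕ) : Prop :=
  (∀ a ∈ S, φ a < k) ∧ ∀ a ∈ S, ∀ b ∈ S, G.Adj a b → φ a ≠ φ b

/-- `φ` on `X` extends to a proper colouring of `R ∪ X`. -/
def Ext (G : SimpleGraph V) (k : ℕ) (R X : Finset V) (φ : V → ℕ) : Prop :=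
  ∃ ψ : V → ℕ, PC G k (R ∪ X) ψ ∧ ∀ x ∈ X, ψ x = φ x

/-- A bad precoloured triple. -/
def Bad (G : SimpleGraph V) (k κ : ℕ) (R X : Finset V) (φ : V → ℕ) : Prop :=
  Disjoint R X ∧ X.card ≤ 2 * κ ∧ PC G k X φ ∧ ¬ Ext G k R X φ

theorem exists_min (G : SimpleGraph V) (k κ : ℕ) (hk : ¬ G.Colorable k) :
    ∃ (R X : Finset V) (φ : V → ℕ), Bad G k κ R X φ ∧
      ∀ (R' X' : Finset V) (φ' : V → ℕ), R'.card < R.card → ¬ Bad G k κ R' X' φ' := by
  classical
  have hbase : Bad G k κ univ ∅ (fun _ => 0) := by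
    refine ⟨by simp, by simp, ⟨by simp, by simp⟩, ?_⟩
    rintro ⟨ψ, ⟨h1, h2⟩, -⟩
    apply hk
    refine ⟨SimpleGraph.Coloring.mk (fun v => (⟨ψ v, h1 v (by simp)⟩ : Fin k)) ?_⟩
    intro a b hab hEq
    have := congrArg Fin.val hEq
    exact h2 a (by simp) b (by simp) hab this
  have h : ∃ n : ℕ, ∃ (R X : Finset V) (φ : V → ℕ), R.card = n ∧ Bad G k κ R X φ :=
    ⟨_, univ, ∅, fun _ => 0, rfl, hbase⟩
  obtain ⟨R, X, φ, hR, hB⟩ := Nat.find_spec h
  refine ⟨R, X, φ, hB, fun R' X' φ' hlt hB' => ?_⟩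
  have hlt' : R'.card < Nat.find h := by omega
  exact Nat.find_min h hlt' ⟨R', X', φ', rfl, hB'⟩

variable {G : SimpleGraph V} {k κ : ℕ} {R X : Finset V} {φ : V → ℕ}

theorem PC.mono {S T : Finset V} (h : PC G k T φ) (hST : S ⊆ T) : PC G k S φ :=
  ⟨fun a ha => h.1 a (hST ha), fun a ha b hb => h.2 a (hST ha) b (hST hb)⟩

theorem ext_of_min
    (hmin : ∀ (R' X' : Finset V) (φ' : V → ℕ), R'.card < R.card → ¬ Bad G k κ R' X' φ')
    {R' X' : Finset V} {φ' : V → ℕ} (hlt : R'.card < R.card) (hd : Disjoint R' X')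
    (hX : X'.card ≤ 2 * κ) (hp : PC G k X' φ') : Ext G k R' X' φ' := by
  by_contra hne
  exact hmin R' X' φ' hlt ⟨hd, hX, hp, hne⟩

/-- (1) large degree -/
theorem deg_ge (hB : Bad G k κ R X φ)
    (hmin : ∀ (R' X' : Finset V) (φ' : V → ℕ), R'.card < R.card → ¬ Bad G k κ R' X' φ')
    {v : V} (hv : v ∈ R) : k ≤ degIn G (R ∪ X) v := by
  classical
  by_contra hlt
  push Not at hlt
  obtain ⟨hd, hX, hp, hne⟩ := hB
  have hvX : v ∉ X := fun h => (Finset.disjoint_left.mp hd) hv h
  obtain ⟨ψ, hψ, hψX⟩ := ext_of_min (R' := R.erase v) (X' := X) (φ' := φ) hmin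
    (Finset.card_erase_lt_of_mem hv)
    (Finset.disjoint_of_subset_left (Finset.erase_subset _ _) hd) hX hp
  -- a free colour
  have hN : ((R ∪ X).filter (fun w => G.Adj v w)).card < k := by
    have h1 : degIn G (R ∪ X) v = ((R ∪ X).filter (fun w => G.Adj v w)).card := rfl
    omega
  obtain ⟨c, hc, hcn⟩ : ∃ c ∈ Finset.range k,
      c ∉ ((R ∪ X).filter (fun w => G.Adj v w)).image ψ := by
    by_contra hcon
    push Not at hcon
    have hsub : Finset.range k ⊆ ((R ∪ X).filter (fun w => G.Adj v w)).image ψ := hcon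
    have := Finset.card_le_card hsub
    have h2 := Finset.card_image_le (s := (R ∪ X).filter (fun w => G.Adj v w)) (f := ψ)
    rw [Finset.card_range] at this
    omega
  rw [Finset.mem_range] at hc
  have hcn' : ∀ w ∈ R ∪ X, G.Adj v w → ψ w ≠ c := by
    intro w hw hvw h
    exact hcn (Finset.mem_image.mpr ⟨w, Finset.mem_filter.mpr ⟨hw, hvw⟩, h⟩)
  apply hne
  have hmem : ∀ w ∈ R ∪ X, w ≠ v → w ∈ R.erase v ∪ X := by
    intro w hw hwv
    rcases Finset.mem_union.mp hw with h | h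
    · exact Finset.mem_union_left _ (Finset.mem_erase.mpr ⟨hwv, h⟩)
    · exact Finset.mem_union_right _ h
  refine ⟨fun w => if w = v then c else ψ w, ⟨?_, ?_⟩, ?_⟩
  · intro a ha
    by_cases hav : a = v
    · simp [hav, hc]
    · simp only [hav, if_false]
      exact hψ.1 a (hmem a ha hav)
  · intro a ha b hb hab
    by_cases hav : a = v
    · have hbv : b ≠ v := by
        rintro rfl
        subst hav
        exact G.loopless.irrefl _ hab
      simp only [hav, hbv, if_true, if_false]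
      subst hav
      exact (hcn' b hb hab).symm
    · by_cases hbv : b = v
      · simp only [hav, hbv, if_true, if_false]
        subst hbv
        exact hcn' a ha hab.symm
      · simp only [hav, hbv, if_false]
        exact hψ.2 a (hmem a ha hav) b (hmem b hb hbv) hab
  · intro x hx
    have hxv : x ≠ v := fun h => hvX (h ▸ hx)
    simp only [hxv, if_false]
    exact hψX x hx

/-- (2), the case where the second side contains few vertices of `X`. -/
theorem sep_aux (hB : Bad G k κ R X φ)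
    (hmin : ∀ (R' X' : Finset V) (φ' : V → ℕ), R'.card < R.card → ¬ Bad G k κ R' X' φ')
    {A B : Finset V} (hS : Sep G (R ∪ X) A B) (hcard : (A ∩ B).card < κ)
    (hXB : (X ∩ (B \ A)).card ≤ κ)
    (hRA : (R ∩ (A \ B)).Nonempty) (hRB : (R ∩ (B \ A)).Nonempty) : False := by
  classical
  obtain ⟨hd, hX, hp, hne⟩ := hB
  obtain ⟨hAB, hno⟩ := hS
  have hAsub : A ⊆ R ∪ X := hAB ▸ Finset.subset_union_left
  have hBsub : B ⊆ R ∪ X := hAB ▸ Finset.subset_union_right
  -- extend to (R ∩ A) ∪ X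
  obtain ⟨ψ, hψ, hψX⟩ := ext_of_min (R' := R ∩ A) (X' := X) (φ' := φ) hmin
    (by
      apply Finset.card_lt_card
      refine Finset.ssubset_iff_subset_ne.mpr ⟨Finset.inter_subset_left, ?_⟩
      intro h
      obtain ⟨b, hb⟩ := hRB
      simp only [Finset.mem_inter, Finset.mem_sdiff] at hb
      have : b ∈ R ∩ A := h.symm ▸ hb.1
      exact hb.2.2 (Finset.mem_inter.mp this).2)
    (Finset.disjoint_of_subset_left Finset.inter_subset_left hd) hX hp
  have hX'sub : (A ∩ B) ∪ (X ∩ (B \ A)) ⊆ (R ∩ A) ∪ X := by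
    intro a ha
    simp only [Finset.mem_union, Finset.mem_inter, Finset.mem_sdiff] at ha ⊢
    rcases ha with ⟨h1, h2⟩ | ⟨h1, h2⟩
    · have := hAsub h1
      rcases Finset.mem_union.mp this with h | h
      · exact Or.inl ⟨h, h1⟩
      · exact Or.inr h
    · exact Or.inr h1
  obtain ⟨χ, hχ, hχX⟩ := ext_of_min (R' := R ∩ (B \ A)) (X' := (A ∩ B) ∪ (X ∩ (B \ A)))
    (φ' := ψ) hmin
    (by
      apply Finset.card_lt_card
      refine Finset.ssubset_iff_subset_ne.mpr ⟨Finset.inter_subset_left, ?_⟩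
      intro h
      obtain ⟨b, hb⟩ := hRA
      simp only [Finset.mem_inter, Finset.mem_sdiff] at hb
      have : b ∈ R ∩ (B \ A) := h.symm ▸ hb.1
      simp only [Finset.mem_inter, Finset.mem_sdiff] at this
      exact hb.2.2 this.2.1)
    (by
      rw [Finset.disjoint_left]
      intro a ha ha'
      simp only [Finset.mem_union, Finset.mem_inter, Finset.mem_sdiff] at ha ha'
      rcases ha' with ⟨h1, h2⟩ | ⟨h1, h2⟩
      · exact ha.2.2 h1
      · exact (Finset.disjoint_left.mp hd) ha.1 h1)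
    (by
      have := Finset.card_union_le (A ∩ B) (X ∩ (B \ A))
      omega)
    (hψ.mono hX'sub)
  have hBmem : ∀ b ∈ B, b ∈ R ∩ (B \ A) ∪ ((A ∩ B) ∪ (X ∩ (B \ A))) := by
    intro b hb
    have hbRX := hBsub hb
    simp only [Finset.mem_union, Finset.mem_inter, Finset.mem_sdiff] at hbRX ⊢
    by_cases hbA : b ∈ A
    · exact Or.inr (Or.inl ⟨hbA, hb⟩)
    · rcases hbRX with h | h
      · exact Or.inl ⟨h, hb, hbA⟩
      · exact Or.inr (Or.inr ⟨h, hb, hbA⟩)
  have hAmem : ∀ a ∈ A, a ∈ (R ∩ A) ∪ X := by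
    intro a ha
    have haRX := hAsub ha
    simp only [Finset.mem_union, Finset.mem_inter] at haRX ⊢
    rcases haRX with h | h
    · exact Or.inl ⟨h, ha⟩
    · exact Or.inr h
  have hAB' : ∀ a ∈ R ∪ X, a ∉ B → a ∈ A := by
    intro a ha hb
    rw [← hAB] at ha
    exact (Finset.mem_union.mp ha).resolve_right hb
  apply hne
  refine ⟨fun w => if w ∈ B then χ w else ψ w, ⟨?_, ?_⟩, ?_⟩
  · intro a ha
    by_cases haB : a ∈ B
    · simp only [haB, if_true]
      exact hχ.1 a (hBmem a haB)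
    · simp only [haB, if_false]
      exact hψ.1 a (hAmem a (hAB' a ha haB))
  · have key : ∀ a ∈ R ∪ X, ∀ b ∈ R ∪ X, G.Adj a b → a ∈ B → b ∉ B → χ a ≠ ψ b := by
      intro a ha b hb hab haB hbB
      have hbA : b ∈ A := hAB' b hb hbB
      have haA : a ∈ A := by
        by_contra haA
        exact hno b (Finset.mem_sdiff.mpr ⟨hbA, hbB⟩) a (Finset.mem_sdiff.mpr ⟨haB, haA⟩)
          hab.symm
      rw [hχX a (Finset.mem_union_left _ (Finset.mem_inter.mpr ⟨haA, haB⟩))]
      exact hψ.2 a (hAmem a haA) b (hAmem b hbA) hab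
    intro a ha b hb hab
    by_cases haB : a ∈ B <;> by_cases hbB : b ∈ B
    · simp only [haB, hbB, if_true]
      exact hχ.2 a (hBmem a haB) b (hBmem b hbB) hab
    · simp only [haB, hbB, if_true, if_false]
      exact key a ha b hb hab haB hbB
    · simp only [haB, hbB, if_true, if_false]
      exact (key b hb a ha hab.symm hbB haB).symm
    · simp only [haB, hbB, if_false]
      exact hψ.2 a (hAmem a (hAB' a ha haB)) b (hAmem b (hAB' b hb hbB)) hab
  · intro x hx
    by_cases hxB : x ∈ B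
    · simp only [hxB, if_true]
      have : x ∈ (A ∩ B) ∪ (X ∩ (B \ A)) := by
        simp only [Finset.mem_union, Finset.mem_inter, Finset.mem_sdiff]
        by_cases hxA : x ∈ A
        · exact Or.inl ⟨hxA, hxB⟩
        · exact Or.inr ⟨hx, hxB, hxA⟩
      rw [hχX x this, hψX x hx]
    · simp only [hxB, if_false]
      exact hψX x hx

/-- `Sep` is symmetric. -/
theorem sep_symm {S A B : Finset V} (h : Sep G S A B) : Sep G S B A :=
  ⟨by rw [Finset.union_comm]; exact h.1, fun a ha b hb hab => h.2 b hb a ha hab.symm⟩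

/-- (2) -/
theorem sep_ge (hB : Bad G k κ R X φ)
    (hmin : ∀ (R' X' : Finset V) (φ' : V → ℕ), R'.card < R.card → ¬ Bad G k κ R' X' φ')
    {A B : Finset V} (hS : Sep G (R ∪ X) A B) (hcard : (A ∩ B).card < κ) :
    R ∩ (A \ B) = ∅ ∨ R ∩ (B \ A) = ∅ := by
  classical
  by_contra hcon
  push Not at hcon
  obtain ⟨h1, h2⟩ := hcon
  have h1' : (R ∩ (A \ B)).Nonempty := by
    rw [Finset.nonempty_iff_ne_empty]
    exact Finset.nonempty_iff_ne_empty.mp h1
  have h2' : (R ∩ (B \ A)).Nonempty := by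
    rw [Finset.nonempty_iff_ne_empty]
    exact Finset.nonempty_iff_ne_empty.mp h2
  have hX : (X ∩ (A \ B)).card + (X ∩ (B \ A)).card ≤ X.card := by
    rw [← Finset.card_union_of_disjoint]
    · apply Finset.card_le_card
      intro a ha
      simp only [Finset.mem_union, Finset.mem_inter] at ha
      tauto
    · rw [Finset.disjoint_left]
      intro a ha ha'
      simp only [Finset.mem_inter, Finset.mem_sdiff] at ha ha'
      exact ha.2.2 ha'.2.1
  have hX2 := hB.2.1
  by_cases hle : (X ∩ (B \ A)).card ≤ κ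
  · exact sep_aux hB hmin hS hcard hle h1' h2'
  · have hle' : (X ∩ (A \ B)).card ≤ κ := by omega
    exact sep_aux hB hmin (sep_symm hS) (by rwa [Finset.inter_comm]) hle' h2' h1'

/-- (3) -/
theorem not_colorable (hB : Bad G k κ R X φ) :
    ¬ (G.induce (R : Set V)).Colorable (k - 2 * κ) := by
  classical
  obtain ⟨hd, hX, hp, hne⟩ := hB
  rintro ⟨C⟩
  -- unused colours
  have hU : k - 2 * κ ≤ (Finset.range k \ X.image φ).card := by
    have h1 := Finset.le_card_sdiff (X.image φ) (Finset.range k)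
    have h2 := Finset.card_image_le (s := X) (f := φ)
    rw [Finset.card_range] at h1
    omega
  obtain ⟨U, hUsub, hUcard⟩ := Finset.exists_subset_card_eq hU
  let e : Fin (k - 2 * κ) ≃ U := (Finset.equivFinOfCardEq hUcard).symm
  have he : ∀ i, ((e i : U) : ℕ) < k ∧ ((e i : U) : ℕ) ∉ X.image φ := by
    intro i
    have := hUsub (e i).2
    rw [Finset.mem_sdiff, Finset.mem_range] at this
    exact this
  apply hne
  refine ⟨fun w => if h : w ∈ R then ((e (C ⟨w, h⟩) : U) : ℕ) else φ w, ⟨?_, ?_⟩, ?_⟩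
  · intro a ha
    by_cases haR : a ∈ R
    · simp only [haR, dif_pos]
      exact (he _).1
    · simp only [haR, dif_neg, not_false_eq_true]
      exact hp.1 a ((Finset.mem_union.mp ha).resolve_left haR)
  · have key : ∀ a, ∀ haR : a ∈ R, ∀ b ∈ R ∪ X, b ∉ R → ((e (C ⟨a, haR⟩) : U) : ℕ) ≠ φ b := by
      intro a haR b hb hbR h
      have hbX := (Finset.mem_union.mp hb).resolve_left hbR
      exact (he (C ⟨a, haR⟩)).2 (Finset.mem_image.mpr ⟨b, hbX, h.symm⟩)
    intro a ha b hb hab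
    by_cases haR : a ∈ R <;> by_cases hbR : b ∈ R
    · simp only [haR, hbR, dif_pos]
      intro h
      have h1 : e (C ⟨a, haR⟩) = e (C ⟨b, hbR⟩) := Subtype.ext h
      have h2 := e.injective h1
      exact C.valid (v := ⟨a, haR⟩) (w := ⟨b, hbR⟩) (by simpa using hab) h2
    · simp only [haR, hbR, dif_pos, dif_neg, not_false_eq_true]
      exact key a haR b hb hbR
    · simp only [haR, hbR, dif_pos, dif_neg, not_false_eq_true]
      exact (key b hbR a ha haR).symm
    · simp only [haR, hbR, dif_neg, not_false_eq_true]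
      exact hp.2 a ((Finset.mem_union.mp ha).resolve_left haR) b
        ((Finset.mem_union.mp hb).resolve_left hbR) hab
  · intro x hx
    have hxR : x ∉ R := fun h => (Finset.disjoint_left.mp hd) h hx
    simp only [hxR, dif_neg, not_false_eq_true]

end Trip

/-- ROW T (minimal triple). -/
theorem triple (G : SimpleGraph V) (k κ : ℕ) (hk : ¬ G.Colorable k) (hκ : 2 * κ ≤ k) :
    ∃ R X : Finset V, Disjoint R X ∧ X.card ≤ 2 * κ ∧
      (∀ v ∈ R, k ≤ degIn G (R ∪ X) v) ∧
      (∀ A B : Finset V, Sep G (R ∪ X) A B → (A ∩ B).card < κ →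
        R ∩ (A \ B) = ∅ ∨ R ∩ (B \ A) = ∅) ∧
      ¬ (G.induce (R : Set V)).Colorable (k - 2 * κ) := by
  have _h := hκ
  obtain ⟨R, X, φ, hB, hmin⟩ := Trip.exists_min G k κ hk
  exact ⟨R, X, hB.1, hB.2.1, fun v hv => Trip.deg_ge hB hmin hv,
    fun A B hS hc => Trip.sep_ge hB hmin hS hc, Trip.not_colorable hB⟩

end Vale.Agent.P060
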