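import Mathlib
import Vale.Agent.P060.Defs
import Vale.Agent.P060.Triple
import Vale.Agent.P060.LinkHub
import Vale.Agent.P060.Link
import Vale.Agent.P060.SampleConn
import Vale.Agent.P060.DM
import Vale.Agent.P060.Combine
import Vale.Agent.P060.Pack
import Vale.Agent.P060.Colour

/-! P060: assembly of the small-graph theorem. -/

namespace Vale.Agent.P060

open Finset

variable {V : Type} [Fintype V] [DecidableEq V]

omit [Fintype V] [DecidableEq V] in
/-- monotonicity of models -/
theorem HasModel.mono {G : SimpleGraph V} {S : Finset V} {s t : ℕ} (h : HasModel G S t)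
    (hst : s ≤ t) : HasModel G S s := by
  obtain ⟨B, h1, h2, h3, h4⟩ := h
  refine ⟨fun i => B (Fin.castLE hst i), fun i => h1 _, fun i => h2 _, ?_, ?_⟩
  · intro i j hij
    exact h3 _ _ (fun h => hij (by simpa [Fin.ext_iff] using h))
  · intro i j hij
    exact h4 _ _ (fun h => hij (by simpa [Fin.ext_iff] using h))

omit [Fintype V] [DecidableEq V] in
/-- Colourings of two parts give a colouring of the union. -/
theorem colorable_union (G : SimpleGraph V) (S T W : Set V) (a b : ℕ) (hW : W ⊆ S ∪ T)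
    (hS : (G.induce S).Colorable a) (hT : (G.induce T).Colorable b) :
    (G.induce W).Colorable (a + b) := by
  classical
  obtain ⟨f⟩ := hS
  obtain ⟨g⟩ := hT
  have key : (G.induce W).Coloring (Fin a ⊕ Fin b) := by
    refine SimpleGraph.Coloring.mk
      (fun w => if h : (w : V) ∈ S then Sum.inl (f ⟨w, h⟩)
        else if h' : (w : V) ∈ T then Sum.inr (g ⟨w, h'⟩) else Sum.inr (g ⟨w, by
          have := hW w.2
          rcases this with h1 | h1
          · exact absurd h1 h
          · exact h1⟩)) ?_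
    intro x y hxy
    have hxy' : G.Adj (x : V) (y : V) := by simpa using hxy
    have hT' : ∀ w : W, (w : V) ∉ S → (w : V) ∈ T := by
      intro w hw
      rcases hW w.2 with h1 | h1
      · exact absurd h1 hw
      · exact h1
    by_cases hx : (x : V) ∈ S <;> by_cases hy : (y : V) ∈ S
    · simp only [hx, hy, dif_pos, ne_eq, Sum.inl.injEq]
      exact f.valid (by simpa using hxy')
    · simp only [hx, hy, dif_pos, dif_neg, not_false_eq_true, hT' y hy, ne_eq]
      simp
    · simp only [hx, hy, dif_pos, dif_neg, not_false_eq_true, hT' x hx, ne_eq]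
      simp
    · simp only [hx, hy, dif_pos, dif_neg, not_false_eq_true, hT' x hx, hT' y hy, ne_eq,
        Sum.inr.injEq]
      exact g.valid (by simpa using hxy')
  have := key.colorable
  simpa using this

omit [Fintype V] in
theorem degIn_union_le (G : SimpleGraph V) (S T : Finset V) (v : V) :
    degIn G (S ∪ T) v ≤ degIn G S v + T.card := by
  classical
  unfold degIn
  rw [Finset.filter_union]
  refine (Finset.card_union_le _ _).trans ?_
  exact Nat.add_le_add_left (Finset.card_le_card (Finset.filter_subset _ _)) _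

/-- One half: `R \ Y` has few colours if `Y` is a good hub. -/
theorem half (G : SimpleGraph V) (r m : ℕ) (hr : 2 ≤ r) (hm : 1 ≤ m)
    (hn2 : Fintype.card V ≤ 16 * m * 2 ^ (3 * r ^ 2))
    (hG : ¬ HasModel G univ (r * m)) (R X Y : Finset V) (hRX : Disjoint R X)
    (hX : X.card ≤ 2 * (10 ^ 7 * (r ^ 2 * m))) (hY : Y ⊆ R ∪ X) (hR : R.Nonempty)
    (hg : Good G R (r ^ 2 * m) Y) :
    (G.induce ((R \ Y : Finset V) : Set V)).Colorable (16000 * (r ^ 2 * m)) := by
  classical
  have hu : 1 ≤ r ^ 2 * m := Nat.mul_pos (Nat.one_le_pow _ _ (by omega)) hm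
  have hlink : Linkable G Y (R ∩ Y) (4 * (r ^ 2 * m)) := linkHub_of (fun G S Z k α => link G S Z k α) G R X Y _ hu hRX hX hY hR hg
  have hno : ¬ ∃ W : Fin (r ^ 2) → Finset V, (∀ i, W i ⊆ R \ Y) ∧
      (∀ i j, i ≠ j → Disjoint (W i) (W j)) ∧ ∀ i, Hard G (4 * m) (W i) := by
    rintro ⟨W, hW1, hW2, hW3⟩
    apply hG
    let e : Fin r × Fin r → Fin (r ^ 2) := fun x => Fin.cast (pow_two r).symm (finProdFinEquiv x)
    have he : Function.Injective e := by
      intro x y hxy
      exact finProdFinEquiv.injective ((Fin.cast_injective _) hxy)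
    refine combine G r m hr hm Y (R ∩ Y) Finset.inter_subset_right hlink
      (fun a b => W (e (a, b))) ?_ ?_ ?_ ?_
    · intro a b
      exact Finset.disjoint_left.2 fun x hx hxY => (Finset.mem_sdiff.1 (hW1 _ hx)).2 hxY
    · intro a b a' b' hne
      exact hW2 _ _ (fun h => hne (he h))
    · intro a b
      apply duchet_meyniel
      have := hW3 (e (a, b))
      rwa [show 2 * (2 * m) = 4 * m by ring]
    · intro a b v hv
      have hvR : v ∈ R := (Finset.mem_sdiff.1 (hW1 _ hv)).1
      have := hg.1 v hvR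
      refine le_trans ?_ this
      exact Nat.mul_le_mul_right _ (by norm_num)
  have hq : 1 ≤ r ^ 2 := Nat.one_le_pow _ _ (by omega)
  obtain ⟨z, hz0, hz1, hz2⟩ := pack G (R \ Y) (4 * m) (r ^ 2) hq hno
  have hcard : (R \ Y).card ≤ 16 * m * 2 ^ (3 * r ^ 2) := (Finset.card_le_univ _).trans hn2
  have hcol := colour G (R \ Y) (16 * m) (6 * r ^ 2) (3 * r ^ 2) (by omega) z hz0
    (by push_cast at hz1 ⊢; exact hz1) (by
      intro U hU hz
      obtain ⟨I, h1, h2, h3⟩ := hz2 U hU hz
      exact ⟨I, h1, h2, by rwa [show 4 * (4 * m) = 16 * m by ring] at h3⟩) hcard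
  refine hcol.mono ?_
  have : 1 ≤ r ^ 2 := hq
  calc 100 * (16 * m) * (6 * r ^ 2 + 3 * r ^ 2 + 1) ≤ 100 * (16 * m) * (10 * r ^ 2) :=
        Nat.mul_le_mul_left _ (by linarith)
    _ = 16000 * (r ^ 2 * m) := by ring

/-- ROW A (assembly). -/
theorem main (G : SimpleGraph V) (r m : ℕ) (hr : 2 ≤ r) (hm : 1 ≤ m)
    (hn : Fintype.card V ≤ (r ^ 2 * m) ^ 2) (hn2 : Fintype.card V ≤ 16 * m * 2 ^ (3 * r ^ 2))
    (hG : ¬ HasModel G univ (r * m)) : G.Colorable (10 ^ 10 * (r ^ 2 * m)) := by
  classical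
  by_contra hcol
  have hu : 1 ≤ r ^ 2 * m := Nat.mul_pos (Nat.one_le_pow _ _ (by omega)) hm
  obtain ⟨R, X, hd, hX, hdeg, hP, hnc⟩ := triple G (10 ^ 10 * (r ^ 2 * m)) (10 ^ 7 * (r ^ 2 * m))
    hcol (by omega)
  have hR : R.Nonempty := by
    rw [Finset.nonempty_iff_ne_empty]
    rintro rfl
    apply hnc
    have : IsEmpty ((∅ : Finset V) : Set V) := by simp
    exact SimpleGraph.Colorable.of_isEmpty _
  have hdegR : ∀ v ∈ R, 10 ^ 9 * (r ^ 2 * m) ≤ degIn G R v := by
    intro v hv
    have h1 := hdeg v hv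
    have h2 := degIn_union_le G R X v
    omega
  obtain ⟨Y, hYs, hg1, hg2⟩ := sample G R X (r ^ 2 * m) hu hd
    ((Finset.card_le_univ _).trans hn) hX hP hdegR
  have c1 := half G r m hr hm hn2 hG R X Y hd hX hYs hR hg1
  have c2 := half G r m hr hm hn2 hG R X ((R ∪ X) \ Y) hd hX Finset.sdiff_subset hR hg2
  apply hnc
  have := colorable_union G _ _ (R : Set V) _ _ (by
    intro x hx
    have hx' : x ∈ R := by simpa using hx
    by_cases hxY : x ∈ Y
    · right
      simp [hx', hxY]
    · left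
      simp [hx', hxY]) c1 c2
  refine this.mono ?_
  omega

end Vale.Agent.P060
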